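import Vale.Agent.P283B.EB.Sn
import Vale.Agent.P287D.Pb.Res
import Vale.Agent.P287D.Ad.Df
import Vale.Agent.P287D.Cb.Lg

/-!
# P283B, block EB: the leaves of the cutting argument (statements)
-/

set_option linter.unusedVariables false

open Set

noncomputable section

namespace Vale.Agent.P283B.Eb

open P287D P287D.Cb

section defs

variable {K K' : Type} [Field K] [Algebra ℂ K] [Field K'] [Algebra ℂ K']

/-- the new constants contain a copy `j` of `K` -/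
def Hc (φ : K →+* K') (j : K →+* ℂ) : Prop :=
  ∀ c, φ (algebraMap ℂ K c) = algebraMap ℂ K' (j (algebraMap ℂ K c))

/-- the function `u - u(generic point)` -/
def tt (φ : K →+* K') (j : K →+* ℂ) (u : K) : K' := φ u - algebraMap ℂ K' (j u)

/-- `x` lies over the blow up of the generic fibre of `y` -/
structure Bu {k : ℕ} (φ : K →+* K') (j : K →+* ℂ) (y : Fin (k + 1) → K) (x : Pl K') : Prop where
  trv : Trv φ x
  pos : 0 < x.ord (tt φ j (y 0))
  mem : ∀ i : Fin k, tt φ j (y i.succ) / tt φ j (y 0) ∈ x.ring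
  ind : AlgebraicIndependent ℂ fun i : Fin k => x.rd (tt φ j (y i.succ) / tt φ j (y 0))

/-- the data of the cutting argument -/
structure Bl (n : ℕ) (Λ N Γ : BD K) : Prop where
  ff : FF K (n + 1)
  sl : Smp Λ
  bl : Big Λ
  dn : Dsc Λ N
  smp : Smp N
  big : Big N
  nef : Nef ((2 : ℝ) • N - Γ)
  bdy : Bdy n Λ Γ
  int : ZOn n Λ N

/-- the functions in `F` have the same constant values at `P` and at `R` -/
def Ag (φ : K →+* K') (F : IntermediateField ℂ K) (P R : Pl K') : Prop :=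
  ∀ u ∈ F, ∃ c, Mx P (φ u - algebraMap ℂ K' c) ∧ Mx R (φ u - algebraMap ℂ K' c)

/-- a generic tiger `P` with a generic mark `R` -/
structure Mk (n : ℕ) (φ : K →+* K') (N Γ : BD K) (F : IntermediateField ℂ K) (Γ' Δ : BD K')
    (a : ℝ) (P R : Pl K') : Prop where
  xt : Xt n φ Γ Γ'
  tg : Tg n (pb φ N) Γ' Δ a P
  tP : Trv φ P
  tR : Trv φ R
  lt : dsc (n + 1) (Γ' + Δ) R < -1
  ag : Ag φ F P R

end defs

/-- **PBU**: the blow up of the generic fibre of `y` -/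
def PBU : Prop := ForH fun K K' _ _ _ _ φ => ∀ (n k : ℕ) (Γ : BD K) (Γ' : BD K') (j : K →+* ℂ)
  (y : Fin (k + 1) → K), Xt n φ Γ Γ' → Hc φ j → AlgebraicIndependent ℂ y → ∃ x, Bu φ j y x ∧
    dsc (n + 1) Γ' x + 1 = (k + 1) * x.ord (tt φ j (y 0)) ∧
    (k < n → ∃ w, x.rd (φ w) ∉ range (algebraMap ℂ x.κ))

/-- **MULT**: divisors from a subfield with a high multiplicity along the generic fibre -/
def MULT : Prop := ForH fun K K' _ _ _ _ φ => ∀ (n k : ℕ) (L : IntermediateField ℂ K)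
  (j : K →+* ℂ) (y : Fin (k + 1) → L) (x : Pl K') (h : BD L) (c : ℝ), Ext ⊥ φ → FF K n →
  Hc φ j → FF L (k + 1) → AlgebraicIndependent ℂ y → Bu φ j (fun i => (y i : K)) x → Nef h →
  0 ≤ c → c ^ (k + 1) < vol (k + 1) h →
    ∃ G, Rep (pb φ (pb (inc L) h)) G ∧ c * x.ord (tt φ j (y 0)) ≤ G x

/-- **ADJ**: the different is effective at the generic places -/
def ADJ : Prop := ForH fun K K' _ _ _ _ ψ => ∀ (n : ℕ) (Θ : BD K) (Θ' : BD K') (P : Pl K)
  (P₁ : Pl K') (l : Lies ψ P₁ P) (X : BD P₁.κ) (x : Pl P₁.κ), Xt (n + 1) ψ Θ Θ' → Θ ∈ Car K →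
  dsc (n + 2) Θ P = -1 → Xt n l.κ 0 X → Trv l.κ x →
    dsc (n + 1) (adj (n + 1) P₁ Θ') x ≤ dsc (n + 1) X x

/-- **SEPL**: a section upstairs which separates two generic places -/
def SEPL : Prop := ForH fun K K' _ _ _ _ φ => ∀ (n : ℕ) (β : BD K) (F : IntermediateField ℂ K)
  (P R : Pl K') (f : K'), Ext ⊥ φ → FF K (n + 1) → β ∈ Car K → Trv φ P → Trv φ R → Ag φ F P R →
  Sec (pb φ β) f → ¬ Mx P f → Mx R f → ∃ s₁ s₂, Sec β s₁ ∧ Sec β s₂ ∧ s₁ / s₂ ∉ F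

/-- **SEP**: a marked tiger at a point gives a new function -/
def SEP : Prop := ForH fun K K' _ _ _ _ φ => ∀ (n m : ℕ) (Λ N Γ : BD K)
  (F : IntermediateField ℂ K) (Γ' Δ : BD K') (a : ℝ) (P R : Pl K'), Bl n Λ N Γ →
  Mk n φ N Γ F Γ' Δ a P R → cd (pb φ N) P = 0 → a + 2 < m →
    ∃ s₁ s₂, Sec ((m : ℝ) • N) s₁ ∧ Sec ((m : ℝ) • N) s₂ ∧ s₁ / s₂ ∉ F

/-- **GFB**: from generically finite to birational -/
def GFB : Prop := ∀ n, ForN n fun K _ _ => ∀ (Λ N Γ : BD K) (κ m : ℕ) (g : K)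
  (y : Fin (n + 1) → K), Bl n Λ N Γ → g ≠ 0 → Sec ((κ : ℝ) • N) g →
  (∀ i, Sec ((κ : ℝ) • N) (g * y i)) → AlgebraicIndependent ℂ y → κ ∣ m →
  (n + 2) * κ + 3 ≤ m → Bir ((m : ℝ) • N)

end Vale.Agent.P283B.Eb
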