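import Vale.Agent.P283B.EB.Cut1
import Vale.Agent.P283B.EB.Cs

/-!
# P283B, block EB: the different is effective at the generic places
-/

set_option linter.unusedVariables false

open Set

noncomputable section

namespace Vale.Agent.P283B.Eb

open P287D P287D.Pr

/-- **ADJ** -/
theorem adjle : ADJ := by
  intro K K' _ _ _ _ ψ n Θ Θ' P P₁ l X x h cΘ lc hX t
  classical
  obtain ⟨s, κ, T, g, L, hP, u, v⟩ := ls2 h.ff (finite_singleton P) cΘ cΘ
  obtain ⟨d, e⟩ := L.hull_sum fun Q => max (dsc (n + 2) Θ Q) 0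
  generalize (∑ Q ∈ T, max (dsc (n + 2) Θ Q) 0 • g Q) = B at d e
  have o := L.on P (hP P rfl)
  have z : B P = 0 := by rw [e P o, if_pos (hP P rfl), lc]; norm_num
  have bd : Bdy (n + 1) (mx s) (Θ + B) := fun Q q => by
    rw [dsc_add, e Q q]
    split_ifs with k
    · exact sub_nonpos.2 (le_max_left _ _)
    · have a := u.2 Q q k
      have b := L.d0 q
      simp only [dsc, Pi.sub_apply] at a b ⊢
      linarith
  have h₂ := h.add B
  have s₁ := h.ok.smp L.smp
  have b0 := (res'.on _ K h.ff _ P L.smp).1 o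
  have b1 := h.res_big l hX.ext L.smp.car b0
  have c := add_mem cΘ d.car
  have c' : Θ' ∈ Car K' := by simpa using add_mem (Prn_le_Car h.prn) (h.ok.car cΘ)
  have c₂ := add_mem c' (h.ok.car d.car)
  have a := a3 n K' h.ff' _ P₁ s₁ (h.big L.big) ((res'.on _ K' h.ff' _ P₁ s₁).2 b1) _
    ((h.ok.dsc (v.1.add d)).congr h₂.prn) (h₂.bdy L.smp L.big bd) (by
      rw [(h₂.ovr l hX.ext).1, dsc_add, lc, z, sub_zero])
  have w := Wp.genx hX.ff' hX.ok b0 (res_smp h.ff' P₁ s₁) b1 (h.res_prn l L.smp.car)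
    (Z := adj (n + 1) P₁ (Θ' + pb ψ B) - pb l.κ (res P (Θ + B)) - X)
    (.of_prn (res_smp h.ff' P₁ s₁) (sub_mem (by
      simpa using add_mem (add_mem (a1 _ K' h.ff' P₁ _ c₂).2.1
        (res_congr h.ff' P₁ (h.ok.car c) h₂.prn)) (h.res_prn l c))
      (by simpa [pb_zero] using hX.prn))) (fun Q q k => by
      have i := a Q q
      have j := hX.trv k
      simp only [dsc, Pi.sub_apply, k.pb] at i j ⊢
      linarith) t
  rw [(a4 _ K' h.ff' P₁ _ c' _ (h.ok.car d.car)).1,
    (h.cst.res_lies res' h.ff h.ff' l l.isRd d.car).2 z] at w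
  simp only [dsc, Pi.add_apply, Pi.sub_apply, t.pb] at w ⊢
  linarith

end Vale.Agent.P283B.Eb
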