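import Vale.Agent.P283B.EB.St
import Vale.Agent.P283B.LC.G0

/-!
# P283B, block EB: the interface between the two halves for nef and big polarisations
-/

set_option linter.unusedVariables false

open Set

noncomputable section

namespace Vale.Agent.P283B.Eb

open P287D

/-- the data of `EBN` -/
structure Dn {K : Type} [Field K] [Algebra ℂ K] (n : ℕ) (ε : ℝ) (q : ℕ) (Λ N Γ : BD K) :
    Prop where
  ff : FF K (n + 1)
  pr : Pr n Λ Γ
  elc : ELc n ε Γ All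
  cf : Cf n Λ Γ (Frq q) All
  dn : Dsc Λ N
  sn : Smp N
  bn : Big N
  car : CarQ N
  int : ZOn n Λ N
  psm : Psef (N - Γ)
  psp : Psef (N + Γ)

/-- **KN0**: a birational multiple of bounded volume is bounded -/
def KN0 (n : ℕ) (ε : ℝ) (q : ℕ) : Prop := ∀ v : ℝ, ∃ m₀ : ℕ, ∀ (K : Type) [Field K] [Algebra ℂ K]
  (Λ N Γ : BD K) (m : ℕ), Dn n ε q Λ N Γ → Bir ((m : ℝ) • N) → vol (n + 1) ((m : ℝ) • N) ≤ v →
    m ≤ m₀

/-- **KN1**: the same for the volume of the centre (of dimension `k + 1`) of a generic tiger of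
small level -/
def KN1 (n k : ℕ) (ε : ℝ) (q : ℕ) : Prop := ∀ v : ℝ, ∃ (η : ℝ) (m₀ : ℕ), 0 < η ∧
  ForH fun K K' _ _ _ _ φ => ∀ (Λ N Γ : BD K) (Γ' Δ : BD K') (a : ℝ) (P : Pl K')
    (h : BD (fld (res P (pb φ N)))) (m : ℕ), Dn n ε q Λ N Γ → Xt n φ Γ Γ' →
    Tg n (pb φ N) Γ' Δ a P → Trv φ P → FF (fld (res P (pb φ N))) (k + 1) → Po (pb φ N) P h →
    Bir ((m : ℝ) • N) → a ≤ η * m → vol (k + 1) ((m : ℝ) • h) ≤ v → m ≤ m₀

/-- the first half -/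
def KN (n : ℕ) : Prop := ∀ (ε : ℝ) (q : ℕ), 0 < ε → 0 < q → KN0 n ε q ∧ ∀ k < n, KN1 n k ε q

/-- **CUTN**: the second half -/
def CUTN : Prop := ∀ n, KN n → Lg.EBN n

end Vale.Agent.P283B.Eb
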