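import Vale.Agent.P283B.EB.Cen
import Vale.Agent.P283B.EB.Sn

/-!
# P283B, block EB: the first half for nef and big polarisations
-/

set_option linter.unusedVariables false

open Set

noncomputable section

namespace Vale.Agent.P283B.Eb

open P287D

/-- **KN** from the perturbation lemma and the limiting lemma -/
theorem kn_of (wp : WPX) (lim : ∀ k, LIM k) (n : ℕ) : KN n := fun ε q e0 q0 => by
  refine ⟨fun v => ?_, fun k _ v => ?_⟩
  · obtain ⟨η, m₀, η0, H⟩ := lim n ε q v e0 q0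
    exact ⟨m₀, fun K _ _ Λ N Γ m d => H K 0 m Λ Γ N 0 (wk_of d.ff (Ba.mod.isb n K d.ff).2.2 d.pr
      d.elc d.cf q0 d.dn d.sn d.bn d.car d.int d.psm d.psp) le_rfl (by positivity)⟩
  obtain ⟨η, m₀, η0, H⟩ := lim k (min ε 1) q v (lt_min e0 one_pos) q0
  refine ⟨η / 2, m₀, half_pos η0,
    fun K K' _ _ _ _ φ Λ N Γ Γ' Δ a P g m d x t tr hL po b am hv => ?_⟩
  have h : Ce n φ Λ N Γ Γ' Δ a P :=
    ⟨x, t, tr, d.pr.smp, d.pr.big, d.pr.des, d.pr.bdy, d.dn, d.sn, d.bn⟩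
  rcases m.eq_zero_or_pos with rfl | m0
  · exact Nat.zero_le _
  obtain ⟨Γ₁, Z, w⟩ := h.cen wp hL e0 q0 d.pr.rat d.elc d.cf d.car d.int d.psm d.psp (half_pos η0)
  have m1 : (1 : ℝ) ≤ m := by exact_mod_cast m0
  refine H _ _ m _ _ _ _ w (add_pos t.pos (half_pos η0)).le (by nlinarith)
    (pb_smul h.ψ _ N ▸ h.bir b) (le_of_eq_of_le ?_ hv)
  refine Iso.I_congr (In.hy.row _ _ hL) (fun _ => Submodule.smul_mem _ _ po.smp.car) fun _ => ?_
  rw [← smul_sub]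
  refine Submodule.smul_mem _ _ ((pb_prn_iff h.fκ (cld_fld _)).1 ?_)
  rw [pb_sub, ← h.res_pb d.sn.car]
  exact po.prn

end Vale.Agent.P283B.Eb
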