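import Vale.Agent.P283B.EB.Hmx
import Vale.Agent.P287D.In.All
import Vale.Agent.P287D.In.Vol
import Vale.Agent.P287D.Ku.Ex
import Vale.Agent.P287D.Pr.Lr

/-!
# P283B, block EB: the bounds of the degrees, without hypotheses on the rows
-/

set_option linter.unusedVariables false

open Set

noncomputable section

namespace Vale.Agent.P283B.Eb

open P287D

theorem red : RED := fun n K _ _ hK u hu hb =>
  let ⟨_, _, _, _, _, _, f, l, _, _, _, _, d, e, f0, g, j⟩ := Pr.ber1 hK finite_empty
    (finite_singleton (mx u)) (forall_eq.2 (mx_mem_Car u)) hu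
  ⟨f, e, f0, fun P o => (em _).elim (fun p => .inr (j P p)) fun p =>
    .inl (g.2 P (Pr.on_mono res' hK (smp_mx u) l.smp (d _ rfl).1 o) p)⟩

theorem rw (hb : U.HB) : Rw :=
  ⟨Ba.mod, res', int', In.hy, Ba.Vl.volA, neg', Ku.extu, red, hb⟩

theorem deg (hb : U.HB) (k : ℕ) : DEG k := (rw hb).deg k

theorem hn (hb : U.HB) (k : ℕ) : HN k := (rw hb).hn k

end Vale.Agent.P283B.Eb
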