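import Vale.Agent.P283B.EB.Cs
import Vale.Agent.P287D.Tg.Up
import Vale.Agent.P287D.Ti.One
import Vale.Agent.P287D.Ku.Ex
import Vale.Agent.P287D.Pb.Lf
import Vale.Agent.P287D.Iso.Kap

/-!
# P283B, block EB: from generically finite to birational
-/

set_option linter.unusedVariables false
set_option linter.unusedSectionVars false

open Set Cardinal MvPolynomial
open Vale.Agent.P297Z
open Vale.Agent.P285N.Brep (jac Fr)

noncomputable section

namespace Vale.Agent.P283B.Eb.Gb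

open P287D P287D.Pr P287D.Cb

variable {n : ℕ} {K K' : Type} [Field K] [Algebra ℂ K] [Field K'] [Algebra ℂ K'] {φ : K →+* K'}
  {Λ N Γ : BD K} {Γ' : BD K'}

/-- the constants are an algebraic closure of a copy of `K` -/
theorem exists_j (hK : FF K n) :
    ∃ j : K →+* ℂ, ∀ c : ℂ, ∃ p : Polynomial K, p.Monic ∧ p.eval₂ j c = 0 := by
  have := charZero_of K
  have h1 : 𝔠 ≤ #(AlgebraicClosure K) := mk_complex ▸ mk_le_of_injective
    ((algebraMap K (AlgebraicClosure K)).comp (algebraMap ℂ K)).injective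
  have h2 : #(AlgebraicClosure K) ≤ 𝔠 :=
    (Algebra.IsAlgebraic.cardinalMk_le_max K _).trans (max_le hK.card aleph0_le_continuum)
  obtain ⟨e⟩ := IsAlgClosed.ringEquiv_of_equiv_of_charZero (K := AlgebraicClosure K) (L := ℂ)
    (aleph0_lt_continuum.trans_le h1) (Cardinal.eq.1 ((le_antisymm h2 h1).trans mk_complex.symm))
  refine ⟨e.toRingHom.comp (algebraMap K _), fun c => ?_⟩
  obtain ⟨c, rfl⟩ := e.surjective c
  obtain ⟨p, m, hp⟩ := Algebra.IsIntegral.isIntegral (R := K) c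
  exact ⟨p, m, (Polynomial.hom_eval₂ p _ e.toRingHom c).symm.trans
    ((congrArg _ hp).trans (map_zero _))⟩

/-- an automorphism of the new constants over the old ones extends -/
theorem exists_aut (h : Ext ⊥ φ) (τ : ℂ ≃+* ℂ)
    (hτ : ∀ c, algebraMap ℂ K' c ∈ φ '' (⊥ : IntermediateField ℂ K) → τ c = c) :
    ∃ σ : K' →+* K', Semi σ ∧ (∀ f, σ (φ f) = φ f) ∧
      ∀ c, σ (algebraMap ℂ K' c) = algebraMap ℂ K' (τ c) := by
  have hx : IntermediateField.adjoin (⊥ : IntermediateField ℂ K) (range (id : K → K)) = ⊤ :=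
    eq_top_iff.2 fun a _ => IntermediateField.subset_adjoin _ _ ⟨a, rfl⟩
  obtain ⟨j, hj, e⟩ : ∃ j : (⊥ : IntermediateField ℂ K) →+* ℂ,
      (∀ a, algebraMap ℂ K' (j a) = φ a) ∧ RingHom.ker (Gx.ev φ id) = (RingHom.ker (aeval id :
        MvPolynomial K (⊥ : IntermediateField ℂ K) →ₐ[(⊥ : IntermediateField ℂ K)] K)).map
        (MvPolynomial.map j) := h.elim fun e b => e ▸
    ⟨_, fun a => (IsScalarTower.algebraMap_apply _ ℂ K' a).symm, Gx.ker_be b id⟩
  have k : (MvPolynomial.map (σ := K) τ.toRingHom).comp (MvPolynomial.map j) =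
      MvPolynomial.map j := RingHom.ext fun p => (MvPolynomial.map_map _ _ p).trans
    (congrArg (fun u => MvPolynomial.map u p) (RingHom.ext fun a => hτ _ ⟨a, a.2, (hj a).symm⟩))
  have e : RingHom.ker (Gx.ev φ id) =
      RingHom.ker ((Gx.ev φ id).comp (MvPolynomial.map τ.toRingHom)) := by
    rw [← RingHom.comap_ker, e]
    conv_rhs => rw [← k, ← Ideal.map_map]
    exact (Ideal.comap_map_of_bijective _
      ⟨map_injective _ τ.injective, map_surjective _ τ.surjective⟩).symm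
  obtain ⟨θ, hθ⟩ := Gx.frac _ _ e (Gx.ev_frac h hx)
  have c : ∀ c, θ (algebraMap ℂ K' c) = algebraMap ℂ K' (τ c) := fun c => by
    simpa [Gx.ev] using hθ (C c)
  refine ⟨θ, ⟨fun z => ?_, fun a => ⟨_, (c a).symm⟩, fun a => ⟨τ.symm a, by simp [c]⟩⟩,
    fun f => by simpa [Gx.ev] using hθ (X f), c⟩
  obtain ⟨a, b, rfl⟩ := Gx.ev_frac h hx z
  obtain ⟨a, rfl⟩ := map_surjective τ.toRingHom τ.surjective a
  obtain ⟨b, rfl⟩ := map_surjective τ.toRingHom τ.surjective b
  exact ⟨Gx.ev φ id a / Gx.ev φ id b, by rw [map_div₀, hθ, hθ]; rfl⟩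

theorem mx_cst {x : Pl K'} {c : ℂ} (h : Mx x (algebraMap ℂ K' c)) : c = 0 := by
  rwa [← rd_eq_zero (x.con c), rd_const, map_eq_zero] at h

theorem mx_uniq {x : Pl K'} {a : K'} {c d : ℂ} (h : Mx x (a - algebraMap ℂ K' c))
    (k : Mx x (a - algebraMap ℂ K' d)) : c = d := by
  have := k.sub h
  rw [sub_sub_sub_cancel_left, ← map_sub] at this
  exact sub_eq_zero.1 (mx_cst this)

/-- the values at a closed point -/
theorem exists_ev {x : Pl K'} (r : ∀ f, ∃ c, Mx x (φ f - algebraMap ℂ K' c)) :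
    ∃ v : K →+* ℂ, ∀ f, Mx x (φ f - algebraMap ℂ K' (v f)) := by
  choose v hv using r
  have m : ∀ f, φ f ∈ x.ring := fun f => by simpa using add_mem (hv f).mem (x.con (v f))
  refine ⟨⟨⟨⟨v, mx_uniq (hv 1) (by simp [mx_zero])⟩, fun a b => mx_uniq (hv _) ?_⟩,
    mx_uniq (hv 0) (by simp [mx_zero]), fun a b => mx_uniq (hv _) ?_⟩, hv⟩
  · have := ((hv a).mul (m b)).add ((hv b).mul (x.con (v a)))
    rwa [show _ + _ = φ (a * b) - algebraMap ℂ K' (v a * v b) by simp only [map_mul]; ring] at this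
  · simpa only [map_add, add_sub_add_comm] using (hv a).add (hv b)

/-- a conjugate embedding which moves a given function -/
theorem exists_tau {F : IntermediateField ℂ K} {s : Set K} (hs : s ⊆ F)
    [Algebra.IsAlgebraic (IntermediateField.adjoin ℂ s) K] (j v : K →+* ℂ)
    (hj : ∀ c : ℂ, ∃ p : Polynomial K, p.Monic ∧ p.eval₂ j c = 0)
    (e1 : ∀ c, v (algebraMap ℂ K c) = j (algebraMap ℂ K c)) (e2 : ∀ a ∈ s, v a = j a) {w : K}
    (hw : w ∉ F) : ∃ τ : ℂ ≃+* ℂ, (∀ u ∈ F, τ (v u) = v u) ∧ τ (v w) ≠ v w := by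
  have := charZero_of F
  have le : IntermediateField.adjoin ℂ s ≤ F := IntermediateField.adjoin_le_iff.2 hs
  have e : ∀ a ∈ IntermediateField.adjoin ℂ s, v a = j a := fun a ha => by
    induction ha using IntermediateField.adjoin_induction with
    | mem a ha => exact e2 a ha
    | algebraMap c => exact e1 c
    | add a b _ _ ha hb => rw [map_add, map_add, ha, hb]
    | mul a b _ _ ha hb => rw [map_mul, map_mul, ha, hb]
    | inv a _ ha => rw [map_inv₀, map_inv₀, ha]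
  have al : ∀ c : ℂ, ∃ p : Polynomial (IntermediateField.adjoin ℂ s), p.Monic ∧
      p.eval₂ (j.comp (inc _)) c = 0 := fun c => by
    let _ : Algebra K ℂ := j.toAlgebra
    exact isIntegral_trans (R := IntermediateField.adjoin ℂ s) (A := K) c (hj c)
  let _ : Algebra F ℂ := (v.comp (inc F)).toAlgebra
  have : Algebra.IsAlgebraic F ℂ := ⟨fun c => by
    obtain ⟨p, m, hp⟩ := al c
    refine IsIntegral.isAlgebraic ⟨p.map (IntermediateField.inclusion le).toRingHom, m.map _, ?_⟩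
    rw [Polynomial.eval₂_map, ← hp]
    exact congrArg (fun u => p.eval₂ u c) (RingHom.ext fun a => e a a.2)⟩
  have : IsAlgClosure F ℂ := ⟨inferInstance, inferInstance⟩
  have k : v w ∉ range (algebraMap F ℂ) := fun ⟨u, hu⟩ => hw (v.injective hu ▸ u.2)
  rw [InfiniteGalois.mem_range_algebraMap_iff_fixed, not_forall] at k
  obtain ⟨τ, hτ⟩ := k
  exact ⟨τ.toRingEquiv, fun u hu => τ.commutes ⟨u, hu⟩, hτ⟩

/-- a place over the generic point `j` with the expected log discrepancy -/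
structure Gp (n : ℕ) (Γ' : BD K') (T : Fin (n + 1) → K') (x : Pl K') : Prop where
  pos : 0 < x.ord (T 0)
  le : ∀ i, x.ord (T 0) ≤ x.ord (T i)
  ld : dsc (n + 1) Γ' x + 1 = (n + 1) * x.ord (T 0)

theorem ind_tt (h : Ext ⊥ φ) (hK' : FF K' (n + 1)) (j : K →+* ℂ) {y : Fin (n + 1) → K}
    (hy : AlgebraicIndependent ℂ y) (i : Fin (n + 1)) : tt φ j (y i) ≠ 0 := fun e =>
  (Pb.dis_alg h (hy.extendScalars _)).transcendental i
    (sub_eq_zero.1 e ▸ isAlgebraic_algebraMap (j (y i)))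

theorem Gp.conj (h : Xt n φ Γ Γ') {T : Fin (n + 1) → K'} {x : Pl K'} (g : Gp n Γ' T x)
    {σ : K' →+* K'} (s : Semi σ) (e : ∀ f, σ (φ f) = φ f) (e' : ∀ i, σ (T i) = T i) :
    Gp n Γ' T (s.pl x) := by
  have o : ∀ i, (s.pl x).ord (T i) = x.ord (T i) := fun i => by
    conv_lhs => rw [← e' i, s.ord_pl]
  refine ⟨o 0 ▸ g.pos, fun i => by rw [o, o]; exact g.le i, ?_⟩
  rw [o, ← g.ld, add_left_inj]
  obtain ⟨f, t, rfl⟩ := h.eq
  obtain ⟨y, D, hD, e₀⟩ := exists_cn h.ff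
  have hy := Pb.dis_alg h.ext (((jac_ne_iff hD y).1 (jac_ne hD hD)).extendScalars _)
  have k := Gm.tr_eq h.ext h.ff h.ff' e₀ hy t
  have a := s.pb_pl (kap fun i => φ (y i)) x
  have b := s.pb_pl (pb φ Γ) x
  rw [s.pb_kap] at a
  rw [← s.ok.pb_comp, show σ.comp φ = φ from RingHom.ext e] at b
  simp only [e, ← k, Pi.add_apply] at a
  simp only [dsc, Pi.sub_apply]
  linarith

/-- a section which interpolates `h` on the generic fibre -/
theorem interp (b : Bl n Λ N Γ) (h : Xt n φ Γ Γ') {j : K →+* ℂ} (hc : Hc φ j) {κ m : ℕ} {g : K}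
    {y : Fin (n + 1) → K} (g0 : g ≠ 0) (sg : Sec ((κ : ℝ) • N) g)
    (sy : ∀ i, Sec ((κ : ℝ) • N) (g * y i)) (hy : AlgebraicIndependent ℂ y)
    (hm : (n + 2) * κ + 3 ≤ m) {u : K'} (hu : ∀ P, Trv φ P → u ∈ P.ring) :
    ∃ f, Sec (pb φ ((m : ℝ) • N)) f ∧ ∀ x, Gp n Γ' (fun i => tt φ j (y i)) x → Mx x (f - u) := by
  classical
  have ok := h.ext.ok h.ff'
  have hK' := h.ff'
  have t0 := ind_tt h.ext hK' j hy
  have := h.ff.fin hy
  let T : Finset K' := Finset.univ.image fun i => tt φ j (y i)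
  have mT : ∀ i, tt φ j (y i) ∈ T := fun i => Finset.mem_image_of_mem _ (Finset.mem_univ i)
  have nT : Nz T := ⟨_, mT 0, t0 0⟩
  let G₀ : BD K' := mx (insert 1 T) - mx T
  let G : BD K' := (κ : ℝ) • pb φ N + dv (φ g) - mx T
  have c0 : G₀ ∈ Car K' := sub_mem (mx_mem_Car _) (mx_mem_Car _)
  have n0 : 0 ≤ G₀ := sub_nonneg.2 (mx_mono nT (Finset.subset_insert _ _))
  have f0 := (map_ne_zero φ).2 g0
  have sec : ∀ a, Sec ((κ : ℝ) • N) (g * a) → ∀ c : ℂ,
      Sec ((κ : ℝ) • pb φ N + dv (φ g)) (φ a - algebraMap ℂ K' c) := fun a sa c => by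
    have := (ok.sec sa).add ((ok.sec sg).smul (-c))
    rw [pb_smul, map_mul, Algebra.smul_def (-c), map_neg] at this
    exact (sec_add_dv f0).2 (by convert this using 1; ring)
  have n1 : 0 ≤ G := sub_nonneg.2 (mx_le nT fun f hf => by
    obtain ⟨i, -, rfl⟩ := Finset.mem_image.1 hf
    exact sec _ (sy i) _)
  have m1 : ∀ P : Pl K', 0 ≤ P.mz (insert 1 T) := fun P => by
    simpa using P.le_mz (Finset.mem_insert_self 1 T) one_ne_zero
  have tv : ∀ P, 0 < G₀ P → Trv φ P := fun P p => by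
    have r := Gm.gen_res P j hc (s := range y) (range_subset_iff.2 fun i => mx_iff.2 (.inr ?_))
    · exact fun f => let ⟨c, k⟩ := r f; by simpa using add_mem k.mem (P.con c)
    have a := P.le_mz (mT i) (t0 i)
    have p : P.mz T < P.mz (insert 1 T) := Int.cast_lt.1 (sub_pos.1 p)
    obtain ⟨f, hf, q0, e⟩ := P.exists_mz (s := insert 1 T) ⟨1, Finset.mem_insert_self _ _,
      one_ne_zero⟩
    rcases Finset.mem_insert.1 hf with rfl | hf
    · rw [Pl.ord_one] at e
      change 0 < P.ord (tt φ j (y i))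
      omega
    · have := P.le_mz hf q0
      omega
  have gt : ∀ P, Trv φ P → G P = G₀ P := fun P t => by
    have z : P.mz (insert 1 T) = 0 := le_antisymm (P.mz_le ⟨1, Finset.mem_insert_self _ _,
      one_ne_zero⟩ fun f hf _ => neg_nonpos.2 (Pl.ord_nonneg_of_mem _ (by
        rcases Finset.mem_insert.1 hf with rfl | hf
        · exact one_mem _
        · obtain ⟨i, -, rfl⟩ := Finset.mem_image.1 hf
          exact sub_mem (t _) (P.con _)))) (m1 P)
    simp only [G, G₀, Pi.sub_apply, Pi.add_apply, Pi.smul_apply, t.pb, ← ok.pb_dv, mx_apply, z]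
    simp
  have sN := ok.smp b.smp
  have bN := Gm.big_pb ok h.ext.gen b.big
  obtain ⟨f₀, tr, e⟩ := h.eq
  have d : ∀ P, dsc (n + 1) (Γ' + ((n : ℝ) + 1) • G - (m : ℝ) • pb φ N) P =
      dsc (n + 1) Γ' P - (n + 1) * G P + m * pb φ N P := fun P => by
    simp only [dsc, Pi.sub_apply, Pi.add_apply, Pi.smul_apply, smul_eq_mul]
    ring
  have p : -(Γ' + ((n : ℝ) + 1) • G - (m : ℝ) • pb φ N) - (((m : ℝ) - 2 - (n + 1) * κ) • pb φ N +
      (pb φ ((2 : ℝ) • N - Γ) + ((n : ℝ) + 1) • mx T)) ∈ Prn K' := by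
    rw [show _ - _ = dv f₀ - ((n : ℝ) + 1) • dv (φ g) by
      simp only [e, G, pb_sub, pb_smul]; module]
    exact sub_mem (dv_mem_Prn _) (Submodule.smul_mem _ _ (dv_mem_Prn _))
  have q : (0 : ℝ) < m - 2 - (n + 1) * κ := by
    have : (((n + 2) * κ + 3 : ℕ) : ℝ) ≤ m := Nat.cast_le.2 hm
    push_cast at this
    nlinarith [Nat.cast_nonneg (α := ℝ) κ]
  have nf := (ok.nef b.nef).add ((smp_mx T).smul (c := (n : ℝ) + 1) (by positivity)).nef
  have d0 : ∀ P, Trv φ P → 0 ≤ dsc (n + 1) Γ' P := fun P t => by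
    have := tr.triv P t
    simp only [e, dsc, Pi.add_apply, Pi.sub_apply, t.pb] at this ⊢
    linarith
  obtain ⟨f, hf⟩ := Ku.ukg (n + 1) K' hK' _ G₀ u (((sN.smul q.le).nef.add nf).congr p)
    (((bN.smul q).add_nef nf).congr p) c0 n0 fun P z r => by
      obtain ⟨w, hw⟩ := Function.ne_iff.1 r
      obtain ⟨R, x, -, k, -⟩ := a2 n K' hK' P w {G₀} (pb φ N) 0 (finite_singleton _)
        (singleton_subset_iff.2 c0) sN.car
      have t : Trv φ P := Ti.trv_of_cle ok b.big (by simp) (tv R (by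
        rw [x.2 G₀ rfl, z, zero_mul, add_zero]
        exact (res_nonneg hK' P c0 n0 z w).lt_of_ne' hw)) k
      have : (0 : ℝ) ≤ P.ord u := Int.cast_nonneg_iff.2 (Pl.ord_nonneg_of_mem _ (hu P t))
      refine .inr ?_
      rw [d, gt P t, z, t.pb]
      linarith [d0 P t]
  refine ⟨f, or_iff_not_imp_left.2 fun f0 => ?_, fun x g => mx_iff.2 ?_⟩
  · have sΛ := ok.smp b.sl
    refine hart res' hK' sΛ (Gm.big_pb ok h.ext.gen b.bl) ((Dsc.dv sΛ f).add
      (ok.dsc (b.dn.smul _))) fun P o => ?_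
    have k : dsc (n + 1) Γ' P ≤ 0 ∧ ∃ z : ℤ, pb φ N P = z := by
      rcases tr.on _ b.sl b.bl trivial P o with ⟨x, y⟩ | ⟨Q, l, r, x, y⟩
      · refine ⟨?_, 0, by simp [Trv.pb x]⟩
        simp only [e, dsc, Pi.add_apply, Pi.sub_apply, Trv.pb x] at y ⊢
        linarith
      · refine ⟨?_, (b.int Q r).imp fun _ e => by simp [l.pb, x, e]⟩
        have := b.bdy Q r
        simp only [e, dsc, Pi.add_apply, Pi.sub_apply, Pi.zero_apply, l.pb, x] at y this ⊢
        push_cast at y ⊢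
        linarith
    obtain ⟨k, z, hz⟩ := k
    have g := mul_nonneg (show (0 : ℝ) ≤ n + 1 by positivity) (n1 P)
    simp only [pb_smul, Pi.add_apply, Pi.smul_apply, smul_eq_mul, dv_apply, hz]
    rcases (n0 P).eq_or_lt with a | a
    · have := ((hf P).2 a.symm).resolve_left f0
      rw [d, hz] at this
      have : ((-1 : ℤ) : ℝ) < ((P.ord f + m * z : ℤ) : ℝ) := by push_cast; linarith
      exact_mod_cast Int.lt_iff_add_one_le.1 (Int.cast_lt.1 this)
    · have t := tv P a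
      have : f - u ∈ P.ring := ((hf P).1 a).elim (fun e => e ▸ zero_mem _) fun c => mem_ord (by
        rw [d, t.pb] at c
        have : ((-1 : ℤ) : ℝ) < (P.ord (f - u) : ℝ) := by push_cast; linarith
        exact Int.lt_iff_add_one_le.1 (Int.cast_lt.1 this))
      have := Pl.ord_nonneg_of_mem _ (sub_add_cancel f u ▸ add_mem this (hu P t))
      rw [← hz, t.pb, mul_zero, add_zero]
      exact Int.cast_nonneg_iff.2 this
  · have a : x.mz T = -x.ord (tt φ j (y 0)) := x.mz_eq (mT 0) (t0 0) fun f hf _ => by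
      obtain ⟨i, -, rfl⟩ := Finset.mem_image.1 hf
      exact g.le i
    have g1 : (0 : ℝ) < x.ord (tt φ j (y 0)) := Int.cast_pos.2 g.pos
    have c : (x.ord (tt φ j (y 0)) : ℝ) ≤ G₀ x := by
      have : (0 : ℝ) ≤ x.mz (insert 1 T) := Int.cast_nonneg_iff.2 (m1 x)
      simp only [G₀, Pi.sub_apply, mx_apply, a]
      push_cast
      linarith
    have t := tv x (g1.trans_le c)
    refine ((hf x).1 (g1.trans_le c)).imp_right fun k => ?_
    have := g.ld
    rw [d, gt x t, t.pb] at k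
    have c' := mul_le_mul_of_nonneg_left c (show (0 : ℝ) ≤ n + 1 by positivity)
    exact Int.cast_pos.1 (show (0 : ℝ) < _ by linarith)

/-- **GFB** -/
theorem gfb_of (hP : PBU) (hS : SEPL) : GFB := by
  intro n K _ _ hK Λ N Γ κ m g y b g0 sg sy hy ⟨d, hd⟩ hm
  refine eq_top_iff.2 fun w _ => by_contra fun hw => ?_
  set F := IntermediateField.adjoin ℂ
    {x | ∃ f g, Sec ((m : ℝ) • N) f ∧ Sec ((m : ℝ) • N) g ∧ x = f / g}
  obtain ⟨d, rfl⟩ : ∃ e, d = e + 1 := Nat.exists_eq_succ_of_ne_zero (by rintro rfl; omega)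
  have yF : range y ⊆ F := range_subset_iff.2 fun i => by
    have k : ∀ f, Sec ((κ : ℝ) • N) f → Sec ((m : ℝ) • N) (f * g ^ d) := fun f x => by
      have := x.mul (sg.pow d)
      rwa [show (κ : ℝ) • N + (d : ℝ) • (κ : ℝ) • N = (m : ℝ) • N by
        rw [hd]; push_cast; module] at this
    exact IntermediateField.subset_adjoin _ _ ⟨_, _, k _ (sy i), k _ sg, by field_simp⟩
  obtain ⟨j, hj⟩ := exists_j hK
  obtain ⟨K', _, _, φ, h, hc⟩ := Pb.exists_ext_of K (j.comp (algebraMap ℂ K))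
  have hK' : FF K' (n + 1) := h.ff Gm.ff_bot hK
  obtain ⟨f₀, tr⟩ := P287D.Tg.exists_tr h hK hK'
  have xt : Xt n φ Γ _ := ⟨h, hK, hK', f₀, tr, rfl⟩
  obtain ⟨x, bu, ld, -⟩ := hP K K' φ n n Γ _ j y xt hc hy
  have t0 := ind_tt h hK' j hy
  have gp : Gp n _ (fun i => tt φ j (y i)) x := ⟨bu.pos, Fin.cases le_rfl fun i => by
    have := Pl.ord_nonneg_of_mem _ (bu.mem i)
    rwa [Pl.ord_div _ (t0 _) (t0 _), sub_nonneg] at this, ld⟩
  have := hK.fin hy
  have my : ∀ i, Mx x (φ (y i) - algebraMap ℂ K' (j (y i))) := fun i =>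
    mx_iff.2 (.inr (gp.pos.trans_le (gp.le i)))
  obtain ⟨v, hv⟩ := exists_ev (Gm.gen_res x j hc (s := range y) (range_subset_iff.2 my))
  have e1 : ∀ c, v (algebraMap ℂ K c) = j (algebraMap ℂ K c) := fun c =>
    mx_uniq (hv _) (by rw [hc c]; simpa using mx_zero)
  have e2 : ∀ i, v (y i) = j (y i) := fun i => mx_uniq (hv _) (my i)
  obtain ⟨τ, t1, t2⟩ := exists_tau yF j v hj e1 (forall_mem_range.2 e2) hw
  obtain ⟨σ, s, s1, s2⟩ := exists_aut h τ (by
    rintro c ⟨_, ⟨a, rfl⟩, e⟩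
    obtain rfl : v (algebraMap ℂ K a) = c :=
      (e1 a).trans ((algebraMap ℂ K').injective ((hc a).symm.trans e))
    exact t1 _ (F.algebraMap_mem a))
  have up : ∀ u, Mx (s.pl x) (φ u - algebraMap ℂ K' (τ (v u))) := fun u => by
    rw [← s1, ← s2, ← map_sub, mx_iff, map_eq_zero, s.ord_pl, ← mx_iff]
    exact hv u
  have gp' := gp.conj xt s s1 fun i => by rw [tt, map_sub, s1, s2, ← e2, t1 _ (yF ⟨i, rfl⟩)]
  obtain ⟨f, sf, hf⟩ := interp b xt hc g0 sg sy hy hm (u := φ w - algebraMap ℂ K' (τ (v w)))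
    fun P t => sub_mem (t w) (P.con _)
  obtain ⟨s₁, s₂, a, c, k⟩ := hS K K' φ n _ F x (s.pl x) f h hK
    (Submodule.smul_mem _ _ b.smp.car) bu.trv (fun u => s1 u ▸ s.mem_pl.2 (bu.trv u))
    (fun u hu => ⟨v u, hv u, t1 u hu ▸ up u⟩) sf
    (fun k => t2 (mx_uniq (by simpa using k.sub (hf x gp)) (hv w)))
    (by simpa using (hf _ gp').add (up w))
  exact k (IntermediateField.subset_adjoin _ _ ⟨_, _, a, c, rfl⟩)

end Vale.Agent.P283B.Eb.Gb
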