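import Vale.Agent.P283B.EB.Lim1
import Vale.Agent.P283B.U.St

/-!
# P283B, block EB: the limit argument
-/

set_option linter.unusedVariables false
set_option linter.unusedSectionVars false

open Set Filter

noncomputable section

namespace Vale.Agent.P283B.Eb

open P287D In U

section one

variable {n : ℕ} {K : Type} [Field K] [Algebra ℂ K] {A κ M β γ Λ Γ N Z : BD K} {s : Finset K}
  {ε a e : ℝ} {q m : ℕ} {f : K}

theorem big_of_top (h1 : (1 : K) ∈ s) (h : IntermediateField.adjoin ℂ (s : Set K) = ⊤) :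
    Big (mx s) :=
  (big_iff_fld (eff_mx s)).2 (eq_top_iff.2 (h ▸ IntermediateField.adjoin_le_iff.2 fun x hx => by
    simpa using (sec_of_mem hx).div_mem (sec_of_mem h1)))

/-- a birational system in normal form -/
theorem exists_sys (h : Hy) (hM : MOD) (hK : FF K (n + 1)) (c : β ∈ Car K) (hb : Bir β) :
    ∃ (s : Finset K) (f : K), f ≠ 0 ∧ 1 ∈ s ∧ IntermediateField.adjoin ℂ (s : Set K) = ⊤ ∧
      mx s ≤ dv f + β := by
  classical
  have := hM.fin n K hK β (h.isb n K hK β c)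
  obtain ⟨s, hs⟩ := (Module.Finite.iff_fg (N := H0 β)).1 this
  have a : ∀ f, Sec β f → Sec (mx s) f := fun f hf => sec_of_span (hs ▸ mem_H0.2 hf)
  have b : Big (mx s) := (big_iff_fld (eff_mx s)).2 (eq_top_iff.2 (hb ▸
    IntermediateField.adjoin_le_iff.2 fun x ⟨f, g, p, q, e⟩ => e ▸ (a f p).div_mem (a g q)))
  have c : Nz s := by_contra fun k => by
    simpa [vol_succ, I_cons] using h.vol_pos hK Nef.zero (mx_of_not k ▸ b)
  have d : mx s ≤ β := mx_le c fun f hf => mem_H0.1 (hs ▸ Submodule.subset_span hf)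
  obtain ⟨f, hf, f0⟩ := id c
  have k : ∀ g, Sec β g → g * f⁻¹ ∈
      IntermediateField.adjoin ℂ (s.image (· * f⁻¹) : Set K) := fun g hg => by
    have hg' : g ∈ Submodule.span ℂ (s : Set K) := hs ▸ mem_H0.2 hg
    clear hg
    induction hg' using Submodule.span_induction with
    | mem x hx => exact IntermediateField.subset_adjoin _ _ (Finset.mem_image_of_mem _ hx)
    | zero => simp
    | add x y _ _ u w => exact add_mul x y f⁻¹ ▸ add_mem u w
    | smul t x _ u => exact smul_mul_assoc t x f⁻¹ ▸ IntermediateField.smul_mem _ u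
  refine ⟨s.image (· * f⁻¹), f, f0, Finset.mem_image.2 ⟨f, hf, mul_inv_cancel₀ f0⟩,
    eq_top_iff.2 (hb ▸ IntermediateField.adjoin_le_iff.2 fun x ⟨g, g', p, q, e⟩ => ?_), ?_⟩
  · rw [e, ← mul_div_mul_right g g' (inv_ne_zero f0)]
    exact div_mem (k g p) (k g' q)
  · rw [mx_image_mul c (inv_ne_zero f0), dv_inv, sub_neg_eq_add, add_comm]
    exact add_le_add_right d _

theorem vol_res_congr (h : Hy) (hK : FF K (n + 1)) (b : Nef β) (e : γ - β ∈ Prn K) (P : Pl K) :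
    vol n (res P γ) = vol n (res P β) := by
  have g := b.congr e
  have k := h.res_prn hK P e
  rw [h.res_sub hK P g.car b.car] at k
  have hP := h.rsd n K hK P
  exact le_antisymm (h.vol_mono hP (h.res_nef hK P g) (h.res_nef hK P b)
    (Eff.of_prn (by simpa using neg_mem k)).psef)
    (h.vol_mono hP (h.res_nef hK P b) (h.res_nef hK P g) (Eff.of_prn k).psef)

theorem deg_le (h : Hy) (hK : FF K (n + 1)) (x : Nef A) (b : Nef β) {C : ℝ} (C0 : 0 ≤ C)
    (e : Psef (C • β - A)) : I (n + 1) K (Fin.cons β fun _ => A) ≤ C ^ n * vol (n + 1) β := by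
  have k := (h.tail_ml hK (h.isb n K hK β b.car)).smul_all (fun _ => C) (fun _ => β) fun _ => b.car
  simp only [Finset.prod_const, Finset.card_univ, Fintype.card_fin] at k
  rw [vol_succ, ← k]
  exact (h.row _ K hK).mono (cons_mem b fun _ => x) (cons_mem b fun _ => b.smul C0)
    (Fin.cases (by simpa using Psef.zero) fun _ => e)

/-- the primes of the birational model which matter -/
def Bad (n : ℕ) (Λ Γ D M : BD K) : Set (Pl K) :=
  {P | On n M P ∧ (¬ On n Λ P ∨ dsc (n + 1) Γ P < 0 ∨ D P ≠ 0)}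

theorem bad_fin (hM : MOD) (w : WK n ε q a Λ Γ N Z) (b : Big (mx s)) (c : β ∈ Car K) :
    (Bad n Λ Γ β (mx s)).Finite := by
  obtain ⟨i, j, -⟩ := hM.isb n K w.ff
  refine (((hM.exc n K w.ff _ _ (smp_mx s) b w.smp w.big).union
    (IsB.sub j (i Γ w.dg.car) s b)).union (i β c s b)).subset ?_
  rintro P ⟨o, k | k | k⟩
  exacts [.inl (.inl ⟨o, k⟩), .inl (.inr ⟨o, k.ne⟩), .inr ⟨o, k⟩]

/-- a birational multiple with its normalised system -/
structure Nm (n : ℕ) (N : BD K) (m : ℕ) (v : ℝ) (s : Finset K) (f : K) : Prop where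
  ne : f ≠ 0
  one : 1 ∈ s
  top : IntermediateField.adjoin ℂ (s : Set K) = ⊤
  le : mx s ≤ dv f + (m : ℝ) • N
  vol : vol (n + 1) ((m : ℝ) • N) ≤ v

theorem Nm.nn {v : ℝ} (t : Nm n N m v s f) : 0 ≤ dv f + (m : ℝ) • N := (mx_nonneg t.one).trans t.le

theorem Nm.psef {v C : ℝ} (t : Nm n N m v s f) (C0 : 0 ≤ C) (k : Eff (C • mx s - A)) :
    Psef (C • (m : ℝ) • N - A) :=
  ((k.add ((Eff.of_nonneg (sub_nonneg.2 t.le)).smul C0)).congr (by
    convert (Prn K).smul_mem (-C) (dv_mem_Prn f) using 1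
    module)).psef

theorem Nm.deg {v C : ℝ} (t : Nm n N m v s f) (h : Hy) (hK : FF K (n + 1)) (x : Nef A) (b : Nef N)
    (C0 : 0 ≤ C) (k : Eff (C • mx s - A)) :
    m * I (n + 1) K (Fin.cons N fun _ => A) ≤ C ^ n * v := by
  rw [← cons_smul]
  exact (deg_le h hK x (b.smul (Nat.cast_nonneg m)) C0 (t.psef C0 k)).trans
    (mul_le_mul_of_nonneg_left t.vol (pow_nonneg C0 n))

theorem Nm.vol_le {v : ℝ} (t : Nm n N m v s f) (h : Hy) (hK : FF K (n + 1)) (b : Nef N) :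
    P287D.vol (n + 1) (mx s) ≤ v :=
  (h.vol_mono hK (nef_mx s) (b.smul (Nat.cast_nonneg m))
    (by simpa using t.psef zero_le_one (A := mx s) (by simpa using Eff.zero))).trans t.vol

/-- the reduced divisor of the primes which matter has bounded degree -/
theorem deg_bad (h : Hy) (hM : MOD) (dg : DEG n) (q0 : 0 < q) (v : ℝ) : ∃ v' : ℝ,
    ∀ (K : Type) [Field K] [Algebra ℂ K] (ε a : ℝ) (Λ Γ N Z : BD K) (m : ℕ) (s : Finset K) (f : K),
      WK n ε q a Λ Γ N Z → 0 ≤ a → a ≤ m → 1 ≤ m → Nm n N m v s f →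
      IsB n ((Bad n Λ Γ (dv f + (m : ℝ) • N) (mx s)).indicator 1) ∧
      I (n + 1) K (Fin.cons ((Bad n Λ Γ (dv f + (m : ℝ) • N) (mx s)).indicator 1) fun _ => mx s) ≤
        v' := by
  classical
  obtain ⟨c, hc⟩ := dg q q0
  refine ⟨|c| * v, fun K _ _ ε a Λ Γ N Z m s f w a0 a1 m1 t => ?_⟩
  have hK := w.ff
  have b := big_of_top t.one t.top
  have nz : Nz s := ⟨1, t.one, one_ne_zero⟩
  have F := bad_fin hM w b (add_mem (dv_mem_Car f) ((Car K).smul_mem (m : ℝ) w.sn.car))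
  have e := mx_image_mul nz t.ne
  have p : mx (s.image (· * f)) - mx s ∈ Prn K := by simpa [e] using dv_mem_Prn f
  have e1 := vol_res_congr h hK (nef_mx s) p
  have k := hc K ε a Λ Γ N Z m (s.image (· * f)) f F.toFinset w a0 a1 m1 (b.congr p)
    (by rw [e, sub_le_iff_le_add']; exact t.le) t.ne t.nn fun P hP =>
      ⟨(F.mem_toFinset.1 hP).1.trans_eq (e1 P).symm, (F.mem_toFinset.1 hP).2⟩
  refine ⟨fun u _ => F.subset fun P hP => mem_of_indicator_ne_zero hP.2, ?_⟩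
  rw [I_cons, finsum_eq_sum_of_support_subset (s := F.toFinset) _ fun P hP =>
    F.mem_toFinset.2 (mem_of_indicator_ne_zero (left_ne_zero_of_mul (Function.mem_support.1 hP)))]
  refine le_trans (le_of_eq (Finset.sum_congr rfl fun P hP => ?_)) (k.trans ?_)
  · rw [indicator_of_mem (F.mem_toFinset.1 hP), Pi.one_apply, one_mul, e1]
    rfl
  · have z := h.vol_nonneg hK (w.sn.nef.smul (Nat.cast_nonneg m))
    exact (mul_le_mul_of_nonneg_right (le_abs_self c) z).trans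
      (mul_le_mul_of_nonneg_left t.vol (abs_nonneg c))

/-- a log smooth model whose boundary contains the exceptional primes -/
theorem exists_sm (hM : MOD) (sm : SM) (hK : FF K (n + 1)) {T₀ : Set (Pl K)} (hT : T₀.Finite)
    (m1 : Smp M) (m2 : Big M) (c : β ∈ Car K) :
    ∃ (s : Finset K) (κ : BD K) (T : Finset (Pl K)) (η : Pl K → BD K) (e : ℝ),
      Sm n (mx s) κ (fun a : T => a.1) (fun a => η a.1) e ∧ T₀ ⊆ T ∧ Dsc (mx s) β ∧
      ∀ P, On n (mx s) P → ¬ On n M P → P ∈ T := by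
  obtain ⟨u, κ₀, t, z, -, -, o, -⟩ := hM.ex n K hK ∅ ∅ finite_empty finite_empty (empty_subset _)
  obtain ⟨s, κ, T, η, e, S, sub, -, d⟩ := sm n K hK _ {κ₀, β}
    (hT.union (hM.exc n K hK _ _ t.smp t.big m1 m2)) (toFinite _)
    (by rintro _ (rfl | rfl); exacts [CarZ.car z, c])
  refine ⟨s, κ, T, η, e, S, subset_union_left.trans sub, (d β (by simp)).1, fun P x y => ?_⟩
  by_cases k : On n (mx u) P
  · exact sub (.inr ⟨k, y⟩)
  · by_contra k'
    have k1 := o P k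
    rw [dsc, Pi.sub_apply, ← S.hull.2 P x, (d κ (by simp)).2 P x k', (d κ₀ (by simp)).2 P x k'] at k1
    linarith

variable {ι : Type} [Fintype ι] {p : ι → Pl K} {η : ι → BD K}

theorem sum_hull (S : Sm n A κ p η e) (c : ι → ℝ) {u : Pl K} (o : On n A u) :
    (∀ b, u = p b → ∑ a, c a * η a u = c b) ∧ (u ∉ range p → ∑ a, c a * η a u = 0) := by
  refine ⟨fun b k => ?_, fun k => Finset.sum_eq_zero fun a _ => ?_⟩
  · rw [Finset.sum_eq_single b (fun a _ x => by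
      rw [(S.hp a).2 u o, Pl.δ_ne fun y => x (S.inj (y.symm.trans k)), mul_zero]) (by simp),
      (S.hp b).2 u o, k, Pl.δ_self, mul_one]
  · rw [(S.hp a).2 u o, Pl.δ_ne fun y => k ⟨a, y.symm⟩, mul_zero]

theorem md_of (hN : NEG) (sl : SL) (hK : FF K (n + 1)) (S : Sm n A κ p η e) :
    Md n A κ (∑ a, η a) ((n + 1) * e ^ (2 * n)) := by
  have l := sl n K hK A κ ι p η e S
  have e0 := S.pos
  refine ⟨S.smp, S.hull.1, .sum S.smp _ fun a _ => (S.hp a).1, fun Q o => ?_, fun Q o => ?_,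
    fun Q => by simpa using l.snc Q, fun Q => ?_, by positivity, l.mult⟩
  · simp [ld, dsc, S.hull.2 Q o]
  · have := l.one Q o
    simp only [ld]
    linarith
  · obtain ⟨z, hz⟩ := CarZ.int (sum_mem fun a _ => S.hz a : ∑ a, η a ∈ CarZ K) Q
    have k : 0 ≤ (∑ a, η a) Q := Finset.sum_nonneg (fun a _ => (hN.nn n K hK A (η a) S.smp S.big
      (S.hp a).1 fun P o => (S.hp a).2 P o ▸ (p a).δ_nonneg P).1) Q
    rw [hz] at k ⊢
    exact_mod_cast (show z = 0 ∨ 1 ≤ z by have : 0 ≤ z := (by exact_mod_cast k); omega)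

theorem Md.klt {H : BD K} {C : ℝ} (M : Md n A κ H C) (e0 : 0 < ε) (e1 : ε ≤ 1) :
    Klt (n + 1) (κ + (1 - ε) • H) := fun u => by
  have x1 : 1 ≤ ld (n + 1) κ u := by
    by_cases k : On n A u
    exacts [(M.on u k).ge, one_le_two.trans (M.off u k)]
  have := mul_le_mul_of_nonneg_left (M.snc u) (sub_nonneg.2 e1)
  have := mul_le_mul_of_nonneg_left x1 e0.le
  simp only [ld, dsc, Pi.sub_apply, Pi.add_apply, Pi.smul_apply, smul_eq_mul] at *
  linarith

/-- there are finitely many possibilities for the data of the last step -/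
theorem la_of {k : ℕ} (h : Hy) (w : WK (k + 1) ε q a Λ Γ N Z) (S : Sm (k + 1) A κ p η e)
    (az : A ∈ CarZ K) {g : Option ι → ι → ℤ}
    (num : ∀ j a, I (k + 2) K (Fin.cons (η a) (Fin.cons (j.elim A η) fun _ => A)) = g j a)
    {r : ℕ} (on : ∀ u, On (k + 1) Λ u → On (k + 1) A u ∧ ∃ z : ℤ, r * N u = z)
    (cov : ∀ u, On (k + 1) A u → u ∉ range p → On (k + 1) Λ u ∧ (dv f + (m : ℝ) • N) u = 0)
    (d0 : 0 ≤ dv f + (m : ℝ) • N) {B : ℤ}
    (hB : r * (m * I (k + 2) K (Fin.cons N fun _ => A)) ≤ B) :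
    ∃ E : ι → Prop, ∃ c ∈ {c : ι → ℤ | ∀ a, c a ∈ Icc 0 B}, La k g E c r A Λ N p η f m := by
  classical
  have hK := w.ff
  have mc := (Car K).smul_mem (m : ℝ) w.sn.car
  have r0 : (0 : ℝ) ≤ r := Nat.cast_nonneg r
  have iz : ∀ u, On (k + 1) Λ u →
      ((⌊r * (dv f + (m : ℝ) • N) u⌋ : ℤ) : ℝ) = r * (dv f + (m : ℝ) • N) u := fun u o => by
    obtain ⟨z, hz⟩ := (on u o).2
    have : r * (dv f + (m : ℝ) • N) u = ((r * u.ord f + m * z : ℤ) : ℝ) := by
      push_cast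
      rw [← hz, Pi.add_apply, dv_apply, Pi.smul_apply, smul_eq_mul]
      ring
    rw [this, Int.floor_intCast]
  refine ⟨fun a => ¬ On (k + 1) Λ (p a), fun a => ⌊r * (dv f + (m : ℝ) • N) (p a)⌋, fun a =>
    ⟨Int.floor_nonneg.2 (mul_nonneg r0 (d0 _)), ?_⟩, hK, S.smp, S.big, az, S.hz, S.hp, num, w.sn,
    w.bn, w.dn, on, fun _ x => x, fun u o o' => ?_, fun u o => ?_⟩
  · have t := term_le h hK (h.isb _ K hK _ (add_mem (dv_mem_Car f) mc)) d0
      (c := fun _ => A) (fun _ => S.smp.nef) (p a)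
    rw [h.cons_congr hK (h.isb _ K hK _ mc) (by simpa using dv_mem_Prn f) fun _ => S.smp.car,
      cons_smul] at t
    obtain ⟨z, hz⟩ := h.cf_int hK (p a) (b := fun _ => A) fun _ => az
    have z0 : 0 < cf (p a) fun _ : Fin (k + 1) => A := S.on a
    have z1 : (1 : ℝ) ≤ cf (p a) fun _ : Fin (k + 1) => A := by
      rw [hz] at z0 ⊢
      exact_mod_cast (show (0 : ℤ) < z by exact_mod_cast z0)
    exact Int.cast_le.1 ((Int.floor_le _).trans ((mul_le_mul_of_nonneg_left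
      ((le_mul_of_one_le_right (d0 _) z1).trans t) r0).trans hB) : (_ : ℝ) ≤ _)
  · by_contra x
    exact o' (cov u o fun ⟨a, y⟩ => x ⟨a, y ▸ o', y.symm⟩).1
  · have t := sum_hull S (fun a => (⌊r * (dv f + (m : ℝ) • N) (p a)⌋ : ℤ)) (on u o).1
    by_cases x : u ∈ range p
    · obtain ⟨b, rfl⟩ := x
      rw [t.1 b rfl, iz _ o]
    · rw [t.2 x, (cov u (on u o).1 x).2, mul_zero]

end one

section lim

variable {U : Ultrafilter ℕ} {c : Cq U} {n : ℕ} {K : ℕ → Type} [∀ i, Field (K i)]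
  [∀ i, Algebra ℂ (K i)] {L : Type} [Field L] [Algebra ℂ L] {D : Lm c (n + 1) K L} {M A β : BD L}

theorem eff_ev (rc : D.RC) (b : Big M) (m : M ∈ Car L) (a : A ∈ Car L) :
    ∃ C : ℝ, 0 ≤ C ∧ ∀ᶠ i in U, Eff (C • D.tr i M - D.tr i A) := by
  obtain ⟨ε, e, G, g⟩ := b.exists_eff a
  rw [sub_eq_add_neg, ← neg_smul] at g
  have a' := (Car L).smul_mem (-ε) a
  refine ⟨ε⁻¹, by positivity, ?_⟩
  filter_upwards [rc.rep _ (add_mem m a') G g, rc.add M m _ a', rc.smul (-ε) A a] with i x y z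
  rw [y, z] at x
  convert x.eff.smul (inv_pos.2 e).le using 1
  rw [smul_add, smul_smul, mul_neg, inv_mul_cancel₀ e.ne', neg_one_smul, sub_eq_add_neg]

theorem tr_sum (rc : D.RC) {ι : Type} (T : Finset ι) {η : ι → BD L} (a : ∀ j, η j ∈ Car L) :
    ∀ᶠ i in U, D.tr i (∑ j ∈ T, η j) = ∑ j ∈ T, D.tr i (η j) := by
  classical
  induction T using Finset.induction_on with
  | empty => simpa using rc.smul 0 0 (zero_mem _)
  | insert j T hj ih =>
    filter_upwards [ih, rc.add _ (a j) _ (sum_mem (t := T) fun j _ => a j)] with i x y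
    rw [Finset.sum_insert hj, Finset.sum_insert hj, y, x]

/-- log smooth models in the limit -/
theorem model (hM : MOD) (sm : SM) (rp : D.RP) (rl : D.RL) {T₀ : Set (Pl L)} (hT : T₀.Finite)
    (m1 : Smp M) (m2 : Big M) (b : β ∈ Car L) :
    ∃ (s : Finset L) (κ : BD L) (T : Finset (Pl L)) (η : Pl L → BD L) (e : ℝ),
      Sm n (mx s) κ (fun a : T => a.1) (fun a => η a.1) e ∧ T₀ ⊆ T ∧ Dsc (mx s) β ∧ ∀ᶠ i in U,
        Sm n (D.tr i (mx s)) (D.tp i κ) (fun a : T => D.sp a.1 i) (fun a => D.tr i (η a.1)) e ∧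
        ∀ Q, On n (D.tr i (mx s)) Q → Q ∉ range (fun a : T => D.sp a.1 i) →
          On n (D.tr i M) Q ∧ ∀ P ∈ T₀, Q ≠ D.sp P i := by
  obtain ⟨s, κ, T, η, e, S, sub, d, x⟩ := exists_sm hM sm D.ff hT m1 m2 b
  refine ⟨s, κ, T, η, e, S, sub, d, ?_⟩
  filter_upwards [rl.sm _ _ _ _ _ _ S, rp.exc _ _ m1 m2 S.smp S.big] with i y z
  refine ⟨y, fun Q o k => ⟨by_contra fun o' => ?_, fun P hP w => k ⟨⟨P, sub hP⟩, w.symm⟩⟩⟩
  obtain ⟨P, p1, p2, rfl⟩ := z Q o o'
  exact k ⟨⟨P, x P p1 p2⟩, rfl⟩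

end lim

/-- the limit argument for a sequence of counterexamples -/
theorem core (h : Hy) (hM : MOD) (hN : NEG) (hU : UA) {k : ℕ} (dg : DEG (k + 1)) (hn : HN k)
    {ε v : ℝ} {q : ℕ} (e0 : 0 < ε) (e1 : ε ≤ 1) (q0 : 0 < q) {K : ℕ → Type} [∀ i, Field (K i)]
    [∀ i, Algebra ℂ (K i)] {a : ℕ → ℝ} {m : ℕ → ℕ} {Λ Γ N Z : ∀ i, BD (K i)}
    (w : ∀ i, WK (k + 1) ε q (a i) (Λ i) (Γ i) (N i) (Z i)) (a0 : ∀ i, 0 ≤ a i)
    (a1 : ∀ i, a i ≤ ((i : ℝ) + 1)⁻¹ * m i) (b : ∀ i, Bir ((m i : ℝ) • N i))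
    (hv : ∀ i, vol (k + 2) ((m i : ℝ) • N i) ≤ v) (mi : ∀ i, i < m i) : False := by
  classical
  let U := hyperfilter ℕ
  have ev : ∀ {p : ℕ → Prop}, (∀ᶠ i in atTop, p i) → ∀ᶠ i in U, p i := fun x =>
    Nat.hyperfilter_le_atTop x
  obtain ⟨c⟩ := nonempty_cq U
  have mc := fun i => (Car (K i)).smul_mem (m i : ℝ) (w i).sn.car
  choose s f f0 s1 s2 s3 using fun i => exists_sys h hM (w i).ff (mc i) (b i)
  have t : ∀ i, Nm (k + 1) (N i) (m i) v (s i) (f i) := fun i => ⟨f0 i, s1 i, s2 i, s3 i, hv i⟩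
  obtain ⟨L, _, _, D, u, u1, u2, u3⟩ := hU.ex U c (k + 2) K s v (fun i => (w i).ff)
    (.of_forall fun i => ⟨s1 i, s2 i, (t i).vol_le h (w i).ff (w i).sn.nef⟩)
  have rc : D.RC := hU.rc U c (k + 2) K L D
  have rp : D.RP := hU.rp U c (k + 1) K L D
  have rl : D.RL := hU.rl U c (k + 1) K L D
  have bu := big_of_top u1 u2
  have eM : ∀ᶠ i in U, D.tr i (mx u) = mx (s i) := by
    filter_upwards [rc.sys u, u3] with i x y
    rw [x, mx_congr_span y]
  -- the primes which matter are specialisations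
  obtain ⟨v', hv'⟩ := deg_bad h hM dg q0 v
  have bd := fun i => hv' (K i) ε (a i) _ _ _ _ (m i) (s i) (f i) (w i) (a0 i)
    ((a1 i).trans (mul_le_of_le_one_left (Nat.cast_nonneg _)
      (inv_le_one_of_one_le₀ (le_add_of_nonneg_left (Nat.cast_nonneg i))))) (by
        have := mi i
        omega) (t i)
  obtain ⟨T₀, z, -, hz⟩ := rp.lz (mx u) (smp_mx u) bu _ v' (by
    filter_upwards [eM] with i x
    rw [x]
    refine ⟨(bd i).1, fun Q _ => ?_, (bd i).2⟩
    by_cases y : Q ∈ Bad (k + 1) (Λ i) (Γ i) (dv (f i) + (m i : ℝ) • N i) (mx (s i))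
    exacts [⟨1, by simp [y]⟩, ⟨0, by simp [y]⟩])
  have gd : ∀ᶠ i in U, ∀ Q, On (k + 1) (D.tr i (mx u)) Q → (∀ P ∈ T₀, Q ≠ D.sp P i) →
      On (k + 1) (Λ i) Q ∧ 0 ≤ dsc (k + 2) (Γ i) Q ∧ (dv (f i) + (m i : ℝ) • N i) Q = 0 := by
    filter_upwards [hz, eM] with i x y Q o ne
    have x' := x Q o
    rw [Finset.sum_eq_zero fun P hP => by rw [Pl.δ_ne (ne P hP), mul_zero]] at x'
    by_contra x''
    rw [indicator_of_mem (show Q ∈ Bad _ _ _ _ _ from ⟨y ▸ o, by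
      simpa only [not_and_or, not_le] using x''⟩)] at x'
    exact one_ne_zero x'
  -- the first model
  obtain ⟨s₁, κ, T₁, η, e, S, sub, -, m1⟩ := model hM hU.sm rp rl T₀.finite_toSet (smp_mx u) bu
    (zero_mem _)
  obtain ⟨C, C0, hC⟩ := eff_ev rc bu (mx_mem_Car u) (mx_mem_Car s₁)
  have ηc := fun j : T₁ => (S.hp j).1.car
  have hc : ∑ j : T₁, η j ∈ Car L := sum_mem fun j _ => ηc j
  have hc' := (Car L).smul_mem (1 - ε / 2) hc
  obtain ⟨F, hF⟩ := rl.fin (mx s₁) S.smp S.big _ (add_mem S.hull.1.car hc')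
    ((md_of hN hU.sl D.ff S).klt (half_pos e0) (by linarith))
  -- the second model
  obtain ⟨s₂, κ₂, T₂, η₂, e₂, S₂, sub₂, d₂, m2⟩ := model hM hU.sm rp rl
    (T₀.finite_toSet.union F) (smp_mx u) bu (mx_mem_Car s₁)
  obtain ⟨C₂, C1, hC₂⟩ := eff_ev rc bu (mx_mem_Car u) (mx_mem_Car s₂)
  have bz : ∀ (j : Option T₂) (x : T₂) (l : Fin (k + 2)), (Fin.cons (η₂ x) (Fin.cons
      (j.elim (mx s₂) fun y => η₂ y) fun _ => mx s₂) : Fin (k + 2) → BD L) l ∈ CarZ L :=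
    fun j x => cons_mem (S₂.hz x) (cons_mem (by cases j; exacts [mx_mem_CarZ _, S₂.hz _])
      fun _ => mx_mem_CarZ _)
  choose g hg using fun j x => h.int _ L D.ff _ (bz j x)
  set r := (⌊(ε / 2)⁻¹⌋₊).factorial
  set X := |(((k + 1 : ℕ) : ℝ) + 1) * e ^ (2 * (k + 1)) * (C ^ (k + 1) * v)|
  have fin : ∀ᶠ i in U, ∃ E : T₂ → Prop,
      ∃ c' ∈ {c' : T₂ → ℤ | ∀ x, c' x ∈ Icc 0 ⌈r * (C₂ ^ (k + 1) * v)⌉},
        La k g E c' r (D.tr i (mx s₂)) (Λ i) (N i) (fun x : T₂ => D.sp x.1 i)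
          (fun x => D.tr i (η₂ x.1)) (f i) (m i) := by
    filter_upwards [gd, eM, m1, m2, hC, hC₂, hF, rc.des _ _ d₂, rc.carZ _ (mx_mem_CarZ s₂),
      rc.add _ S.hull.1.car _ hc', rc.smul (1 - ε / 2) _ hc, tr_sum rc Finset.univ ηc,
      eventually_all.2 fun j => eventually_all.2 fun x => rc.num _ fun l => CarZ.car (bz j x l),
      ev (eventually_ge_atTop ⌈16 * X / ε ^ 2⌉₊)]
      with i gd eM ⟨m1, c1⟩ ⟨m2, c2⟩ hC hC₂ hF d₂ az x1 x2 x3 nm big
    have hK := (w i).ff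
    rw [eM] at hC hC₂
    have ky := fun Q => key h (w i) (md_of hN hU.sl hK m1) e0 e1 (a0 i) (fun Q o => by
      have y := sum_hull m1 (fun _ => 1) o
      simp only [one_mul] at y
      rw [Finset.sum_apply]
      by_cases y' : Q ∈ range fun j : T₁ => D.sp j.1 i
      · obtain ⟨j, rfl⟩ := y'
        exact .inl (y.1 j rfl)
      · exact .inr ⟨y.2 y', (gd Q (c1 Q o y').1 (c1 Q o y').2).2.1⟩) (by
      have y := (t i).deg h hK m1.smp.nef (w i).sn.nef C0 hC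
      have y0 := h.cons_nn hK (h.isb _ _ hK _ (w i).sn.car) (w i).sn.psef fun _ => m1.smp.nef
      have i0 : (0 : ℝ) < i + 1 := by positivity
      have i1 : (i : ℝ) + 1 ≤ m i := by exact_mod_cast mi i
      have i2 : a i + 3 ≤ 4 * ((i : ℝ) + 1)⁻¹ * m i := by
        have := a1 i
        have : 1 ≤ ((i : ℝ) + 1)⁻¹ * m i := by rwa [le_inv_mul_iff₀ i0, mul_one]
        linarith
      have i3 : 16 * X / ε ^ 2 ≤ i + 1 :=
        (Nat.ceil_le.1 big).trans (le_add_of_nonneg_right zero_le_one)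
      have ep := m1.pos
      have i4 := mul_le_mul_of_nonneg_left y
        (by positivity : 0 ≤ (((k + 1 : ℕ) : ℝ) + 1) * e ^ (2 * (k + 1)))
      refine (mul_le_mul_of_nonneg_left (mul_le_mul_of_nonneg_right i2 y0) (by positivity)).trans
        (le_trans (le_of_eq ?_) ((mul_le_mul_of_nonneg_left (i4.trans (le_abs_self _))
          (by positivity : 0 ≤ 4 * ((i : ℝ) + 1)⁻¹)).trans ?_))
      · ring
      · rw [div_le_iff₀ (by positivity)] at i3
        rw [mul_assoc, mul_left_comm, inv_mul_le_iff₀ i0]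
        linarith) (u := Q)
    refine la_of h (w i) m2 az (fun j x => ?_) (fun Q o => ⟨?_, (w i).int (half_pos e0) o
      (ky Q o).1⟩) (fun Q o y => ?_) (t i).nn ((mul_le_mul_of_nonneg_left
        ((t i).deg h hK m2.smp.nef (w i).sn.nef C1 hC₂) (Nat.cast_nonneg r)).trans (Int.le_ceil _))
    · rw [← hg, ← nm]
      congr 1
      funext l
      refine Fin.cases rfl (fun l => Fin.cases ?_ (fun _ => rfl) l) l
      cases j <;> rfl
    · by_cases y : On (k + 1) (D.tr i (mx s₁)) Q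
      · exact on_up h hK d₂ y
      · obtain ⟨P, p1, p2, rfl⟩ := hF Q y (by
          convert (ky Q o).2.resolve_left y using 2
          rw [Lm.tp, Lm.tp, x1, x2, x3, add_sub_right_comm])
        exact m2.on ⟨P, sub₂ (.inr ⟨p1, p2⟩)⟩
    · have y' := gd Q (c2 Q o y).1 fun P hP => (c2 Q o y).2 P (.inl hP)
      exact ⟨y'.1, y'.2.2⟩
  obtain ⟨E, fin⟩ := Ultrafilter.eventually_exists_iff.1 fin
  obtain ⟨c', -, fin⟩ := (Ultrafilter.eventually_exists_mem_iff
    (Finite.pi' fun _ => finite_Icc _ _)).1 fin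
  obtain ⟨m₀, hm⟩ := last h hn g E c' (r := r) (Nat.cast_pos.2 (Nat.factorial_pos _))
  obtain ⟨i, x, y⟩ := (fin.and (ev (eventually_ge_atTop m₀))).exists
  exact (mi i).not_ge ((hm _ _ _ _ _ _ _ _ x).trans y)

/-- **LIM** -/
theorem lim_of (h : Hy) (hM : MOD) (hN : NEG) (hU : UA) (dg : ∀ k, DEG k) (hn : ∀ k, HN k)
    (k : ℕ) : LIM k := by
  cases k with
  | zero => exact lim_zero h
  | succ k =>
    intro ε q v e0 q0
    by_contra H
    push Not at H
    choose K _ _ a m Λ Γ N Z w a0 a1 b hv mi using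
      fun i : ℕ => H ((i : ℝ) + 1)⁻¹ i (by positivity)
    exact core h hM hN hU (dg _) (hn k) (lt_min e0 one_pos) (min_le_right _ _) q0
      (fun i => (w i).mono (min_le_left _ _)) a0 a1 b hv mi

end Vale.Agent.P283B.Eb
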