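import Vale.Agent.P283B.EB.Cs
import Vale.Agent.P287D.Gm.Pt

/-!
# P283B, block EB: high multiplicity along the generic fibre (leaf MULT)
-/

open Set
open Vale.Agent.P297Z
open Vale.Agent.P285N.Brep (jac Fr)

noncomputable section

namespace Vale.Agent.P283B.Eb

open P287D P287D.Cb P287D.Gm

variable {k : ℕ} {K K' : Type} [Field K] [Algebra ℂ K] [Field K'] [Algebra ℂ K'] {φ : K →+* K'}
  {j : K →+* ℂ} {y : Fin (k + 1) → K} {x : Pl K'}

/-- the case of a generic point -/
theorem Bu.pt (b : Bu φ j y x) (h : Ext ⊥ φ) (hK : FF K (k + 1)) (hc : Hc φ j)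
    (hy : AlgebraicIndependent ℂ y) : x.ord (tt φ j (y 0)) = 1 ∧ ∀ (β : BD K) (c : ℝ), Nef β →
      0 ≤ c → c ^ (k + 1) < vol (k + 1) β → ∃ G, Rep (pb φ β) G ∧ c ≤ G x := by
  have hK' : FF K' (k + 1) := h.ff ff_bot hK
  obtain ⟨D, hD⟩ := fr_of hK hy
  obtain ⟨E₀, h₀⟩ := fr_of hK' (Pb.dis_alg h (hy.extendScalars _))
  obtain ⟨E, hE⟩ := fr_of hK' (y := fun i => tt φ j (y i)) ((jac_ne_iff h₀ _).1 (by
    simpa [jac, tt] using jac_ne h₀ h₀))
  have o : Org x _ E := ⟨hE, b.pos, x.ord_t, b.mem, b.ind⟩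
  have := hD.fin
  have r := gen_res x j hc (s := range y) (range_subset_iff.2 o.mx)
  have a1 : ∀ a ∈ Submodule.span ℂ (range φ), ∀ i, E i a ∈ Submodule.span ℂ (range φ) :=
    fun a ha i => Submodule.span_le (p := (Submodule.span ℂ (range φ)).comap (E i).toLinearMap).2
      (range_subset_iff.2 fun f => by
        have := expand ((dr_of (E i)).comp φ) (fun c => by
          rw [hc, Derivation.map_algebraMap]) hD f
        have d := o.fr.dual i
        simp only [tt, map_sub, Derivation.map_algebraMap, sub_zero] at d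
        simp only [d, ite_mul, one_mul, zero_mul, Finset.sum_ite_eq, Finset.mem_univ,
          if_true] at this
        exact Submodule.subset_span ⟨_, this.symm⟩) ha
  have a2 : ∀ a ∈ Submodule.span ℂ (range φ), ∃ c : ℂ, Mx x (a - algebraMap ℂ K' c) :=
    fun a ha => by
    induction ha using Submodule.span_induction with
    | mem a ha => exact ha.elim fun f e => e ▸ r f
    | zero => exact ⟨0, by simp [mx_zero]⟩
    | add a b _ _ ha hb =>
      exact ha.elim fun c k => hb.elim fun d l => ⟨c + d, by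
        simpa only [map_add, add_sub_add_comm] using k.add l⟩
    | smul d a _ ha =>
      exact ha.elim fun c k => ⟨d * c, by
        simpa only [map_mul, mul_sub, Algebra.smul_def] using k.mul (x.con d)⟩
  exact ⟨o.ord_one a1 (fun a ha => (a2 a ha).elim fun c k => by
    simpa using add_mem k.mem (x.con c)) (eq_top_iff.2 (h.gen ▸ Subfield.closure_mono
      (union_subset_union_left _ Submodule.subset_span))),
    fun β c hβ => mult_of h hK hK' b.trv (o.taylor a1 a2) hβ⟩

/-- the descent to the field generated by the image and the constants -/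
theorem Bu.down {n : ℕ} {M : Type} [Field M] [Algebra ℂ M] {χ : K →+* M} (ι : M →ₐ[ℂ] K')
    (e : ∀ a, φ a = ι (χ a)) (b : Bu φ j y x) (hK' : FF K' n) (h : Ext ⊥ χ) (hK : FF K (k + 1))
    (hc : Hc χ j) (hy : AlgebraicIndependent ℂ y) {β : BD K} {c : ℝ} (hβ : Nef β) (c0 : 0 ≤ c)
    (hv : c ^ (k + 1) < vol (k + 1) β) :
    ∃ G, Rep (pb φ β) G ∧ c * x.ord (tt φ j (y 0)) ≤ G x := by
  obtain rfl : φ = (ι : M →+* K').comp χ := RingHom.ext e
  have t : ∀ u, tt ((ι : M →+* K').comp χ) j u = (ι : M →+* K') (tt χ j u) := fun u => by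
    simp [tt]
  obtain ⟨b1, b2, b3, b4⟩ := b
  simp only [t, ← map_div₀] at b2 b3 b4 ⊢
  have o := hK'.ok ι
  obtain ⟨Q, l⟩ := (o x).resolve_left fun z => b2.ne' (z.ord _)
  have r : ∀ c, l.κ (algebraMap ℂ _ c) = algebraMap ℂ _ c := fun c => by
    rw [← rd_const, l.isRd _ (Q.con c), RingHom.coe_coe, ι.commutes, rd_const]
  have m := fun i => (l _).2 (b3 i)
  rw [← funext fun i => l.isRd _ (m i)] at b4
  obtain ⟨a1, a2⟩ := Bu.pt (x := Q) ⟨fun f => (l _).2 (b1 f), (l.ord_pos_iff _).1 b2, m,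
    .of_comp ⟨l.κ, r⟩ b4⟩ h hK hc hy
  obtain ⟨G, g1, g2⟩ := a2 β c hβ c0 hv
  refine ⟨_, o.pb_comp χ β ▸ o.rep g1, ?_⟩
  rw [l.pb, l.ord, a1, mul_one, mul_comm]
  exact mul_le_mul_of_nonneg_left g2 (Int.cast_nonneg l.e_pos.le)

theorem mult : MULT := fun K K' _ _ _ _ φ n k L j y x β c h hK hc hL hy b hβ c0 hv => by
  have hK' : FF K' n := h.ff ff_bot hK
  let M := IntermediateField.adjoin ℂ (range (φ.comp (inc L)))
  let χ : L →+* M := (φ.comp (inc L)).codRestrict M
    fun a => IntermediateField.subset_adjoin _ _ ⟨a, rfl⟩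
  have c1 : Hc χ (j.comp (inc L)) := fun c => Subtype.ext (hc c)
  rw [← (h.ok hK').pb_comp]
  refine Bu.down (φ := φ.comp (inc L)) (j := j.comp (inc L)) M.val (fun _ => rfl)
    ⟨b.trv.comp _, b.pos, b.mem, b.ind⟩ hK'
    ⟨fun _ hb => ?_, eq_top_iff.2 fun ⟨a, ha⟩ z => ?_, fun m v hv => ?_⟩ hL c1 hy hβ c0 hv
  · obtain ⟨c, rfl⟩ := IntermediateField.mem_bot.1 hb
    exact ⟨_, (c1 c).symm⟩
  · clear z
    induction ha using IntermediateField.adjoin_induction with
    | mem a ha => exact ha.elim fun b e => Subfield.subset_closure (.inl ⟨b, Subtype.ext e⟩)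
    | algebraMap c => exact Subfield.subset_closure (.inr ⟨c, rfl⟩)
    | add a b _ _ ha hb => exact add_mem ha hb
    | mul a b _ _ ha hb => exact mul_mem ha hb
    | inv a _ ha => exact inv_mem ha
  · exact .of_comp M.val.toLinearMap (dis_bot h ((hv.restrict_scalars' ℂ).map'
      L.val.toLinearMap (LinearMap.ker_eq_bot.2 Subtype.val_injective)))

end Vale.Agent.P283B.Eb
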