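import Vale.Agent.P283B.EB.Sn
import Vale.Agent.P287D.Tg.T2
import Vale.Agent.P287D.Tg.Up

/-!
# P283B, block EB: extensions of the constants, tigers, cutting
-/

set_option linter.unusedVariables false

open Set Filter Topology
open Vale.Agent.P285N.Brep (jac Fr)

noncomputable section

namespace Vale.Agent.P283B.Eb

open P287D P287D.Pr P287D.Cb

variable {n : ℕ} {K K' K'' : Type} [Field K] [Algebra ℂ K] [Field K'] [Algebra ℂ K'] [Field K'']
  [Algebra ℂ K''] {φ : K →+* K'} {ψ : K' →+* K''} {Λ N Γ Γ₂ Δ D F : BD K} {Γ' : BD K'}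
  {Γ'' : BD K''} {a c : ℝ}

theorem ext_cst (h : Ext ⊥ φ) : Cst φ := fun c => h.cst _ (IntermediateField.algebraMap_mem _ c)

theorem ext_ind (h : Ext ⊥ φ) {ι : Type} {y : ι → K} (hy : AlgebraicIndependent ℂ y) :
    AlgebraicIndependent ℂ fun i => φ (y i) := Pb.dis_alg h (hy.extendScalars _)

/-- the dual frames are compatible -/
theorem ext_der (h : Ext ⊥ φ) {y : Fin n → K} {D : Fin n → Derivation ℂ K K} (hD : Fr y D)
    {E : Fin n → Derivation ℂ K' K'} (hE : ∀ i j, E i (φ (y j)) = if i = j then 1 else 0)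
    (i : Fin n) (f : K) : E i (φ f) = φ (D i f) := by
  have := expand ((dr_of (E i)).comp φ) (fun c => by
    obtain ⟨d, hd⟩ := ext_cst h c
    rw [← hd, Derivation.map_algebraMap]) hD f
  simp only [hE, ite_mul, one_mul, zero_mul, Finset.sum_ite_eq, Finset.mem_univ, if_true] at this
  exact this

/-- the normalisation of the canonical b-divisor, for any coordinates -/
theorem tr_gen (h : Ext ⊥ φ) (hK : FF K (n + 1)) (hK' : FF K' (n + 1)) {f : K'}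
    (t : Tr n n φ 0 (fun _ => True) f) {z : Fin (n + 1) → K} (hz : AlgebraicIndependent ℂ z)
    {u : K} (e : kap z = cn K (n + 1) + dv u) :
    kap (fun i => φ (z i)) = cn K' (n + 1) + dv f + dv (φ u) := by
  obtain ⟨y, D, hD, e₀⟩ := exists_cn hK
  have hy := ext_ind h ((jac_ne_iff hD y).1 (jac_ne hD hD))
  obtain ⟨E, hE⟩ := fr_of hK' hy
  have j : jac E (fun i => φ (z i)) = φ (jac D z) := by
    unfold jac
    rw [RingHom.map_det]
    exact congrArg _ (Matrix.ext fun i k => ext_der h hD hE.dual i (z k))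
  have j0 := (jac_ne_iff hD z).2 hz
  rw [kap_chg hD j0, e₀, add_right_inj] at e
  rw [kap_chg hE (j ▸ (map_ne_zero φ).2 j0), j, Gm.tr_eq h hK hK' e₀ hy t, ← (h.ok hK').pb_dv,
    ← (h.ok hK').pb_dv, e]

theorem exists_xt (h : Ext ⊥ φ) (hK : FF K (n + 1)) (Γ : BD K) : ∃ Γ', Xt n φ Γ Γ' :=
  have k : FF K' (n + 1) := h.ff Gm.ff_bot hK
  let ⟨f, t⟩ := P287D.Tg.exists_tr h hK k; ⟨_, h, hK, k, f, t, rfl⟩

namespace Xt

variable (h : Xt n φ Γ Γ') {P R : Pl K'} {Q : Pl K}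

include h

theorem ok : Ok φ := h.ext.ok h.ff'

theorem cst : Cst φ := ext_cst h.ext

theorem prn : Γ' - pb φ Γ ∈ Prn K' := by
  obtain ⟨f, -, rfl⟩ := h.eq
  rw [sub_sub_cancel_left]
  exact neg_mem (dv_mem_Prn f)

theorem add (D : BD K) : Xt n φ (Γ + D) (Γ' + pb φ D) :=
  ⟨h.ext, h.ff, h.ff', h.eq.imp fun f ⟨t, e⟩ => ⟨t, by rw [e, pb_add]; abel⟩⟩

theorem big (b : Big N) : Big (pb φ N) := Gm.big_pb h.ok h.ext.gen b

theorem trv (t : Trv φ P) : 0 ≤ dsc (n + 1) Γ' P := by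
  obtain ⟨f, a, rfl⟩ := h.eq
  have := a.triv P t
  simp only [dsc, Pi.add_apply, Pi.sub_apply, t.pb] at this ⊢
  linarith

theorem ge (l : Lies φ P Q) :
    P.ord (φ Q.t) * (dsc (n + 1) Γ Q + 1) ≤ dsc (n + 1) Γ' P + 1 := by
  obtain ⟨f, a, rfl⟩ := h.eq
  have := a.ge P Q l
  simp only [dsc, Pi.add_apply, Pi.sub_apply, l.pb, Pi.zero_apply, mul_zero] at this ⊢
  linarith

theorem on (s : Smp Λ) (b : Big Λ) (o : On n (pb φ Λ) P) :
    (Trv φ P ∧ dsc (n + 1) Γ' P = 0) ∨ ∃ Q, Lies φ P Q ∧ On n Λ Q ∧ P.ord (φ Q.t) = 1 ∧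
      dsc (n + 1) Γ' P = dsc (n + 1) Γ Q := by
  obtain ⟨f, a, rfl⟩ := h.eq
  refine (a.on _ s b trivial P o).imp (fun ⟨x, y⟩ => ⟨x, ?_⟩) fun ⟨Q, l, r, x, y⟩ => ⟨Q, l, r, x, ?_⟩
  · simp only [dsc, Pi.add_apply, Pi.sub_apply, Trv.pb x] at y ⊢
    linarith
  · simp only [dsc, Pi.add_apply, Pi.sub_apply, Pi.zero_apply, l.pb, x] at y ⊢
    push_cast at y ⊢
    linarith

theorem off (s : Smp Λ) (b : Big Λ) (o : ¬ On n (pb φ Λ) P) (l : Lies φ P Q) (q : On n Λ Q) :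
    P.ord (φ Q.t) * (dsc (n + 1) Γ Q + 1) ≤ dsc (n + 1) Γ' P := by
  obtain ⟨f, a, rfl⟩ := h.eq
  have := (a.off _ s b trivial P o).2 Q l q
  simp only [dsc, Pi.add_apply, Pi.sub_apply, l.pb, Pi.zero_apply, mul_zero] at this ⊢
  linarith

theorem bdy (s : Smp Λ) (b : Big Λ) (d : Bdy n Λ Γ) : Bdy n (pb φ Λ) Γ' := fun P o =>
  (h.on s b o).elim (fun x => x.2.le) fun ⟨Q, _, r, _, y⟩ => y.trans_le (d Q r)

theorem zon (s : Smp Λ) (b : Big Λ) (z : ZOn n Λ N) : ZOn n (pb φ Λ) (pb φ N) := fun P o =>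
  (h.on s b o).elim (fun x => ⟨0, by simp [x.1.pb]⟩) fun ⟨Q, l, r, x, _⟩ =>
    (z Q r).imp fun _ e => by simp [l.pb, x, e]

theorem nef (e : Nef (c • N - Γ)) : Nef (c • pb φ N - Γ') :=
  (h.ok.nef e).congr (by
    rw [pb_sub, pb_smul, sub_sub_sub_cancel_left]
    simpa using neg_mem h.prn)

theorem comp (h' : Xt n ψ Γ' Γ'') : Xt n (ψ.comp φ) Γ Γ'' := by
  have e := h'.ext.comp h.ext
  obtain ⟨f'', t''⟩ := P287D.Tg.exists_tr e h.ff h'.ff'
  obtain ⟨f, t, e1⟩ := h.eq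
  obtain ⟨g, t', e2⟩ := h'.eq
  obtain ⟨y, D, hD, e₀⟩ := exists_cn h.ff
  have hy := (jac_ne_iff hD y).1 (jac_ne hD hD)
  have a := tr_gen h'.ext h.ff' h'.ff' t' (ext_ind h.ext hy)
    (Gm.tr_eq h.ext h.ff h.ff' e₀ (ext_ind h.ext hy) t).symm
  have b := (Gm.tr_eq e h.ff h'.ff' e₀ (ext_ind e hy) t'').trans a
  rw [add_assoc, add_right_inj] at b
  refine ⟨e, h.ff, h'.ff', f'', t'', ?_⟩
  rw [e2, e1, b, pb_sub, h'.ok.pb_dv, h'.ok.pb_comp]
  abel

theorem up (Q : Pl K) : ∃ P, Lies φ P Q ∧ dsc (n + 1) Γ' P = dsc (n + 1) Γ Q := by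
  obtain ⟨f, t, rfl⟩ := h.eq
  obtain ⟨P, l, x, y⟩ := h.ext.up h.ff h.ff' t Q
  refine ⟨P, l, ?_⟩
  simp only [dsc, Pi.add_apply, Pi.sub_apply, l.pb, x] at y ⊢
  push_cast
  linarith

theorem vol (c : N ∈ Car K) : vol (n + 1) (pb φ N) = vol (n + 1) N := by
  obtain ⟨θ, i, -, e⟩ := h.ext.iso h.ff h.ff' (β := fun _ : Unit => N) (fun _ => c) ∅
  rw [← e (), i.vol In.hy h.ff]

theorem res_prn (l : Lies φ P Q) (c : N ∈ Car K) :
    res P (pb φ N) - pb l.κ (res Q N) ∈ Prn P.κ :=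
  (h.cst.res_lies res' h.ff h.ff' l l.isRd c).1

theorem res_big (l : Lies φ P Q) (b : Ext ⊥ l.κ) (c : N ∈ Car K) (e : Big (res Q N)) :
    Big (res P (pb φ N)) :=
  (Gm.big_pb (b.ok (Bm.ff_κ h.ff' P)) b.gen e).congr (h.res_prn l c)

theorem cd_eq (l : Lies φ P Q) (b : Ext ⊥ l.κ) (c : N ∈ Car K) : cd (pb φ N) P = cd N Q := by
  obtain ⟨θ, i, -, e⟩ := b.iso (Bm.ff_κ h.ff Q) (Bm.ff_κ h.ff' P) (β := fun _ : Unit => res Q N)
    (fun _ => res_car h.ff Q N) ∅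
  exact (dim_congr (h.res_prn l c)).trans ((congrArg dim (e ())).symm.trans (i.dim _))

/-- the places over a given place -/
theorem ovr (l : Lies φ P Q) (b : Ext ⊥ l.κ) : dsc (n + 1) Γ' P = dsc (n + 1) Γ Q ∧
    ∀ R, R ≠ P → Lies φ R Q → R.ord (φ Q.t) * (dsc (n + 1) Γ Q + 1) ≤ dsc (n + 1) Γ' R := by
  obtain ⟨s, G, a, -, o, -, -, d⟩ := Ba.mod.ex n K h.ff {Q} ∅ (finite_singleton _) finite_empty
    (empty_subset _)
  have o := o Q rfl
  obtain ⟨β, c, d⟩ := d Q o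
  obtain ⟨θ, i, -, e⟩ := h.ext.iso h.ff h.ff' (β := ![mx s, β])
    (Fin.forall_fin_two.2 ⟨mx_mem_Car s, CarZ.car c⟩) ∅
  have e0 : pb θ (mx s) = pb φ (mx s) := e 0
  have e1 : pb θ β = pb φ β := e 1
  have u : ∀ R, Lies φ R Q → On n (pb φ (mx s)) R → R = i.pl Q := fun R r k => by
    obtain ⟨R, rfl⟩ := i.pl.surjective R
    have v := r.pb β
    rw [← e0, i.on_pl In.hy h.ff] at k
    rw [← e1, i.pb_pl, d.2 R k, d.2 Q o, Q.δ_self, mul_one] at v
    refine congrArg _ (by_contra fun z => ?_)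
    rw [Pl.δ_ne z] at v
    exact (Int.cast_pos.2 r.e_pos).ne v
  have o' : On n (pb φ (mx s)) P := (res'.on n K' h.ff' _ P (h.ok.smp a.smp)).2
    (h.res_big l b (mx_mem_Car s) ((res'.on n K h.ff _ Q a.smp).1 o))
  refine ⟨(h.on a.smp a.big o').elim (fun x => (l.not_trv x.1).elim) fun ⟨Q', x, _, _, y⟩ =>
    x.uniq l ▸ y, fun R ne r => h.off a.smp a.big (fun k => ne ?_) r o⟩
  exact (u R r k).trans (u P l o').symm

end Xt

/-- the data which the cutting needs -/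
structure Bz (n : ℕ) (N Γ : BD K) : Prop where
  ff : FF K (n + 1)
  smp : Smp N
  big : Big N
  nef : ∃ c : ℝ, Nef (c • N - Γ)
  bdy : Bdy n N Γ

theorem Bz.car (b : Bz n N Γ) : Γ ∈ Car K := b.nef.elim fun _ => Ae.car_of_nef b.smp

theorem Bz.up (b : Bz n N Γ) (h : Xt n φ Γ Γ') : Bz n (pb φ N) Γ' :=
  ⟨h.ff', h.ok.smp b.smp, h.big b.big, b.nef.imp fun _ => h.nef, h.bdy b.smp b.big b.bdy⟩

theorem Bz.add (b : Bz n N Γ) (d0 : 0 ≤ Δ) (s : Smp (a • N - Δ)) : Bz n N (Γ + Δ) :=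
  ⟨b.ff, b.smp, b.big, b.nef.elim fun c e => ⟨c + a, by
    rw [add_smul, add_sub_add_comm]; exact e.add s.nef⟩, fun Q o => by
    rw [dsc_add]; exact sub_nonpos.2 ((b.bdy Q o).trans (d0 Q))⟩

theorem car_of (s : Smp N) (h : Smp (a • N - D)) : D ∈ Car K := by
  simpa using sub_mem (Submodule.smul_mem _ a s.car) h.car

theorem smp_of_rep (r : Rep N D) : Smp (N - D) := .of_prn (neg_sub D N ▸ neg_mem r.2)

namespace Tg

variable {P Q R : Pl K} (t : Tg n N Γ Δ a P)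

include t

theorem su (b : Bz n N Γ) : Wp.Su n N (Γ + Δ) P :=
  let c := b.add t.nn t.smp; ⟨c.ff, c.smp, c.big, c.nef, c.bdy, t.lc⟩

theorem fol (b : Bz n N Γ) (w : Pl P.κ) (D : BD K) (c : D ∈ Car K) (z : D P = 0) :
    ∃ R, R ≠ P ∧ CLe N R P ∧ (∀ G, Rep N G → G P = 0 → G R ≤ res P G w) ∧
      dsc n (adj n P (Γ + Δ) + res P D) w = dsc (n + 1) (Γ + Δ + D) R := by
  have e := add_mem b.car t.car
  obtain ⟨R, x, -, y, u, v⟩ := a2 n K b.ff P w {Γ + Δ + D} N 0 (finite_singleton _)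
    (singleton_subset_iff.2 (add_mem e c)) b.smp.car
  have d := v _ rfl
  rw [dsc_add (n + 1) _ D P, t.lc, z, sub_zero, neg_add_cancel, zero_mul, add_zero,
    (a4 n K b.ff P _ e D c).1] at d
  exact ⟨R, x.1, y, fun G r k => (u G r k).1, d⟩

theorem fol0 (b : Bz n N Γ) (w : Pl P.κ) :
    ∃ R, R ≠ P ∧ CLe N R P ∧ (∀ G, Rep N G → G P = 0 → G R ≤ res P G w) ∧
      dsc n (adj n P (Γ + Δ)) w = dsc (n + 1) (Γ + Δ) R := by
  simpa only [res_zero b.ff, add_zero] using t.fol b w 0 (zero_mem _) rfl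

theorem hor (b : Bz n N Γ) (w : Pl P.κ) (hw : Hor (fld (res P N)) w) :
    -1 < dsc n (adj n P (Γ + Δ)) w := by
  obtain ⟨R, x, -, y, d⟩ := t.fol0 b w
  refine d ▸ t.plt R x fun H r k => (r.nonneg P).lt_of_ne fun e => k.not_ge ?_
  exact (y H r e.symm).trans ((res_rep b.ff P b.smp.car r e.symm).hor (Bm.ff_κ b.ff P)
    (res_smp b.ff P b.smp) hw).le

theorem congr (e : ∀ Q, CLe N P Q → Γ₂ Q = Γ Q) : Tg n N Γ₂ Δ a P := by
  have d : ∀ Q, CLe N P Q → dsc (n + 1) (Γ₂ + Δ) Q = dsc (n + 1) (Γ + Δ) Q := fun Q c => by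
    simp only [dsc, Pi.add_apply, Pi.sub_apply, e Q c]
  exact ⟨t.pos, t.car, t.nn, t.smp, t.big, (d P (.refl _ _)).trans t.lc,
    fun Q x c => (d Q c).symm ▸ t.plt Q x c⟩

theorem add' (hK : FF K (n + 1)) (hN : Smp N) (d0 : 0 ≤ D) (c0 : 0 ≤ c) (s : Smp (c • N - D))
    (z : ∀ Q, CLe N P Q → D Q = 0) : Tg n N Γ (Δ + D) (a + c) P := by
  have e : (a + c) • N - (Δ + D) = a • N - Δ + (c • N - D) := by module
  have d : ∀ Q, CLe N P Q → dsc (n + 1) (Γ + (Δ + D)) Q = dsc (n + 1) (Γ + Δ) Q := fun Q c => by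
    simp only [dsc, Pi.add_apply, Pi.sub_apply, z Q c, add_zero]
  refine ⟨add_pos_of_pos_of_nonneg t.pos c0, add_mem t.car (car_of hN s), add_nonneg t.nn d0,
    e ▸ t.smp.add s, ?_, (d P (.refl _ _)).trans t.lc, fun Q x c => (d Q c).symm ▸ t.plt Q x c⟩
  rw [e, res_add hK P t.smp.car s.car]
  exact t.big.add_smp (res_smp hK P s)

theorem add (hK : FF K (n + 1)) (hN : Smp N) (d0 : 0 ≤ D) (c0 : 0 < c) (s : Smp (c • N - D))
    (z : D P = 0) : Tg n N Γ (Δ + D) (a + c) P :=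
  t.add' hK hN d0 c0.le s fun Q k =>
    le_antisymm (not_lt.1 fun p => (pos_of_cle c0 s d0 p k).ne' z) (d0 Q)

theorem mono (hK : FF K (n + 1)) (hN : Smp N) (e : a ≤ c) : Tg n N Γ Δ c P := by
  simpa using t.add' hK hN le_rfl (sub_nonneg.2 e) (by simpa using hN.smul (sub_nonneg.2 e))
    fun _ _ => rfl

variable (h : Xt n φ Γ Γ') {P₁ R₁ : Pl K'} (l : Lies φ P₁ P) (b : Ext ⊥ l.κ)

include h l b

theorem lift_gt (ne : R₁ ≠ P₁) (z : ∀ G, Rep N G → G P = 0 → pb φ G R₁ = 0) :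
    -1 < dsc (n + 1) (Γ' + pb φ Δ) R₁ := by
  have k := h.add Δ
  rcases h.ok R₁ with i | ⟨R, i⟩
  · exact neg_one_lt_zero.trans_le (k.trv i)
  have e : (0 : ℝ) < R₁.ord (φ R.t) := Int.cast_pos.2 i.e_pos
  by_cases j : R = P
  · subst j
    have := (k.ovr l b).2 R₁ ne i
    rw [t.lc] at this
    linarith
  have := t.plt R j fun G r p => (r.nonneg P).lt_of_ne fun y => by
    have := z G r y.symm
    rw [i.pb] at this
    exact (mul_pos e p).ne' this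
  nlinarith [k.ge i]

theorem up (hN : Smp N) : Tg n (pb φ N) Γ' (pb φ Δ) a P₁ := by
  have e : a • pb φ N - pb φ Δ = pb φ (a • N - Δ) := by rw [pb_sub, pb_smul]
  exact ⟨t.pos, h.ok.car t.car, pb_nonneg φ t.nn, e ▸ h.ok.smp t.smp,
    e ▸ h.res_big l b t.smp.car t.big, ((h.add Δ).ovr l b).1.trans t.lc, fun Q ne k =>
    t.lift_gt h l b ne fun G r z => k.zero (h.ok.rep r) (by rw [l.pb, z, mul_zero])⟩

end Tg

variable {P Q R R₀ x : Pl K} {ε : ℝ}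

/-- a divisor which is not klt at the centre of `x` gives a tiger -/
theorem lo_of (b : Bz n N Γ) (kl : ∀ Q, CLe N x Q → -1 < dsc (n + 1) Γ Q) (a0 : 0 ≤ a)
    (a1 : a < ε) (f0 : 0 ≤ F) (fs : Smp (a • N - F)) (g : dsc (n + 1) (Γ + F) x ≤ -1) :
    ∃ Δ P, Tg n N Γ Δ ε P ∧ CLe N x P ∧ 0 < F P := by
  have fc := car_of b.smp fs
  obtain ⟨μ, D, P, z, m0, m1, d0, dc, ds, -, db, p, lc, pl⟩ := Ti.tie_big0 (S := {Q | CLe N x Q})
    b.ff b.smp.nef b.big b.car fc f0 (fun Q a P b => a.trans b) kl (CLe.refl _ x) g (sub_pos.2 a1)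
  have s : Smp (μ • (a • N - F) + ((1 - μ) * a) • N) :=
    (fs.smul m0.le).add (b.smp.smul (mul_nonneg (sub_nonneg.2 m1.le) a0))
  have e : ε • N - (μ • F + D) =
      ((ε - a) • N - D) + (μ • (a • N - F) + ((1 - μ) * a) • N) := by module
  refine ⟨μ • F + D, P, ⟨a0.trans_lt a1, add_mem (Submodule.smul_mem _ μ fc) dc,
    add_nonneg (smul_nonneg m0.le f0) d0, e ▸ ds.add s, ?_, add_assoc Γ _ D ▸ lc,
    fun Q ne k => add_assoc Γ _ D ▸ pl Q (p.trans k) ne⟩, p, z⟩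
  rw [e, res_add b.ff P ds.car s.car]
  exact db.add_smp (res_smp b.ff P s)

/-- the centre of a place is cut out by a system -/
theorem fz (hK : FF K (n + 1)) (hΛ : Smp Λ) (hb : Big Λ) (R : Pl K) :
    ∃ (H : BD K) (ε : ℝ), 0 ≤ H ∧ 0 < ε ∧ Smp (Λ - ε • H) ∧ 0 < H R ∧
      ∀ Q, 0 < H Q → CLe Λ Q R := by
  classical
  obtain ⟨s, s1, am⟩ := hΛ.exists_ampOn
  have nz : Nz s := ⟨1, s1, one_ne_zero⟩
  have k : ∀ f, ∃ T : Finset K, f ∈ s → f ≠ 0 → (∀ᶠ m : ℕ in atTop, ∀ b ∈ T,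
      Sec ((m : ℝ) • mx s) (b * f ^ m) ∧ (b ≠ 0 → 0 < (dv (b * f ^ m) + (m : ℝ) • mx s) R)) ∧
      ∀ Q, On.Ch (mx s) f Q → (∀ b ∈ T, b ≠ 0 → 0 < Q.ord b) → CLe (mx s) Q R := fun f => by
    by_cases hf : f ∈ s ∧ f ≠ 0
    swap
    · exact ⟨∅, fun a b => (hf ⟨a, b⟩).elim⟩
    have sf := sec_of_mem hf.1
    by_cases c : On.Ch (mx s) f R
    swap
    · refine ⟨{1}, fun _ _ => ⟨(eventually_gt_atTop 0).mono fun m hm b hb => ?_,
        fun Q _ z => by simpa using z 1 (by simp)⟩⟩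
      rw [Finset.mem_singleton.1 hb, one_mul]
      refine ⟨sf.pow m, fun _ => ?_⟩
      rw [dv_pow, ← smul_add]
      exact mul_pos (Nat.cast_pos.2 hm) ((sf.resolve_left hf.2 R).lt_of_ne fun e =>
        c ⟨hf.2, sf, e.symm⟩)
    have := isNoetherianRing_of_fg (On.fg_Af hK hf.1 hf.2)
    obtain ⟨G, hG⟩ := IsNoetherian.noetherian (RingHom.ker (On.rh R (On.Af (mx s) f) c.mem))
    refine ⟨G.image (↑), fun _ _ => ⟨(eventually_all_finset _).2 fun b hb => ?_,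
      fun Q q z => q.cle hK (carQ_mx s) c fun b hb p => ?_⟩⟩
    · obtain ⟨b, hb', rfl⟩ := Finset.mem_image.1 hb
      obtain ⟨m₀, h₀⟩ := b.2 sf
      refine (eventually_ge_atTop m₀).mono fun m hm => ⟨?_, fun b0 => ?_⟩
      · obtain ⟨d, rfl⟩ := Nat.exists_eq_add_of_le hm
        rw [pow_add, ← mul_assoc]
        exact Loq.sec_mul h₀ (sf.pow d)
      · rw [c.val b0]
        exact Int.cast_pos.2 (((On.mem_ker R c.mem b).1
          (hG ▸ Submodule.subset_span hb')).resolve_left b0)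
    · have m : (⟨b, hb⟩ : On.Af (mx s) f) ∈ RingHom.ker (On.rh Q _ q.mem) :=
        (hG.ge.trans (Submodule.span_le.2 fun g hg => (On.mem_ker Q q.mem g).2
          (or_iff_not_imp_left.2 (z g (Finset.mem_image_of_mem _ hg)))))
          ((On.mem_ker R c.mem _).2 (.inr p))
      exact ((On.mem_ker Q q.mem _).1 m).resolve_left fun e => by simp [show b = 0 from e] at p
  choose T hT using k
  obtain ⟨m, hm⟩ := ((eventually_all_finset (s.filter (· ≠ 0))).2 fun f hf =>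
    (hT f (Finset.mem_filter.1 hf).1 (Finset.mem_filter.1 hf).2).1).exists
  let u := (s.filter (· ≠ 0)).biUnion fun f => (T f).image (· * f ^ m)
  have u1 : ∀ w ∈ u, Sec ((m : ℝ) • mx s) w ∧ (w ≠ 0 → 0 < (dv w + (m : ℝ) • mx s) R) :=
    fun w hw => by
      obtain ⟨f, hf, hw⟩ := Finset.mem_biUnion.1 hw
      obtain ⟨b, hb, rfl⟩ := Finset.mem_image.1 hw
      exact ⟨(hm f hf b hb).1, fun z => (hm f hf b hb).2 (left_ne_zero_of_mul z)⟩
  have u2 : ∀ Q, (∀ w ∈ u, w ≠ 0 → 0 < (dv w + (m : ℝ) • mx s) Q) → CLe Λ Q R := fun Q z => by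
    obtain ⟨f, hf, q⟩ := On.exists_ch nz Q
    refine am.cle_iff.2 ((hT f hf q.ne).2 Q q fun b hb b0 => Int.cast_pos.1 (q.val b0 m ▸ z _
      (Finset.mem_biUnion.2 ⟨f, Finset.mem_filter.2 ⟨hf, q.ne⟩, Finset.mem_image_of_mem _ hb⟩)
      (mul_ne_zero b0 (pow_ne_zero m q.ne))))
  have un : Nz u := by_contra fun z => P297Z.Pl.ring_ne_top R.toPlace (eq_top_iff.2 fun a _ =>
    (On.hor_iff hK hΛ).2 (fun Q => u2 Q fun w hw w0 => (z ⟨w, hw, w0⟩).elim) a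
      (hb.fld_eq ▸ trivial))
  obtain ⟨ε, e0, sm⟩ := am.dsc.exists_sub
  have p : 0 < ε / (m + 1) := by positivity
  refine ⟨(m : ℝ) • mx s - mx u, ε / (m + 1), sub_nonneg.2 (mx_le un fun w hw => (u1 w hw).1), p,
    ?_, ?_, fun Q z => u2 Q fun w hw w0 => z.trans_le ?_⟩
  · have := (sm.add ((smp_mx s).smul p.le)).add ((smp_mx u).smul p.le)
    rwa [show Λ - ε • mx s + (ε / (m + 1)) • mx s + (ε / (m + 1)) • mx u =
      Λ - (ε / (m + 1)) • ((m : ℝ) • mx s - mx u) by match_scalars <;> field_simp <;> ring] at this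
  · obtain ⟨w, hw, w0, e⟩ := R.exists_mz un
    have := (u1 w hw).2 w0
    simp only [Pi.add_apply, Pi.sub_apply, dv_apply, mx_apply u, e] at this ⊢
    push_cast
    linarith
  · have := dv_add_mx_nonneg hw w0 Q
    simp only [Pi.add_apply, Pi.sub_apply, Pi.zero_apply] at this ⊢
    linarith

/-- a log canonical place gives a tiger with the same centre; a place which is not log canonical
survives -/
theorem lo_off (b : Bz n N Γ) (a0 : 0 ≤ a) (a1 : a < ε) (f0 : 0 ≤ F) (fs : Smp (a • N - F))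
    (kl : ∀ Q, CLe N R Q → -1 < dsc (n + 1) Γ Q) (g : dsc (n + 1) (Γ + F) R ≤ -1)
    (lc : ∀ Q, CLe N R Q → -1 ≤ dsc (n + 1) (Γ + F) Q) (hm : dsc (n + 1) (Γ + F) R₀ < -1) :
    ∃ Δ P, Tg n N Γ Δ ε P ∧ CLe N R P ∧ CLe N P R ∧ dsc (n + 1) (Γ + Δ) R₀ < -1 := by
  have fc := car_of b.smp fs
  obtain ⟨H, η, h0, η0, hs, hp, hz⟩ := fz b.ff b.smp b.big R
  have hc : η • H ∈ Car K := by simpa using sub_mem b.smp.car hs.car
  obtain ⟨c, c0, c1⟩ : ∃ c, 0 < c ∧ ε = a + c + c := ⟨(ε - a) / 2, half_pos (sub_pos.2 a1), by ring⟩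
  have x0 : 0 < c * (η * H R) := by positivity
  have tz : ∀ y : ℝ, Tendsto (fun t : ℝ => t * y) (𝓝 0) (𝓝 0) := fun y => by
    simpa using (continuous_mul_const y).tendsto 0
  obtain ⟨t, ⟨⟨t1, t2⟩, t3⟩, t0⟩ := ((((gt_mem_nhds one_pos : ∀ᶠ t in 𝓝 (0 : ℝ), t < 1).and
    ((tz (F R)).eventually (gt_mem_nhds x0))).and ((tz (F R₀)).eventually
      (gt_mem_nhds (sub_pos.2 hm)))).filter_mono
    nhdsWithin_le_nhds).and (self_mem_nhdsWithin (s := Ioi (0 : ℝ))) |>.exists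
  have t0 : 0 < t := t0
  obtain ⟨μ, D, P, z, m0, m1, d0, dc, ds, -, db, p, l, pl⟩ := Ti.tie_big0 (S := {Q | CLe N R Q})
    (Γ := Γ + (1 - t) • F) (G := c • η • H) b.ff b.smp.nef b.big
    (add_mem b.car (Submodule.smul_mem _ _ fc))
    (Submodule.smul_mem _ _ hc) (smul_nonneg c0.le (smul_nonneg η0.le h0))
    (fun Q a P b => a.trans b) (fun Q hQ => by
      have u := lc Q hQ
      have v := kl Q hQ
      rw [dsc_add] at u
      rw [dsc_add_smul]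
      nlinarith) (CLe.refl _ R) (by
      rw [dsc_add] at g
      rw [dsc_add_smul, dsc_add_smul, Pi.smul_apply, smul_eq_mul]
      linarith) c0
  have s : Smp ((1 - t) • (a • N - F) + (μ * c) • (N - η • H) + (t * a + (1 - μ) * c) • N) :=
    ((fs.smul (sub_pos.2 t1).le).add (hs.smul (mul_pos m0 c0).le)).add (b.smp.smul
      (add_nonneg (mul_nonneg t0.le a0) (mul_nonneg (sub_nonneg.2 m1.le) c0.le)))
  have e : ε • N - ((1 - t) • F + μ • c • η • H + D) = (c • N - D) +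
      ((1 - t) • (a • N - F) + (μ * c) • (N - η • H) + (t * a + (1 - μ) * c) • N) := by
    rw [c1]; module
  have e' : Γ + ((1 - t) • F + μ • c • η • H + D) = Γ + (1 - t) • F + μ • c • η • H + D := by abel
  have n1 := smul_nonneg m0.le (smul_nonneg c0.le (smul_nonneg η0.le h0))
  refine ⟨(1 - t) • F + μ • c • η • H + D, P, ⟨a0.trans_lt a1, add_mem (add_mem
    (Submodule.smul_mem _ _ fc) (Submodule.smul_mem _ _ (Submodule.smul_mem _ _ hc))) dc,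
    add_nonneg (add_nonneg (smul_nonneg (sub_pos.2 t1).le f0) n1) d0, e ▸ ds.add s, ?_, e' ▸ l,
    fun Q ne k => e' ▸ pl Q (p.trans k) ne⟩, p,
    hz P ((mul_pos_iff_of_pos_left η0).1 ((mul_pos_iff_of_pos_left c0).1 z)), ?_⟩
  · rw [e, res_add b.ff P ds.car s.car]
    exact db.add_smp (res_smp b.ff P s)
  · rw [dsc_add] at t3
    rw [e', dsc_add, dsc_add, dsc_add_smul]
    linarith [n1 R₀, d0 R₀, show (0 : BD K) R₀ = 0 from rfl]

/-- **cutting** a tiger along a divisor which is singular on it -/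
theorem cut (b : Bz n N Γ) (t : Tg n N Γ Δ ε P) {Q : Pl P.κ} {ε' : ℝ} (a0 : 0 < a)
    (e1 : ε + a < ε') (d0 : 0 ≤ D) (ds : Smp (a • N - D)) (dP : D P = 0)
    (kl : ∀ R, Cq N P Q R → -1 < dsc (n + 1) Γ R)
    (hk : ∀ Q', Ti.Cu N P Q Q' → -1 < dsc n (adj n P (Γ + Δ)) Q')
    (g : dsc n (adj n P (Γ + Δ) + res P D) Q ≤ -1) (hm : dsc (n + 1) (Γ + Δ) R₀ < -1) :
    ∃ Δ' P', Tg n N Γ Δ' ε' P' ∧ Cq N P Q P' ∧ CLe N P' P ∧ cd N P' < cd N P ∧
      dsc (n + 1) (Γ + Δ') R₀ < -1 := by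
  have hK := b.ff
  have hL := Bm.ff_κ hK P
  obtain ⟨m, rfl⟩ := Ba.ff_succ hL Q
  have cΘ := add_mem b.car t.car
  have cD := car_of b.smp ds
  have cu : Ti.Cu N P Q Q := fun _ _ _ => id
  have ad : ∀ u : ℝ, adj (m + 1) P (Γ + Δ + u • D) = adj (m + 1) P (Γ + Δ) + u • res P D :=
    fun u => by rw [(a4 _ K hK P _ cΘ _ (Submodule.smul_mem _ u cD)).1, res_smul hK P u cD]
  have vP : ∀ u : ℝ, dsc (m + 1 + 1) (Γ + Δ + u • D) P = -1 := fun u => by
    rw [dsc_add_smul, t.lc, dP, mul_zero, sub_zero]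
  rw [dsc_add] at g
  have p : 0 < res P D Q := by linarith [hk Q cu]
  obtain ⟨τ, t0, lc, Q₁, q1, q2⟩ := lct_on (S := {Q' | Ti.Cu N P Q Q'}) hL (a1 _ K hK P _ cΘ).1
    (res_car hK P D) (res_car hK P N) (fun _ x _ y => x.up hK b.smp.car y) hk cu p
  have t1 : τ ≤ 1 := by
    have := lc Q cu
    rw [dsc_add_smul] at this
    nlinarith
  have sm : ∀ u : ℝ, 0 ≤ u → u ≤ 1 → Smp ((ε + a) • N - (Δ + u • D)) := fun u x y => by
    have := (t.smp.add (ds.smul x)).add (b.smp.smul (mul_nonneg (sub_nonneg.2 y) a0.le))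
    rwa [show ε • N - Δ + u • (a • N - D) + ((1 - u) * a) • N =
      (ε + a) • N - (Δ + u • D) by module] at this
  have iv : ∀ u : ℝ, 0 ≤ u → u < τ → ∀ R, R ≠ P → Cq N P Q R →
      -1 < dsc (m + 1 + 1) (Γ + Δ + u • D) R := fun u x y R ne cq => by
    have z := b.add (add_nonneg t.nn (smul_nonneg x d0)) (sm u x (y.le.trans t1))
    rw [← add_assoc] at z
    obtain ⟨c, hc⟩ := z.nef
    refine Ti.a5l hK b.smp b.big hc z.bdy (vP u) (fun R z => ?_) ne cq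
    have i := lc R z
    have j := hk R z
    rw [dsc_add_smul] at i
    rw [ad, dsc_add_smul]
    rcases (res_nonneg hK P cD d0 dP R).eq_or_lt with k | k
    · rw [← k]; simpa using j
    · nlinarith
  obtain ⟨R, ne, r1, r2, r4⟩ := t.fol b Q₁ (τ • D) (Submodule.smul_mem _ τ cD) (by simp [dP])
  rw [res_smul hK P τ cD, q2] at r4
  have cq : Cq N P Q R := fun X x y z => q1 X x y (z.trans_le (r2 X x y))
  have lt : cd N R < cd N P := (On.cle_cd hK b.smp r1).1.lt_of_ne fun e => by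
    have k := (On.cle_cd hK b.smp r1).2 e
    have := t.plt R ne k
    rw [dsc_add_smul, le_antisymm (not_lt.1 fun p => (pos_of_cle a0 ds d0 p k).ne' dP) (d0 R)] at r4
    simp only [mul_zero] at r4
    linarith
  obtain ⟨Δ', P', x, y, z, w⟩ := lo_off (F := Δ + τ • D) (R := R) (R₀ := R₀) b
    (add_pos t.pos a0).le e1 (add_nonneg t.nn (smul_nonneg t0.le d0)) (sm τ t0.le t1)
    (fun R' k => kl R' (Ti.cq_up cq k)) (by rw [← add_assoc]; exact r4.ge) (fun R' k => by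
      rw [← add_assoc]
      by_cases e : R' = P
      · exact e ▸ (vP τ).ge
      have i := fun u x y => iv u x y R' e (Ti.cq_up cq k)
      simp only [dsc_add_smul] at i ⊢
      refine ge_of_tendsto (x := 𝓝[<] τ) (f := fun u => dsc (m + 1 + 1) (Γ + Δ) R' - u * D R')
        (tendsto_nhdsWithin_of_tendsto_nhds (Continuous.tendsto (by fun_prop) τ)) ?_
      filter_upwards [Ioo_mem_nhdsLT t0] with u hu using (i u hu.1.le hu.2).le) (by
      rw [← add_assoc, dsc_add_smul]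
      linarith [mul_nonneg t0.le (d0 R₀)])
  exact ⟨Δ', P', x, Ti.cq_up cq y, z.trans r1, (On.cle_cd hK b.smp z).1.trans_lt lt, w⟩

/-- a function defined over the small field which vanishes on a centre -/
theorem mx_of_cle (ok : Ok φ) (hN : Big N) {P P' : Pl K'} (t : Trv φ P')
    (k : CLe (pb φ N) P' P) {u : K} {c : ℂ} (h : Mx P (φ u - algebraMap ℂ K' c)) :
    Mx P' (φ u - algebraMap ℂ K' c) := by
  refine mx_iff.2 (or_iff_not_imp_left.2 fun w0 => ?_)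
  obtain ⟨ε, e0, E, r⟩ := hN.exists_eff (pld_car u)
  have s : Sec (pb φ (pld u)) (φ u - algebraMap ℂ K' c) := by
    have := (ok.sec (sec_pld u)).add ((sec_one.2 (pb_nonneg φ (pld_nonneg u))).smul (-c))
    rwa [neg_smul, ← Algebra.algebraMap_eq_smul_one, ← sub_eq_add_neg] at this
  have r' := (ok.rep r).add ((s.rep w0).smul e0.le)
  rw [pb_sub, pb_smul, sub_add_cancel] at r'
  have := k _ r' (add_pos_of_nonneg_of_pos ((ok.rep r).1 P) (mul_pos e0 (add_pos_of_pos_of_nonneg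
    (Int.cast_pos.2 ((mx_iff.1 h).resolve_left w0)) (pb_nonneg φ (pld_nonneg u) P))))
  simp only [Pi.add_apply, Pi.smul_apply, t.pb, zero_add, add_zero, dv_apply, smul_eq_mul] at this
  exact Int.cast_pos.1 ((mul_pos_iff_of_pos_left e0).1 this)

theorem mx_up {P : Pl K'} {Q : Pl K} (l : Lies φ P Q) {u : K} (h : Mx Q u) : Mx P (φ u) :=
  mx_iff.2 ((mx_iff.1 h).imp (fun e => by rw [e, map_zero]) (l.ord_pos_iff u).2)

theorem trv_cle (h : Xt n φ Γ Γ') (hN : Big N) {x P : Pl K'} (t : Trv φ x)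
    (k : CLe (pb φ N) x P) : Trv φ P := Ti.trv_of_cle h.ok hN (by simp) t k

theorem bir_mul {m d : ℕ} (h : Bir ((m : ℝ) • N)) : Bir (((m * (d + 1) : ℕ) : ℝ) • N) :=
  eq_top_iff.2 (h.ge.trans (IntermediateField.adjoin.mono _ _ _ fun _ ⟨f, g, x, y, e⟩ => by
    have k : ∀ f, Sec ((m : ℝ) • N) f → Sec (((m * (d + 1) : ℕ) : ℝ) • N) (f * g ^ d) :=
      fun f x => by
        have := x.mul (y.pow d)
        rwa [show (m : ℝ) • N + (d : ℝ) • (m : ℝ) • N = ((m * (d + 1) : ℕ) : ℝ) • N by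
          push_cast; module] at this
    refine ⟨_, _, k f x, k g y, e.trans ?_⟩
    by_cases g0 : g = 0
    · simp [g0]
    · rw [mul_div_mul_right _ _ (pow_ne_zero d g0)]))

end Vale.Agent.P283B.Eb
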