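import Vale.Agent.P287D.Cb.Row
import Vale.Agent.P287D.Pb.Up
import Vale.Agent.P287D.Pb.Res
import Vale.Agent.P287D.Fm.Ds
import Vale.Agent.P287D.Gm.Tr
import Vale.Agent.P025.R2.H720.Dom

/-!
# P283B, block EB: fibre products of function fields, forms and places
-/

set_option linter.unusedVariables false
set_option linter.unusedSectionVars false

open Set TensorProduct
open Vale.Agent.P285N.Brep (jac Fr)
open Vale.Agent.P297Z Vale.Agent.P287D Vale.Agent.P287D.Cb

noncomputable section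

namespace Vale.Agent.P283B.Wp

section form

variable {K K' : Type} [Field K] [Algebra ℂ K] [Field K'] [Algebra ℂ K'] {n m : ℕ}
  {ι ι' σ : Type} [Fintype ι] [Fintype ι'] [Fintype σ]

/-- the b-divisor of the form `dy`, any index type -/
def kq (y : ι → K) : BD K := kap (y ∘ (Fintype.equivFin ι).symm)

theorem kq_eq (hK : FF K n) (e : Fin n ≃ ι) (y : ι → K) : kq y = kap (y ∘ e) := by
  obtain rfl : n = Fintype.card ι := by simpa using Fintype.card_congr e
  rw [kq, ← kap_perm hK (y ∘ e) ((Fintype.equivFin ι).symm.trans e.symm)]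
  congr 1
  funext i
  simp

theorem kq_fin (hK : FF K n) (y : Fin n → K) : kq y = kap y := kq_eq hK (Equiv.refl _) y

theorem kq_congr (hK : FF K n) (h : Fintype.card ι = n) (e : ι ≃ ι') {y : ι → K} {y' : ι' → K}
    (k : ∀ i, y' (e i) = y i) : kq y' = kq y := by
  let a := (Fintype.equivFinOfCardEq h).symm
  rw [kq_eq hK a, kq_eq hK (a.trans e)]
  exact congrArg kap (funext fun i => k _)

theorem kq_cn (hK : FF K n) (h : Fintype.card ι = n) {y : ι → K} (hy : AlgebraicIndependent ℂ y) :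
    ∃ f, f ≠ 0 ∧ kq y = cn K n + dv f := by
  let a := (Fintype.equivFinOfCardEq h).symm
  rw [kq_eq hK a]
  exact kap_cn hK (hy.comp _ a.injective)

theorem sum_le_kq (hK : FF K n) (h : Fintype.card ι = n) {y : ι → K}
    (hy : AlgebraicIndependent ℂ y) (P : Pl K) : ∑ i, (P.ord (y i) : ℝ) ≤ kq y P + 1 := by
  let a := (Fintype.equivFinOfCardEq h).symm
  rw [kq_eq hK a, ← a.sum_comp]
  exact sum_le_kap hK (hy.comp _ a.injective) P

theorem kq_nonneg (hK : FF K n) (h : Fintype.card ι = n) {y : ι → K} {P : Pl K}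
    (hy : ∀ i, y i ∈ P.ring) : 0 ≤ kq y P := by
  rw [kq_eq hK (Fintype.equivFinOfCardEq h).symm]
  exact kap_nonneg hK fun _ => hy _

/-- the form `da du` at a place where the residues of `u` are independent -/
theorem kap_ada (hK : FF K (n + 1)) {P : Pl K} {a : K} {u : Fin n → K} (ha : 0 < P.ord a)
    (hu : ∀ i, u i ∈ P.ring) (hi : AlgebraicIndependent ℂ fun i => P.rd (u i)) :
    kap (Fin.cons a u : Fin (n + 1) → K) P + 1 = P.ord a := by
  have A : Ada P P.t u := ⟨P.ord_t, hu, hi⟩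
  obtain ⟨D, hD⟩ := A.ad hK
  have a0 : a ≠ 0 := fun e => by simp [e] at ha
  have e : jac (Fin.cons (P.t • D 0) fun i => D i.succ) (Fin.cons a u : Fin (n + 1) → K) =
      P.t * D 0 a := by
    have d0 : ∀ j : Fin n, D 0 (u j) = 0 := fun j => by
      simpa [(Fin.succ_ne_zero j).symm] using hD.fr.dual 0 j.succ
    have d1 : ∀ i j : Fin n, D i.succ (u j) = if i = j then 1 else 0 := fun i j => by
      simpa using hD.fr.dual i.succ j.succ
    rw [jac, Matrix.det_succ_row_zero, Fin.sum_univ_succ,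
      Finset.sum_eq_zero fun j _ => by simp [d0]]
    rw [show Matrix.submatrix _ _ _ = 1 from Matrix.ext fun i j => by
      simp [d1, Matrix.one_apply]]
    simp
  rw [(A.lf hD).eq _ (ind_cons hu hi a0 (mx_iff.2 (.inr ha))), e]
  obtain ⟨w, w1, w2, w3⟩ := ld_eq (dr_of (D 0)) P a0
  have t1 : D 0 P.t = 1 := by simpa using hD.fr.dual 0 0
  have m1 : Mx P (P.t * (w⁻¹ * D 0 w)) := mx_t (mul_mem w2 (hD.pre 0 w w1))
  have e2 : P.t * D 0 a = a * (P.t * (w⁻¹ * D 0 w) + (P.ord a : ℤ)) := by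
    have := P.t_ne
    rw [div_eq_iff a0] at w3
    rw [w3, t1]
    field_simp
  have nm : ¬ Mx P (P.t * (w⁻¹ * D 0 w) + (P.ord a : ℤ)) := fun h => by
    have : CharZero K := charZero_of K
    have := (h.sub m1).mul (int_inv_mem P (P.ord a))
    rw [add_sub_cancel_left, inv_mul_cancel₀ (by exact_mod_cast ha.ne')] at this
    exact not_mx_one this
  have mm : P.t * (w⁻¹ * D 0 w) + (P.ord a : ℤ) ∈ P.ring := add_mem m1.mem (int_mem P _)
  rw [e2, Pl.ord_mul _ a0 (fun z => nm (by rw [z]; exact mx_zero)), Pl.ord_unit _ mm (inv_mem_of nm), add_zero]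

theorem kq_ada (hK : FF K n) (h : Fintype.card σ + 1 = n) {P : Pl K} {a : K} {u : σ → K}
    (ha : 0 < P.ord a) (hu : ∀ i, u i ∈ P.ring)
    (hi : AlgebraicIndependent ℂ fun i => P.rd (u i)) :
    kq (fun o : Option σ => o.elim a u) P + 1 = P.ord a := by
  subst h
  let e := (Fintype.equivFin σ).symm
  rw [kq_eq hK ((finSuccEquiv _).trans e.optionCongr), ← kap_ada hK ha (u := u ∘ e)
    (fun _ => hu _) (hi.comp _ e.injective)]
  congr 2
  funext i
  refine Fin.cases ?_ (fun i => ?_) i <;> simp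

/-- **change of the frame of the base** -/
theorem kq_chg {φ : K →+* K'} (hK : FF K n) (hK' : FF K' m)
    (hc : ∀ c, φ (algebraMap ℂ K c) = algebraMap ℂ K' c) (h : Fintype.card ι = n)
    (h' : Fintype.card ι' = n) (k : n + Fintype.card σ = m) {y : ι → K} {y' : ι' → K}
    {s : σ → K'} (hy : AlgebraicIndependent ℂ y) (hy' : AlgebraicIndependent ℂ y')
    (hs : AlgebraicIndependent ℂ (Sum.elim (φ ∘ y') s)) :
    kq (Sum.elim (φ ∘ y) s) = kq (Sum.elim (φ ∘ y') s) + pb φ (kq y - kq y') := by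
  classical
  let a := (Fintype.equivFinOfCardEq h).symm
  let a' := (Fintype.equivFinOfCardEq h').symm
  let b : Fin m ≃ Fin n ⊕ σ := (Fintype.equivFinOfCardEq (by simp [k])).symm
  obtain ⟨D, hD⟩ := fr_of hK (hy'.comp _ a'.injective)
  obtain ⟨w, E, hE, -⟩ := exists_cn hK'
  have j0 := (jac_ne_iff hD _).2 (hy.comp _ a.injective)
  have c := dt_chain (φ := φ) (d := fun i => E (b.symm i)) (fun i => dr_of _)
    (fun i c => by rw [hc, Derivation.map_algebraMap]) hD (y ∘ a) s
  have d : ∀ t : Fin n → K, dt φ (fun i => E (b.symm i)) t s =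
      jac E (Sum.elim (φ ∘ t) s ∘ b) := fun t => by
    rw [dt, jac, ← Matrix.det_submatrix_equiv_self b]
    congr 1
    ext i j
    simp
    rfl
  have e : ∀ {κ : Type} (t : κ → K) (g : Fin n ≃ κ), Sum.elim (φ ∘ t) s ∘ b.trans (g.sumCongr (.refl σ)) =
      Sum.elim (φ ∘ t ∘ g) s ∘ b := fun t g => funext fun i => by
    simp only [Function.comp_apply, Equiv.trans_apply]
    rcases b i with j | j <;> rfl
  rw [d, d] at c
  have n1 : jac E (Sum.elim (φ ∘ y' ∘ a') s ∘ b) ≠ 0 := (jac_ne_iff hE _).2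
    (e y' a' ▸ hs.comp _ (Equiv.injective _))
  have n2 := (map_ne_zero φ).2 j0
  rw [kq_eq hK' (b.trans (a.sumCongr (.refl σ))), kq_eq hK' (b.trans (a'.sumCongr (.refl σ))),
    kq_eq hK a, kq_eq hK a', e, e, kap_chg hD j0, add_sub_cancel_left,
    Ok.pb_dv (φ := φ) (hK'.ok (ah φ hc)), kap_chg hE n1, kap_chg hE (c ▸ mul_ne_zero n1 n2), c, dv_mul n1 n2,
    add_assoc]

/-- `y` is a logarithmic system of coordinates at `P` -/
def Ap (P : Pl K) (y : ι → K) : Prop := kq y P + 1 = ∑ i, (P.ord (y i) : ℝ)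

theorem ord_zero_of {P : Pl K} {a : K} (h : a ∈ P.ring) (k : P.rd a ≠ 0) : P.ord a = 0 := by
  have := mt (rd_eq_zero h).2 k
  rw [mx_iff, not_or] at this
  have k := Pl.ord_nonneg_of_mem _ h
  omega

theorem ap_of (hK : FF K n) (h : Fintype.card ι = n) {P : Pl K} {y : ι → K} (e : Option σ ≃ ι)
    (ha : 0 < P.ord (y (e none))) (hu : ∀ i, y (e (some i)) ∈ P.ring)
    (hi : AlgebraicIndependent ℂ fun i => P.rd (y (e (some i)))) : Ap P y := by
  have c : Fintype.card σ + 1 = n := by rw [← h, ← Fintype.card_congr e, Fintype.card_option]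
  rw [Ap, kq_congr hK (by rw [Fintype.card_option, c]) e
    (y := fun o : Option σ => o.elim (y (e none)) fun i => y (e (some i))) (by rintro (_ | i) <;> rfl),
    kq_ada hK c ha hu hi, ← e.sum_comp, Fintype.sum_option,
    Finset.sum_eq_zero fun i _ => by rw [ord_zero_of (hu i) (hi.ne_zero i), Int.cast_zero],
    add_zero]

theorem ind_of {P : Pl K} {y : ι → K} (e : Option σ ≃ ι) (ha : 0 < P.ord (y (e none)))
    (hu : ∀ i, y (e (some i)) ∈ P.ring)
    (hi : AlgebraicIndependent ℂ fun i => P.rd (y (e (some i)))) : AlgebraicIndependent ℂ y := by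
  have := AlgebraicIndependent.option_iff.2 ⟨ind_of_rd hu hi, trans_of_mx hu hi
    (fun z => by simp [z] at ha) (mx_iff.2 (.inr ha))⟩
  exact (algebraicIndependent_equiv' e (by funext i; rcases i with _ | i <;> rfl)).1 this

theorem pb_ap {φ : K →+* K'} {w : Pl K'} {y : ι → K}
    (h : Trv φ w ∨ ∃ v, Lies φ w v ∧ Ap v y) :
    pb φ (kq y + 1) w = ∑ i, (w.ord (φ (y i)) : ℝ) := by
  rcases h with h | ⟨v, l, a⟩
  · simp [h.pb, h.ord]
  · rw [l.pb, Pi.add_apply, Pi.one_apply, a, Finset.mul_sum]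
    exact Finset.sum_congr rfl fun i _ => by rw [l.ord (y i), Int.cast_mul]

/-- the distinguished element is on the left -/
def oL (α β : Type) : Option (α ⊕ β) ≃ Option α ⊕ β where
  toFun := fun o => o.elim (.inl none) (Sum.map some id)
  invFun := Sum.elim (Option.map .inl) fun b => some (.inr b)
  left_inv := by rintro (_ | _ | _) <;> rfl
  right_inv := by rintro ((_ | _) | _) <;> rfl

/-- the distinguished element is on the right -/
def oR (α β : Type) : Option (α ⊕ β) ≃ α ⊕ Option β where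
  toFun := fun o => o.elim (.inr none) (Sum.map id some)
  invFun := Sum.elim (fun a => some (.inl a)) (Option.map .inr)
  left_inv := by rintro (_ | _ | _) <;> rfl
  right_inv := by rintro (_ | _ | _) <;> rfl

end form

section one

variable {L K : Type} [Field L] [Field K] [Algebra ℂ L] [Algebra ℂ K] [Algebra L K]
  [IsScalarTower ℂ L K] {ι κ τ : Type} [Fintype ι] [Fintype κ] [Fintype τ] {r k : ℕ}

theorem lin (L K : Type) [Field L] [Field K] [Algebra ℂ L] [Algebra ℂ K] [Algebra L K]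
    [IsScalarTower ℂ L K] (c : ℂ) : algebraMap L K (algebraMap ℂ L c) = algebraMap ℂ K c :=
  (IsScalarTower.algebraMap_apply ℂ L K c).symm

theorem okL {n : ℕ} (hK : FF K n) : Ok (algebraMap L K) := hK.ok (IsScalarTower.toAlgHom ℂ L K)

/-- a frame of `K` over a frame of `L` -/
def f1 (y : ι → K) (z : κ → L) : ι ⊕ κ → K := Sum.elim y (algebraMap L K ∘ z)

theorem ind1 {y : ι → K} {z : κ → L} (hy : AlgebraicIndependent L y)
    (hz : AlgebraicIndependent ℂ z) : AlgebraicIndependent ℂ (f1 y z) := hz.sumElim_comp hy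

theorem trdegL (hL : FF L k) (hK : FF K (r + k)) : Algebra.trdeg L K = r := by
  have h := trdeg_add_eq ℂ L (A := K)
  rw [hL.trdeg, hK.trdeg, Nat.cast_add, add_comm] at h
  exact (Cardinal.add_nat_inj k).1 h

theorem indL (hL : FF L k) (hK : FF K (r + k)) (h : Fintype.card ι = r) (h' : Fintype.card κ = k)
    {y : ι → K} {z : κ → L} (hi : AlgebraicIndependent ℂ (f1 y z)) : AlgebraicIndependent L y := by
  have : Algebra.IsAlgebraic (Algebra.adjoin L (range y)) K := ⟨fun x => by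
    have a := Gm.mem_Cl.1 (Gm.cl_basis hK hi (by rw [Fintype.card_sum, h, h']) x)
    have le : Algebra.adjoin ℂ (range (f1 y z)) ≤ (Algebra.adjoin L (range y)).restrictScalars ℂ :=
      Algebra.adjoin_le (by
        rintro _ ⟨i | i, rfl⟩
        · exact Algebra.subset_adjoin (R := L) (s := range y) (mem_range_self i)
        · exact (Algebra.adjoin L (range y)).algebraMap_mem (z i))
    exact (a.tower_top_of_subalgebra_le le :)⟩
  exact (Algebra.IsAlgebraic.isTranscendenceBasis_of_le_trdeg_of_finite L y (by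
    rw [trdegL hL hK, Cardinal.mk_fintype, h])).1

theorem exists_y (hL : FF L k) (hK : FF K (r + k)) : ∃ y : Fin r → K, AlgebraicIndependent L y :=
  let ⟨y, hy⟩ := Gm.exists_basis L K (trdegL hL hK); ⟨y, hy.1⟩

/-- residues are extended to a transcendence basis -/
theorem ext_rd {n : ℕ} (hK : FF K n) {v : Pl K} {x : τ → K} (hx : ∀ i, x i ∈ v.ring)
    (hi : AlgebraicIndependent ℂ fun i => v.rd (x i)) (h : r + Fintype.card τ + 1 = n) :
    ∃ y : Fin r → K, (∀ i, Sum.elim y x i ∈ v.ring) ∧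
      AlgebraicIndependent ℂ fun i => v.rd (Sum.elim y x i) := by
  subst h
  obtain ⟨vb, hv⟩ := ext_ind hi r (by rw [trdeg_κ hK v])
  choose y y1 y2 using fun i => rd_surj (vb i)
  exact ⟨y, by rintro (i | i); exacts [y1 i, hx i], (congrArg (fun w => AlgebraicIndependent ℂ w)
    (funext (by rintro (i | i); exacts [(y2 i).symm, rfl]))).mp hv⟩

/-- coordinates at a place of the base -/
structure Az (u : Pl L) (x : τ → L) : Prop where
  mem : ∀ i, x i ∈ u.ring
  ind : AlgebraicIndependent ℂ fun i => u.rd (x i)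

/-- the uniformizer and the coordinates -/
def zz (u : Pl L) (x : τ → L) : Option τ → L := fun o => o.elim u.t x

theorem exists_az (hL : FF L (k + 1)) (u : Pl L) : ∃ x : Fin k → L, Az u x :=
  let ⟨x, h⟩ := exists_ada hL u; ⟨x, h.mem, h.ind⟩

theorem Az.indep {u : Pl L} {x : τ → L} (h : Az u x) : AlgebraicIndependent ℂ (zz u x) :=
  ind_of (P := u) (Equiv.refl _) (by simp [zz, u.ord_t]) h.mem h.ind

theorem Az.ap {u : Pl L} {x : τ → L} (h : Az u x) (hL : FF L k) (c : Fintype.card τ + 1 = k) :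
    Ap u (zz u x) :=
  ap_of hL (by simp [c]) (Equiv.refl _) (by simp [zz, u.ord_t]) h.mem h.ind

theorem Az.up {u : Pl L} {x : τ → L} (h : Az u x) {v : Pl K} (l : Lies (algebraMap L K) v u) :
    Az v (algebraMap L K ∘ x) := by
  refine ⟨fun i => (l _).1 (h.mem i), ?_⟩
  have := ind_ah (φ := l.κ) (fun c => by
    rw [← rd_const, l.isRd _ (u.con c), lin, rd_const]) h.ind
  simp only [l.isRd _ (h.mem _)] at this
  exact this

/-- coordinates at a vertical place -/
theorem ad_vt (hL : FF L k) (hK : FF K (r + k)) {u : Pl L} {x : τ → L} (h : Az u x)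
    (c : Fintype.card τ + 1 = k) {v : Pl K} (l : Lies (algebraMap L K) v u) :
    ∃ y : Fin r → K, Az v (f1 y x) ∧ AlgebraicIndependent L y ∧ Ap v (f1 y (zz u x)) := by
  obtain ⟨y, a, b⟩ := ext_rd (r := r) hK (h.up l).mem (h.up l).ind (by omega)
  have a' : ∀ i, f1 y (zz u x) (oR _ _ (some i)) ∈ v.ring := by
    rintro (i | i)
    exacts [a (.inl i), a (.inr i)]
  have b' : AlgebraicIndependent ℂ fun i => v.rd (f1 y (zz u x) (oR _ _ (some i))) :=
    (congrArg (fun w => AlgebraicIndependent ℂ w) (funext (by rintro (i | i) <;> rfl))).mp b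
  have p : 0 < v.ord (f1 y (zz u x) (oR _ _ none)) := l.e_pos
  have c' : Fintype.card (Option τ) = k := by rw [Fintype.card_option, c]
  exact ⟨y, ⟨a, b⟩, indL hL hK (Fintype.card_fin r) c' (ind_of (oR _ _) p a' b'),
    ap_of hK (by rw [Fintype.card_sum, c', Fintype.card_fin]) (oR _ _) p a' b'⟩

/-- coordinates at a horizontal place -/
theorem ad_hr (hL : FF L k) (hK : FF K (r + k)) {z : κ → L} (hz : AlgebraicIndependent ℂ z)
    (c : Fintype.card κ = k) {v : Pl K} (l : Trv (algebraMap L K) v) :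
    ∃ (σ : Type) (_ : Fintype σ) (y : σ → K), Fintype.card σ = r ∧ AlgebraicIndependent L y ∧
      Ap v (f1 y z) := by
  have i : AlgebraicIndependent ℂ fun i => v.rd (algebraMap L K (z i)) := by
    have := ind_ah (φ := Gx.hr l) (fun c => by rw [Gx.hr_apply l, lin, rd_const]) hz
    simpa only [Gx.hr_apply l] using this
  obtain _ | r := r
  · obtain _ | k := k
    · exact (no_pl hK v).elim
    · have := i.cardinalMk_le_trdeg
      rw [trdeg_κ (n := k) (by simpa using hK) v, Cardinal.mk_fintype, c, Nat.cast_le] at this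
      omega
  obtain ⟨y, a, b⟩ := ext_rd (r := r) hK (x := algebraMap L K ∘ z) (fun i => l _) i (by omega)
  have a' : ∀ i, f1 (zz v y) z (oL _ _ (some i)) ∈ v.ring := by
    rintro (i | i)
    exacts [a (.inl i), a (.inr i)]
  have b' : AlgebraicIndependent ℂ fun i => v.rd (f1 (zz v y) z (oL _ _ (some i))) :=
    (congrArg (fun w => AlgebraicIndependent ℂ w) (funext (by rintro (i | i) <;> rfl))).mp b
  have p : 0 < v.ord (f1 (zz v y) z (oL _ _ none)) := v.ord_t.symm ▸ zero_lt_one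
  exact ⟨_, inferInstance, zz v y, by simp, indL hL hK (by simp) c (ind_of (oL _ _) p a' b'),
    ap_of hK (by simp [c]) (oL _ _) p a' b'⟩

end one

theorem amal (k K Ω : Type) [Field k] [IsAlgClosed k] [Field K] [Field Ω] [Algebra k K]
    [Algebra k Ω] : ∃ (F : Type) (_ : Field F) (_ : Algebra K F) (_ : Algebra Ω F)
      (_ : Algebra k F) (_ : IsScalarTower k K F) (_ : IsScalarTower k Ω F), Gf.BE k K Ω F := by
  have := P025H720.isDomain_tensor k Ω K
  let a := algebraMap (Ω ⊗[k] K) (FractionRing (Ω ⊗[k] K))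
  obtain ⟨F, _, φ, ι, sq, gen, dis⟩ : ∃ (F : Type) (_ : Field F) (φ : K →+* F) (ι : Ω →+* F),
      (∀ a, φ (algebraMap k K a) = ι (algebraMap k Ω a)) ∧
      Subfield.closure (range φ ∪ range ι) = ⊤ ∧ ∀ (m : ℕ) (v : Fin m → K),
        LinearIndependent k v → ∀ c : Fin m → Ω, ∑ i, ι (c i) * φ (v i) = 0 → ∀ i, c i = 0 := by
    refine ⟨FractionRing (Ω ⊗[k] K), inferInstance,
      a.comp (Algebra.TensorProduct.includeRight (R := k) (A := Ω) (B := K)).toRingHom,
      a.comp Algebra.TensorProduct.includeLeftRingHom, fun c => congrArg a ?_,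
      eq_top_iff.2 fun x _ => ?_, fun m v hv c hc => ?_⟩
    · exact (RingHom.congr_fun (Algebra.TensorProduct.includeLeftRingHom_comp_algebraMap
        (R := k) (A := Ω) (B := K)) c).symm
    · obtain ⟨p, q, -, rfl⟩ := IsFractionRing.div_surjective (A := Ω ⊗[k] K) x
      refine (fun h : ∀ p, a p ∈ _ => div_mem (h p) (h q)) fun p => ?_
      induction p with
      | zero => rw [map_zero]; exact zero_mem _
      | add p q hp hq => rw [map_add]; exact add_mem hp hq
      | tmul p q =>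
        rw [show p ⊗ₜ[k] q = (p ⊗ₜ[k] 1) * (1 ⊗ₜ[k] q) by simp, map_mul]
        exact mul_mem (Subfield.subset_closure (Or.inr ⟨p, rfl⟩))
          (Subfield.subset_closure (Or.inl ⟨q, rfl⟩))
    · refine Fintype.linearIndependent_iff.1
        (Module.Flat.linearIndependent_one_tmul (S := Ω) hv) c
        (IsFractionRing.injective _ (FractionRing (Ω ⊗[k] K)) ?_)
      rw [map_zero, ← hc, map_sum]
      exact Finset.sum_congr rfl fun i _ => by rw [Algebra.smul_def, map_mul]; rfl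
  let _ := φ.toAlgebra
  let _ := ι.toAlgebra
  let _ := (φ.comp (algebraMap k K)).toAlgebra
  exact ⟨F, _, _, _, _, .of_algebraMap_eq fun _ => rfl, .of_algebraMap_eq sq, gen,
    fun m v hv => Fintype.linearIndependent_iff.2 (dis m v hv)⟩

/-- the constants of a compositum -/
theorem cl_of {L K C Ω F : Type} [Field L] [Field K] [Field C] [Field Ω] [Field F] [Algebra L K]
    [Algebra L C] [Algebra C Ω] [Algebra Ω F] (p : K →+* F)
    (sq : ∀ a, p (algebraMap L K a) = algebraMap Ω F (algebraMap C Ω (algebraMap L C a)))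
    (dis : LinearIndependent Ω fun i => p (Module.Basis.ofVectorSpace L K i)) {ω : Ω}
    (h : algebraMap Ω F ω ∈ Subfield.closure (range p ∪
      range ((algebraMap Ω F).comp (algebraMap C Ω)))) : ω ∈ range (algebraMap C Ω) := by
  let _ := ((algebraMap Ω F).comp (algebraMap C Ω)).toAlgebra
  have : IsScalarTower C Ω F := .of_algebraMap_eq fun _ => rfl
  let b := Module.Basis.ofVectorSpace L K
  have sp : ∀ x ∈ Subring.closure (range p ∪ range (algebraMap C F)),
      x ∈ Submodule.span C (range fun i => p (b i)) := fun x hx => by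
    have h2 : x ∈ Algebra.adjoin C (range p) := (Subring.closure_le
      (t := (Algebra.adjoin C (range p)).toSubring)).2 (union_subset Algebra.subset_adjoin
        (range_subset_iff.2 (Subalgebra.algebraMap_mem _))) hx
    have h3 : (Submonoid.closure (range p) : Set F) = range p :=
      congrArg _ (Submonoid.closure_eq (MonoidHom.mrange p))
    have h4 : x ∈ Submodule.span C (range p) := by
      rw [← h3, ← Algebra.adjoin_eq_span]; exact h2
    refine Submodule.span_le.2 (range_subset_iff.2 fun f => ?_) h4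
    rw [← b.linearCombination_repr f, Finsupp.linearCombination_apply, Finsupp.sum, map_sum]
    exact sum_mem fun i _ => by
      rw [Algebra.smul_def, map_mul, sq]
      exact Submodule.smul_mem _ (algebraMap L C _) (Submodule.subset_span ⟨i, rfl⟩)
  obtain ⟨x, hx, y, hy, e⟩ := Subfield.mem_closure_iff.1 h
  by_cases y0 : y = 0
  · exact ⟨0, (algebraMap Ω F).injective (by rw [← e, y0, div_zero, map_zero, map_zero])⟩
  obtain ⟨l, rfl⟩ := Finsupp.mem_span_range_iff_exists_finsupp.1 (sp x hx)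
  obtain ⟨m, rfl⟩ := Finsupp.mem_span_range_iff_exists_finsupp.1 (sp y hy)
  obtain ⟨i, hi⟩ : ∃ i, m i ≠ 0 := by
    by_contra! z
    exact y0 (by rw [show m = 0 from Finsupp.ext z, Finsupp.sum_zero_index])
  have c : ∀ l : _ →₀ C, Finsupp.linearCombination Ω (fun i => p (b i)) (l.mapRange
      (algebraMap C Ω) (map_zero _)) = l.sum fun i a => a • p (b i) := fun l => by
    rw [Finsupp.linearCombination_apply, Finsupp.sum_mapRange_index (by simp)]
    simp only [algebraMap_smul]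
  have := DFunLike.congr_fun (dis (a₁ := ω • m.mapRange (algebraMap C Ω) (map_zero _))
    (a₂ := l.mapRange (algebraMap C Ω) (map_zero _)) (by
      rw [map_smul, c, c, Algebra.smul_def, ← e, div_mul_cancel₀ _ y0])) i
  rw [Finsupp.smul_apply, Finsupp.mapRange_apply, Finsupp.mapRange_apply, smul_eq_mul] at this
  exact ⟨l i / m i, by rw [map_div₀, ← this, mul_div_cancel_right₀ _ ((map_ne_zero _).2 hi)]⟩

/-- weak approximation -/
theorem wk {K : Type} [Field K] [Algebra ℂ K] (v : Pl K) {S : Set (Pl K)} (hS : S.Finite)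
    (hv : v ∉ S) : ∃ a, 0 < v.ord a ∧ ∀ Q ∈ S, Q.ord a < 0 := by
  induction S, hS using Set.Finite.induction_on with
  | empty => exact ⟨v.t, v.ord_t.symm ▸ zero_lt_one, by simp⟩
  | @insert Q S _ hS ih =>
    obtain ⟨b, b1, b2⟩ := ih fun k => hv (.inr k)
    have ne : v ≠ Q := fun e => hv (.inl e)
    have ex : ∀ P R : Pl K, P ≠ R → ∃ x, x ≠ 0 ∧ 0 ≤ P.ord x ∧ R.ord x < 0 := fun P R h => by
      obtain ⟨x, x1, x2⟩ := SetLike.not_le_iff_exists.1 fun k : P.ring ≤ R.ring =>
        h (Pb.pl_ext (congrArg _ (Pl.eq_of_le' k)))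
      have x0 : x ≠ 0 := fun e => x2 (e ▸ zero_mem _)
      exact ⟨x, x0, Pl.ord_nonneg_of_mem _ x1, not_le.1 (mt (Pl.ord_nonneg_iff _ x0).1 x2)⟩
    obtain ⟨x, x0, x1, x2⟩ := ex v Q ne
    obtain ⟨y, y0, y1, y2⟩ := ex Q v ne.symm
    have c0 := div_ne_zero x0 y0
    have c1 : 0 < v.ord (x / y) := by rw [Pl.ord_div _ x0 y0]; omega
    have c2 : Q.ord (x / y) < 0 := by rw [Pl.ord_div _ x0 y0]; omega
    by_cases k : Q.ord b < 0
    · exact ⟨b, b1, forall_mem_insert.2 ⟨k, b2⟩⟩
    obtain ⟨N, hN⟩ := (hS.image fun R => (R.ord (x / y)).natAbs).bddAbove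
    have b0 : b ^ (N + 1) ≠ 0 := pow_ne_zero _ fun e => by simp [e] at b1
    have q : Q.ord (x / y + b ^ (N + 1)) = Q.ord (x / y) := Pl.ord_add_eq_of_lt _ c0 b0 (by
      rw [Pl.ord_pow]
      exact c2.trans_le (mul_nonneg (by positivity) (not_lt.1 k)))
    refine ⟨x / y + b ^ (N + 1), lt_of_lt_of_le (lt_min c1 ?_) (Pl.min_ord_le_add _ c0 b0
      fun e => by simp [e] at q; omega), forall_mem_insert.2 ⟨q ▸ c2, fun R hR => ?_⟩⟩
    · rw [Pl.ord_pow]; positivity
    · have := hN (mem_image_of_mem _ hR)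
      have := b2 R hR
      have e : R.ord (b ^ (N + 1)) < -N := by rw [Pl.ord_pow]; push_cast; nlinarith
      rw [add_comm, Pl.ord_add_eq_of_lt _ b0 c0 (by omega)]
      omega

/-- two places of linearly disjoint fields which agree on the base have a common extension -/
theorem cmp_fin {F K M E : Type} [Field F] [Field K] [Field M] [Field E] [Algebra ℂ K]
    [Algebra ℂ M] [Algebra ℂ E] [Algebra F K] [Algebra M E] [Algebra K E] [IsScalarTower ℂ M E]
    [FiniteDimensional M E] [FiniteDimensional F K] (ρ : F →+* M) (ok : Ok (algebraMap K E))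
    (sq : ∀ a, algebraMap M E (ρ a) = algebraMap K E (algebraMap F K a))
    (dis : ∀ (m : ℕ) (v : Fin m → K), LinearIndependent F v →
      LinearIndependent M fun i => algebraMap K E (v i)) (R : Pl M) (v : Pl K)
    (h : ∀ a, ρ a ∈ R.ring → algebraMap F K a ∈ v.ring) :
    ∃ w, Lies (algebraMap M E) w R ∧ Lies (algebraMap K E) w v := by
  by_contra hn
  have fin : {Q | ∃ w, Lies (algebraMap M E) w R ∧ Lies (algebraMap K E) w Q}.Finite := by
    refine ((Pb.fin_above (K' := E) R).biUnion (t := fun w => {Q | Lies (algebraMap K E) w Q})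
      fun w _ => Set.Subsingleton.finite fun _ a _ b => a.uniq b).subset ?_
    rintro Q ⟨w, a, b⟩
    exact mem_biUnion a b
  obtain ⟨a, a1, a2⟩ := wk v fin hn
  have a0 : a⁻¹ ≠ 0 := inv_ne_zero fun e => by simp [e] at a1
  have i : IsIntegral R.ring (algebraMap K E a⁻¹) := by
    have := (iInf_valuationSubring_superset (K := E) (s := range (algebraMap R.ring E))).le
      (Subring.mem_iInf.2 fun V => show algebraMap K E a⁻¹ ∈ V.1 from ?_)
    · rw [← RingHom.coe_range, Subring.closure_eq] at this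
      obtain ⟨p, p1, p2⟩ := this
      obtain ⟨q, rfl, -, q1⟩ := Polynomial.lifts_and_degree_eq_and_monic
        (Polynomial.mem_lifts _ |>.2 (Polynomial.map_surjective _
          (algebraMap R.ring E).rangeRestrict_surjective p)) p1
      exact ⟨q, q1, by rw [Polynomial.eval₂_map] at p2; exact p2⟩
    have le : R.ring ≤ V.1.comap (algebraMap M E) := fun x hx => V.2 ⟨⟨x, hx⟩, rfl⟩
    by_cases t : V.1.comap (algebraMap M E) = ⊤
    · obtain ⟨p, hp, hpx⟩ : IsIntegral M (algebraMap K E a⁻¹) := Algebra.IsIntegral.isIntegral _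
      obtain ⟨y, hy⟩ := IsIntegrallyClosed.isIntegral_iff.1 (⟨p.map ((algebraMap M E).codRestrict V.1
        fun x => (t ▸ ValuationSubring.mem_top x : x ∈ V.1.comap (algebraMap M E))), hp.map _, by
          rw [Polynomial.eval₂_map]; exact hpx⟩ : IsIntegral V.1 (algebraMap K E a⁻¹))
      exact hy ▸ y.2
    obtain ⟨⟨w, l⟩, e⟩ := (Pb.fund0 (K' := E) R).2.1
      ⟨V.1, (ValuationSubring.eq_of_le_of_ne_top _ le t).symm⟩
    rw [← show w.ring = V.1 from congrArg P298.H416.Ovr.val e]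
    rcases ok w with s | ⟨Q, l'⟩
    · exact s _
    · refine (l' _).1 ((Pl.ord_nonneg_iff _ a0).1 ?_)
      have := a2 Q ⟨w, l, l'⟩
      rw [Pl.ord_inv]
      omega
  have j : IsIntegral F a⁻¹ := Algebra.IsIntegral.isIntegral _
  have e : (minpoly F a⁻¹).map ρ = minpoly M (algebraMap K E a⁻¹) := by
    refine minpoly.unique' M _ ((minpoly.monic j).map _) ?_ fun q hq => or_iff_not_imp_right.2
      fun z => ?_
    · rw [Polynomial.aeval_def, Polynomial.eval₂_map, show (algebraMap M E).comp ρ =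
        (algebraMap K E).comp (algebraMap F K) from RingHom.ext sq, ← Polynomial.hom_eval₂,
        ← Polynomial.aeval_def, minpoly.aeval, map_zero]
    · by_contra q0
      rw [Polynomial.degree_map] at hq
      have d := Polynomial.natDegree_lt_natDegree q0 hq
      rw [not_not, Polynomial.aeval_eq_sum_range' d, ← Fin.sum_univ_eq_sum_range
        (fun i => q.coeff i • algebraMap K E a⁻¹ ^ i)] at z
      exact Polynomial.leadingCoeff_ne_zero.2 q0 (Fintype.linearIndependent_iff.1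
        (dis _ _ (linearIndependent_pow a⁻¹)) (fun i => q.coeff i) (by simpa using z) ⟨_, d⟩)
  rw [minpoly.isIntegrallyClosed_eq_field_fractions' M i] at e
  obtain ⟨q, q1, -, q2⟩ := Polynomial.lifts_and_degree_eq_and_monic
    (f := algebraMap v.ring K) (p := (minpoly F a⁻¹).map (algebraMap F K))
    ((Polynomial.lifts_iff_coeff_lifts _).2 fun n => ⟨⟨_, h ((minpoly F a⁻¹).coeff n) (by
      rw [← Polynomial.coeff_map, e, Polynomial.coeff_map]; exact Subtype.property _)⟩,
      (Polynomial.coeff_map _ _).symm⟩) ((minpoly.monic j).map _)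
  obtain ⟨y, hy⟩ := IsIntegrallyClosed.isIntegral_iff.1 (⟨q, q2, by
    rw [← Polynomial.eval_map, q1, Polynomial.eval_map, ← Polynomial.aeval_def,
      minpoly.aeval]⟩ : IsIntegral v.ring a⁻¹)
  have := Pl.ord_nonneg_of_mem v.toPlace (show a⁻¹ ∈ v.ring from hy ▸ y.2)
  rw [Pl.ord_inv] at this
  omega

/-- uniqueness of the Gauss place -/
theorem gau_iff {L F M ι : Type} [Field L] [Field F] [Field M] [Algebra ℂ L] [Algebra ℂ M]
    [Algebra L F] {y : ι → F} (hy : AlgebraicIndependent L y)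
    (hg : IntermediateField.adjoin L (range y) = ⊤) (θ : F →+* M) {w : Pl M} {u : Pl L}
    (l : Lies (θ.comp (algebraMap L F)) w u) (ym : ∀ i, θ (y i) ∈ w.ring)
    (hi : ∀ p, MvPolynomial.eval₂ l.κ (fun i => w.rd (θ (y i))) p = 0 → p = 0) (c : F) :
    θ c ∈ w.ring ↔ c ∈ Pb.gau u.ring hy hg := by
  let rs : u.ring →+* u.κ := IsLocalRing.residue u.ring
  have ev : ∀ p, θ (Pb.ev u.ring y p) ∈ w.ring ∧ w.rd (θ (Pb.ev u.ring y p)) =
      MvPolynomial.eval₂ l.κ (fun i => w.rd (θ (y i))) (MvPolynomial.map rs p) := fun p => by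
    induction p using MvPolynomial.induction_on with
    | C a =>
      rw [Pb.ev_C, MvPolynomial.map_C, MvPolynomial.eval₂_C]
      exact ⟨(l _).1 a.2, ((congrArg _ (rd_of a.2).symm).trans (l.isRd _ a.2)).symm⟩
    | add p q hp hq =>
      rw [map_add, map_add, map_add, MvPolynomial.eval₂_add, rd_add hp.1 hq.1, hp.2, hq.2]
      exact ⟨add_mem hp.1 hq.1, rfl⟩
    | mul_X p i hp =>
      rw [map_mul, map_mul, map_mul, MvPolynomial.eval₂_mul, Pb.ev_X, rd_mul hp.1 (ym i), hp.2,
        MvPolynomial.map_X, MvPolynomial.eval₂_X]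
      exact ⟨mul_mem hp.1 (ym i), rfl⟩
  have le : ∀ c ∈ Pb.gau u.ring hy hg, θ c ∈ w.ring := by
    rintro c ⟨p, q, h, e⟩
    rw [eq_div_of_mul_eq (Pb.ev_ne hy h) e, map_div₀, div_eq_mul_inv]
    exact mul_mem (ev p).1 (inv_mem_of fun z => h (hi _ ((ev q).2 ▸ (rd_eq_zero (ev q).1).2 z)))
  refine ⟨fun h => ?_, le c⟩
  by_cases c0 : c = 0
  · exact c0 ▸ zero_mem _
  obtain ⟨a, a0, h1, h2⟩ := Pb.gau_unit (W := u.ring) (hy := hy) (hg := hg) c0
  have a1 := (map_ne_zero (algebraMap L F)).2 a0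
  have : a ∈ u.ring := (l a).2 (by
    have := mul_mem (le _ h2) h
    rwa [← map_mul, inv_div, div_mul_cancel₀ _ c0] at this)
  exact div_mul_cancel₀ c a1 ▸ mul_mem h1 ((Pb.mem_gau a).1 this)

/-- `L` is algebraically closed in `K` -/
def Cl (L K : Type) [Field L] [Field K] [Algebra L K] : Prop :=
  ∀ e : K, IsAlgebraic L e → e ∈ range (algebraMap L K)

/-- the free compositum of two regular extensions -/
theorem am (L K C : Type) [Field L] [Field K] [Field C] [Algebra L K] [Algebra L C] [CharZero L]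
    (hK : Cl L K) (hC : Cl L C) :
    ∃ (E : Type) (_ : Field E) (_ : Algebra K E) (_ : Algebra C E) (_ : Algebra L E)
      (_ : IsScalarTower L K E) (_ : IsScalarTower L C E), Gf.BE L K C E ∧ Cl K E ∧ Cl C E := by
  let B := AlgebraicClosure L
  let _ := (IsAlgClosed.lift (R := L) (S := B) (M := AlgebraicClosure K)).toRingHom.toAlgebra
  let _ := (IsAlgClosed.lift (R := L) (S := B) (M := AlgebraicClosure C)).toRingHom.toAlgebra
  have : IsScalarTower L B (AlgebraicClosure K) := .of_algebraMap_eq fun a =>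
    ((IsAlgClosed.lift (R := L) (S := B)).commutes a).symm
  have : IsScalarTower L B (AlgebraicClosure C) := .of_algebraMap_eq fun a =>
    ((IsAlgClosed.lift (R := L) (S := B)).commutes a).symm
  obtain ⟨F, _, _, _, _, _, _, h⟩ := amal B (AlgebraicClosure K) (AlgebraicClosure C)
  let p := (algebraMap (AlgebraicClosure K) F).comp (algebraMap K _)
  let q := (algebraMap (AlgebraicClosure C) F).comp (algebraMap C _)
  have sq : ∀ a, p (algebraMap L K a) = q (algebraMap L C a) := fun a => by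
    rw [RingHom.comp_apply, RingHom.comp_apply, ← IsScalarTower.algebraMap_apply L K,
      ← IsScalarTower.algebraMap_apply L C, IsScalarTower.algebraMap_apply L B,
      IsScalarTower.algebraMap_apply L B (AlgebraicClosure C), ← IsScalarTower.algebraMap_apply B,
      ← IsScalarTower.algebraMap_apply B]
  have d1 : ∀ {ι : Type} {v : ι → K}, LinearIndependent L v →
      LinearIndependent (AlgebraicClosure C) fun i => p (v i) := fun hv =>
    h.dis' (Gf.ld (C := B) hK hv)
  have d2 : LinearIndependent (AlgebraicClosure K) fun i =>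
      q (Module.Basis.ofVectorSpace L C i) :=
    Fm.dis_swap h (Gf.ld (C := B) hC (Module.Basis.linearIndependent _))
  let S := Subfield.closure (range p ∪ range q)
  let _ := (p.codRestrict S fun f => Subfield.subset_closure (.inl ⟨f, rfl⟩)).toAlgebra
  let _ := (q.codRestrict S fun f => Subfield.subset_closure (.inr ⟨f, rfl⟩)).toAlgebra
  let _ := ((algebraMap K S).comp (algebraMap L K)).toAlgebra
  have al : ∀ (A : Type) [Field A] [Algebra A S] [Algebra (AlgebraicClosure A) F],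
      (∀ a, (algebraMap A S a : F) = algebraMap (AlgebraicClosure A) F (algebraMap A _ a)) →
      ∀ e : S, IsAlgebraic A e → ∃ ω, algebraMap (AlgebraicClosure A) F ω = e := by
    intro A _ _ _ k e ⟨P, P0, hP⟩
    refine Gf.mem_range ⟨P.map (algebraMap A _), (Polynomial.map_ne_zero_iff
      (algebraMap A _).injective).2 P0, ?_⟩
    rw [Polynomial.aeval_def, Polynomial.eval₂_map, show (algebraMap (AlgebraicClosure A) F).comp
      (algebraMap A _) = S.subtype.comp (algebraMap A S) from RingHom.ext fun a => (k a).symm]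
    exact (Polynomial.hom_eval₂ P _ S.subtype e).symm.trans
      ((congrArg S.subtype hP).trans (map_zero _))
  refine ⟨S, inferInstance, _, _, _, .of_algebraMap_eq fun _ => rfl,
    .of_algebraMap_eq fun a => Subtype.ext (sq a), ⟨eq_top_iff.2 fun x _ => ?_, fun m v hv =>
      Fintype.linearIndependent_iff.2 fun c hc i => ?_⟩, fun e he => ?_, fun e he => ?_⟩
  · refine (Subfield.mem_map.1 ?_ : ∃ y ∈ _, S.subtype y = x).elim fun y hy =>
      (Subtype.ext hy.2 : y = x) ▸ hy.1
    rw [RingHom.map_field_closure, image_union, ← range_comp, ← range_comp]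
    exact x.2
  · refine (map_eq_zero _).1 (Fintype.linearIndependent_iff.1 (d1 hv)
      (fun i => algebraMap C _ (c i)) ?_ i)
    rw [← show _ = (0 : F) from congrArg S.subtype hc, map_sum]
    exact Finset.sum_congr rfl fun i _ => Algebra.smul_def _ _
  · obtain ⟨ω, e'⟩ := al K (fun _ => rfl) e he
    obtain ⟨a, rfl⟩ := cl_of q (fun a => (sq a).symm) d2 (ω := ω) (e' ▸ union_comm _ _ ▸ e.2)
    exact ⟨a, Subtype.ext e'⟩
  · obtain ⟨ω, e'⟩ := al C (fun _ => rfl) e he
    obtain ⟨a, rfl⟩ := cl_of p sq (d1 (Module.Basis.linearIndependent _)) (ω := ω) (e' ▸ e.2)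
    exact ⟨a, Subtype.ext e'⟩

section two

variable {L K₁ K₂ E : Type} [Field L] [Field K₁] [Field K₂] [Field E] [Algebra ℂ L] [Algebra ℂ K₁]
  [Algebra ℂ K₂] [Algebra ℂ E] [Algebra L K₁] [Algebra L K₂] [Algebra L E] [Algebra K₁ E]
  [Algebra K₂ E] [IsScalarTower ℂ L K₁] [IsScalarTower ℂ L K₂] [IsScalarTower ℂ L E]
  [IsScalarTower ℂ K₁ E] [IsScalarTower ℂ K₂ E] [IsScalarTower L K₁ E] [IsScalarTower L K₂ E]
  {ι₁ ι₂ σ₁ σ₂ κ τ : Type} [Fintype ι₁] [Fintype ι₂] [Fintype σ₁] [Fintype σ₂] [Fintype κ]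
  [Fintype τ] {r₁ r₂ k : ℕ}

variable (L K₁ K₂ E) in
/-- `E` is the function field of the fibre product -/
structure Pd (r₁ r₂ k : ℕ) : Prop where
  be : Gf.BE L K₁ K₂ E
  fL : FF L k
  fa : FF K₁ (r₁ + k)
  fb : FF K₂ (r₂ + k)
  ca : Cl K₁ E
  cb : Cl K₂ E

theorem be_swap (h : Gf.BE L K₁ K₂ E) : Gf.BE L K₂ K₁ E :=
  ⟨union_comm _ _ ▸ h.gen, fun _ _ hv => Fm.dis_swap h hv⟩

variable (E) in
/-- the frame of the fibre product -/
def f3 (y₁ : ι₁ → K₁) (y₂ : ι₂ → K₂) (z : κ → L) : (ι₁ ⊕ κ) ⊕ ι₂ → E :=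
  Sum.elim (algebraMap K₁ E ∘ f1 y₁ z) (algebraMap K₂ E ∘ y₂)

/-- exchange of the outer summands -/
def sw (α β γ : Type) : (α ⊕ β) ⊕ γ ≃ (γ ⊕ β) ⊕ α where
  toFun := Sum.elim (Sum.elim .inr fun b => .inl (.inr b)) fun c => .inl (.inl c)
  invFun := Sum.elim (Sum.elim .inr fun b => .inl (.inr b)) fun c => .inl (.inl c)
  left_inv := by rintro ((_ | _) | _) <;> rfl
  right_inv := by rintro ((_ | _) | _) <;> rfl

theorem tw (K₁ K₂ E : Type) [Field K₁] [Field K₂] [Field E] [Algebra L K₁] [Algebra L K₂]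
    [Algebra L E] [Algebra K₁ E] [Algebra K₂ E] [IsScalarTower L K₁ E] [IsScalarTower L K₂ E]
    (a : L) : algebraMap K₁ E (algebraMap L K₁ a) = algebraMap K₂ E (algebraMap L K₂ a) := by
  rw [← IsScalarTower.algebraMap_apply, ← IsScalarTower.algebraMap_apply]

theorem f3_sw (y₁ : ι₁ → K₁) (y₂ : ι₂ → K₂) (z : κ → L) (i) :
    f3 E y₂ y₁ z (sw _ _ _ i) = f3 E y₁ y₂ z i := by
  rcases i with (i | i) | i
  exacts [rfl, tw K₂ K₁ E _, rfl]

open scoped IntermediateField.algebraAdjoinAdjoin in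
/-- linear disjointness after the adjunction of independent elements -/
theorem dis_tw (h : Gf.BE L K₁ K₂ E) {y : ι₂ → K₂} (hy : AlgebraicIndependent L y) {m : ℕ}
    {v : Fin m → K₂} (hv : LinearIndependent (IntermediateField.adjoin L (range y)) v) :
    LinearIndependent (IntermediateField.adjoin K₁ (range (algebraMap K₂ E ∘ y)))
      fun i => algebraMap K₂ E (v i) := by
  classical
  let z : ι₂ → IntermediateField.adjoin L (range y) := fun i =>
    ⟨y i, IntermediateField.subset_adjoin _ _ ⟨i, rfl⟩⟩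
  have hz : AlgebraicIndependent L z := AlgebraicIndependent.of_comp (IntermediateField.val _) hy
  have i := Fm.dis_swap h (linearIndependent_smul ((MvPolynomial.basisMonomials ι₂ L).linearIndependent.map'
    (MvPolynomial.aeval z).toLinearMap (LinearMap.ker_eq_bot.2 hz)) hv)
  rw [← LinearIndependent.iff_fractionRing (Algebra.adjoin K₁ (range (algebraMap K₂ E ∘ y))),
    Fintype.linearIndependent_iff]
  intro g hg j
  have mem : ∀ (T : Set ((ι₂ →₀ ℕ) × Fin m)) (j : Fin m), (∀ a, (a, j) ∈ T) → g j • algebraMap K₂ E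
      (v j) ∈ Submodule.span K₁ ((fun p : (ι₂ →₀ ℕ) × Fin m => algebraMap K₂ E
        (((MvPolynomial.aeval z).toLinearMap ∘ MvPolynomial.basisMonomials ι₂ L) p.1 • v p.2)) '' T) := by
    intro T j hT
    obtain ⟨p, hp⟩ := (Algebra.adjoin_range_eq_range_aeval K₁ _).le (g j).2
    change (g j).1 * _ ∈ _
    rw [← show MvPolynomial.aeval _ p = _ from hp]
    clear hp
    induction p using MvPolynomial.induction_on' with
    | monomial a c =>
      rw [MvPolynomial.aeval_monomial, mul_assoc, ← Algebra.smul_def]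
      refine Submodule.smul_mem _ _ (Submodule.subset_span ⟨(a, j), hT a, ?_⟩)
      simp [MvPolynomial.aeval_monomial, Finsupp.prod, Algebra.smul_def, z]
    | add p q hp hq => rw [map_add, add_mul]; exact add_mem hp hq
  rw [← Finset.add_sum_erase _ _ (Finset.mem_univ j), add_eq_zero_iff_eq_neg] at hg
  have := Submodule.disjoint_def.1 (i.disjoint_span_image (s := {p | p.2 = j}) (t := {p | p.2 ≠ j})
    (disjoint_left.2 fun _ a b => b a)) _ (mem _ j fun _ => rfl) (hg ▸ neg_mem (sum_mem fun i hi =>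
      mem _ i fun _ => Finset.ne_of_mem_erase hi))
  exact Subtype.ext ((mul_eq_zero.1 this).resolve_right ((map_ne_zero _).2 (hv.ne_zero j)))

namespace Pd

variable (h : Pd L K₁ K₂ E r₁ r₂ k)
include h

theorem swap : Pd L K₂ K₁ E r₂ r₁ k := ⟨be_swap h.be, h.fL, h.fb, h.fa, h.cb, h.ca⟩

theorem ind {y₁ : ι₁ → K₁} {y₂ : ι₂ → K₂} {z : κ → L} (a : AlgebraicIndependent L y₁)
    (b : AlgebraicIndependent L y₂) (c : AlgebraicIndependent ℂ z) :
    AlgebraicIndependent ℂ (f3 E y₁ y₂ z) := by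
  have := ((ind1 a c).sumElim_comp (h.swap.be.algInd b)).comp _ (Equiv.sumComm _ _).injective
  exact (congrArg (fun w => AlgebraicIndependent ℂ w) (funext (by rintro (i | i) <;> rfl))).mp this

theorem ff : FF E (r₁ + r₂ + k) := by
  classical
  obtain ⟨z, hz, -⟩ := id h.fL
  obtain ⟨y₁, a⟩ := exists_y h.fL h.fa
  obtain ⟨y₂, b⟩ := exists_y h.fL h.fb
  have := h.fa.ess
  have := h.fb.ess
  obtain ⟨s₁, g₁⟩ := (IntermediateField.fg_top_iff (F := ℂ) (E := K₁)).2 inferInstance
  obtain ⟨s₂, g₂⟩ := (IntermediateField.fg_top_iff (F := ℂ) (E := K₂)).2 inferInstance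
  have top : ∀ S : IntermediateField ℂ E, (∀ x, algebraMap K₁ E x ∈ S) →
      (∀ x, algebraMap K₂ E x ∈ S) → ∀ x, x ∈ S := fun S u v x =>
    (Subfield.closure_le (t := S.toSubfield)).2
      (union_subset (range_subset_iff.2 u) (range_subset_iff.2 v)) (h.be.gen ▸ Subfield.mem_top x)
  have g : ∀ (K : Type) [Field K] [Algebra ℂ K] [Algebra K E] [IsScalarTower ℂ K E] (s : Finset K)
      (S : IntermediateField ℂ E), IntermediateField.adjoin ℂ (s : Set K) = ⊤ →
      (∀ x ∈ s, algebraMap K E x ∈ S) → ∀ x, algebraMap K E x ∈ S := fun K _ _ _ _ s S u v x =>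
    (IntermediateField.adjoin_le_iff (T := S.comap (IsScalarTower.toAlgHom ℂ K E))).2 v
      (u ▸ IntermediateField.mem_top)
  have : Algebra.EssFiniteType ℂ E := IntermediateField.fg_top_iff.1
    ⟨s₁.image (algebraMap K₁ E) ∪ s₂.image (algebraMap K₂ E), eq_top_iff.2 fun x _ => top _
      (g K₁ s₁ _ g₁ fun x hx => IntermediateField.subset_adjoin _ _ (Finset.mem_coe.2
        (Finset.mem_union_left _ (Finset.mem_image_of_mem _ hx))))
      (g K₂ s₂ _ g₂ fun x hx => IntermediateField.subset_adjoin _ _ (Finset.mem_coe.2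
        (Finset.mem_union_right _ (Finset.mem_image_of_mem _ hx)))) x⟩
  have al : Algebra.IsAlgebraic (Algebra.adjoin ℂ (range (f3 E y₁ y₂ z))) E := ⟨fun x =>
    Gm.mem_Cl.1 (top (Gm.Cl (range (f3 E y₁ y₂ z))) (fun x => Gm.cl_map (fun c => ⟨c, (lin K₁ E c).symm⟩)
      (forall_mem_range.2 fun i => Gm.sub_Cl ⟨.inl i, rfl⟩)
      (Gm.cl_basis h.fa (ind1 a hz) (by simp) x))
      (fun x => Gm.cl_map (fun c => ⟨c, (lin K₂ E c).symm⟩)
        (forall_mem_range.2 fun i => Gm.sub_Cl ⟨_, (f3_sw y₂ y₁ z (.inl i))⟩)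
        (Gm.cl_basis h.fb (ind1 b hz) (by simp) x)) x)⟩
  refine Gm.ff_of_ess ?_
  rw [← ((h.ind a b hz).isTranscendenceBasis_iff_isAlgebraic.2 al).cardinalMk_eq_trdeg]
  simp [add_right_comm]

variable {y₁ : ι₁ → K₁} {y₂ : ι₂ → K₂} {z : κ → L} (c₁ : Fintype.card ι₁ = r₁)
  (c₂ : Fintype.card ι₂ = r₂) (c : Fintype.card κ = k)

include c₁ c₂ c

theorem card : Fintype.card ((ι₁ ⊕ κ) ⊕ ι₂) = r₁ + r₂ + k := by
  simp only [Fintype.card_sum, c₁, c₂, c]; omega

theorem kq_sw : kq (f3 E y₂ y₁ z) = kq (f3 E y₁ y₂ z) :=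
  kq_congr h.ff (h.card c₁ c₂ c) (sw _ _ _) (f3_sw y₁ y₂ z)

/-- the defect of the frame: it does not depend on the frame -/
theorem chg {x₁ : σ₁ → K₁} {x₂ : σ₂ → K₂} {t : τ → L} (d₁ : Fintype.card σ₁ = r₁)
    (d₂ : Fintype.card σ₂ = r₂) (d : Fintype.card τ = k) (a₁ : AlgebraicIndependent L y₁)
    (a₂ : AlgebraicIndependent L y₂) (a : AlgebraicIndependent ℂ z) (b₁ : AlgebraicIndependent L x₁)
    (b₂ : AlgebraicIndependent L x₂) (b : AlgebraicIndependent ℂ t) :
    kq (f3 E y₁ y₂ z) - pb (algebraMap K₁ E) (kq (f1 y₁ z) + 1) -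
      pb (algebraMap K₂ E) (kq (f1 y₂ z) + 1) + pb (algebraMap L E) (kq z + 1) =
    kq (f3 E x₁ x₂ t) - pb (algebraMap K₁ E) (kq (f1 x₁ t) + 1) -
      pb (algebraMap K₂ E) (kq (f1 x₂ t) + 1) + pb (algebraMap L E) (kq t + 1) := by
  have e1 : kq (f3 E y₁ y₂ z) = kq (f3 E x₁ y₂ t) + _ :=
    kq_chg h.fa h.ff (lin K₁ E) (by simp [c₁, c]) (by simp [d₁, d]) (by omega) (ind1 a₁ a)
      (ind1 b₁ b) (h.ind b₁ a₂ b)
  have e2 : kq (f3 E y₂ x₁ t) = kq (f3 E x₂ x₁ t) + _ :=
    kq_chg h.fb h.ff (lin K₂ E) (by simp [c₂, d]) (by simp [d₂, d]) (by omega) (ind1 a₂ b)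
      (ind1 b₂ b) (h.swap.ind b₂ b₁ b)
  have e3 := kq_chg h.fL h.fb (lin L K₂) c d (by omega) (s := y₂) a b
    ((congrArg (fun w => AlgebraicIndependent ℂ w) (funext (by rintro (i | i) <;> rfl))).mp
      ((ind1 a₂ b).comp _ (Equiv.sumComm _ _).injective))
  rw [kq_congr h.fb (by simp [c₂, c]) (Equiv.sumComm _ _) (y := f1 y₂ z)
    (by rintro (i | i) <;> rfl), kq_congr h.fb (by simp [c₂, d]) (Equiv.sumComm _ _) (y := f1 y₂ t)
    (by rintro (i | i) <;> rfl)] at e3
  rw [h.kq_sw d₁ c₂ d, h.kq_sw d₁ d₂ d] at e2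
  rw [e1, e2, e3, IsScalarTower.algebraMap_eq L K₂ E, (okL h.ff).pb_comp, (okL h.ff).pb_comp]
  simp only [pb_add, pb_sub]
  abel

theorem sum3 (w : Pl E) : ∑ i, (w.ord (f3 E y₁ y₂ z i) : ℝ) =
    ∑ i, (w.ord (algebraMap K₁ E (f1 y₁ z i)) : ℝ) + ∑ i, (w.ord (algebraMap K₂ E (f1 y₂ z i)) : ℝ) -
      ∑ i, (w.ord (algebraMap L E (z i)) : ℝ) := by
  simp only [Fintype.sum_sum_type, f3, f1, Sum.elim_inl, Sum.elim_inr, Function.comp_apply,
    ← IsScalarTower.algebraMap_apply]
  ring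

/-- **the inequality for the log discrepancies on the product** -/
theorem ge (a₁ : AlgebraicIndependent L y₁) (a₂ : AlgebraicIndependent L y₂)
    (a : AlgebraicIndependent ℂ z) (w : Pl E) :
    pb (algebraMap K₁ E) (kq (f1 y₁ z) + 1) w + pb (algebraMap K₂ E) (kq (f1 y₂ z) + 1) w -
      pb (algebraMap L E) (kq z + 1) w ≤ kq (f3 E y₁ y₂ z) w + 1 := by
  have key : ∀ {σ₁ σ₂ τ : Type} [Fintype σ₁] [Fintype σ₂] [Fintype τ] {x₁ : σ₁ → K₁}
      {x₂ : σ₂ → K₂} {t : τ → L}, Fintype.card σ₁ = r₁ → Fintype.card σ₂ = r₂ →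
      Fintype.card τ = k → AlgebraicIndependent L x₁ → AlgebraicIndependent L x₂ →
      AlgebraicIndependent ℂ t →
      (Trv (algebraMap K₁ E) w ∨ ∃ v, Lies (algebraMap K₁ E) w v ∧ Ap v (f1 x₁ t)) →
      (Trv (algebraMap K₂ E) w ∨ ∃ v, Lies (algebraMap K₂ E) w v ∧ Ap v (f1 x₂ t)) →
      (Trv (algebraMap L E) w ∨ ∃ v, Lies (algebraMap L E) w v ∧ Ap v t) →
      pb (algebraMap K₁ E) (kq (f1 y₁ z) + 1) w + pb (algebraMap K₂ E) (kq (f1 y₂ z) + 1) w -
        pb (algebraMap L E) (kq z + 1) w ≤ kq (f3 E y₁ y₂ z) w + 1 := by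
    intro σ₁ σ₂ τ _ _ _ x₁ x₂ t d₁ d₂ d b₁ b₂ b p₁ p₂ p
    have e := congrFun (h.chg c₁ c₂ c d₁ d₂ d a₁ a₂ a b₁ b₂ b) w
    have s := sum_le_kq h.ff (h.card d₁ d₂ d) (h.ind b₁ b₂ b) w
    rw [h.sum3 d₁ d₂ d, ← pb_ap p₁, ← pb_ap p₂, ← pb_ap p] at s
    simp only [Pi.add_apply, Pi.sub_apply] at e
    linarith
  rcases okL (L := L) h.ff w with t | ⟨u, l⟩
  · have one : ∀ {K : Type} [Field K] [Algebra ℂ K] [Algebra L K] [Algebra K E]
        [IsScalarTower ℂ L K] [IsScalarTower ℂ K E] [IsScalarTower L K E] {r : ℕ}, FF K (r + k) →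
        ∃ (σ : Type) (_ : Fintype σ) (x : σ → K), Fintype.card σ = r ∧ AlgebraicIndependent L x ∧
          (Trv (algebraMap K E) w ∨ ∃ v, Lies (algebraMap K E) w v ∧ Ap v (f1 x z)) := by
      intro K _ _ _ _ _ _ _ r hK
      rcases okL (L := K) h.ff w with s | ⟨v, l⟩
      · obtain ⟨x, hx⟩ := exists_y h.fL hK
        exact ⟨_, _, x, Fintype.card_fin r, hx, .inl s⟩
      · obtain ⟨σ, _, x, p, q, s⟩ := ad_hr h.fL hK a c (v := v) fun f => (l _).2
          (IsScalarTower.algebraMap_apply L K E f ▸ t f)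
        exact ⟨σ, _, x, p, q, .inr ⟨v, l, s⟩⟩
    obtain ⟨σ₁, _, x₁, d₁, b₁, p₁⟩ := one h.fa
    obtain ⟨σ₂, _, x₂, d₂, b₂, p₂⟩ := one h.fb
    exact key d₁ d₂ c b₁ b₂ a p₁ p₂ (.inl t)
  · obtain _ | k := k
    · exact (no_pl h.fL u).elim
    obtain ⟨x, hx⟩ := exists_az h.fL u
    have one : ∀ {K : Type} [Field K] [Algebra ℂ K] [Algebra L K] [Algebra K E]
        [IsScalarTower ℂ L K] [IsScalarTower ℂ K E] [IsScalarTower L K E] {r : ℕ},
        FF K (r + (k + 1)) → ∃ y : Fin r → K, AlgebraicIndependent L y ∧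
          ∃ v, Lies (algebraMap K E) w v ∧ Ap v (f1 y (zz u x)) := by
      intro K _ _ _ _ _ _ _ r hK
      rw [IsScalarTower.algebraMap_eq L K E] at l
      obtain ⟨v, l'⟩ := (okL (L := K) h.ff w).resolve_left fun s => l.not_trv (s.comp _)
      obtain ⟨y, -, p, q⟩ := ad_vt h.fL hK hx (by simp) (l'.of_comp l)
      exact ⟨y, p, v, l', q⟩
    obtain ⟨x₁, b₁, p₁⟩ := one h.fa
    obtain ⟨x₂, b₂, p₂⟩ := one h.fb
    exact key (by simp) (by simp) (by simp) b₁ b₂ hx.indep (.inr p₁) (.inr p₂)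
      (.inr ⟨u, l, hx.ap h.fL (by simp)⟩)

/-- **the place of the product over two places of the factors** -/
theorem eq (a₁ : AlgebraicIndependent L y₁) (a₂ : AlgebraicIndependent L y₂)
    (a : AlgebraicIndependent ℂ z) {u : Pl L} {v₁ : Pl K₁} {v₂ : Pl K₂}
    (l₁ : Lies (algebraMap L K₁) v₁ u) (l₂ : Lies (algebraMap L K₂) v₂ u) :
    ∃ w, Lies (algebraMap K₁ E) w v₁ ∧ Lies (algebraMap K₂ E) w v₂ ∧ kq (f3 E y₁ y₂ z) w + 1 =
      pb (algebraMap K₁ E) (kq (f1 y₁ z) + 1) w + pb (algebraMap K₂ E) (kq (f1 y₂ z) + 1) w -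
        pb (algebraMap L E) (kq z + 1) w := by
  obtain _ | k := k
  · exact (no_pl h.fL u).elim
  obtain ⟨x, hx⟩ := exists_az h.fL u
  obtain ⟨x₁, s₁, b₁, p₁⟩ := ad_vt h.fL h.fa hx (by simp) l₁
  obtain ⟨x₂, s₂, b₂, p₂⟩ := ad_vt h.fL h.fb hx (by simp) l₂
  let F := IntermediateField.adjoin L (range x₂)
  let M := IntermediateField.adjoin K₁ (range (algebraMap K₂ E ∘ x₂))
  let t : Fin r₂ → F := fun i => ⟨x₂ i, IntermediateField.subset_adjoin _ _ ⟨i, rfl⟩⟩
  let s : Fin r₂ → M := fun i => ⟨_, IntermediateField.subset_adjoin _ _ ⟨i, rfl⟩⟩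
  have b₃ : AlgebraicIndependent K₁ (algebraMap K₂ E ∘ x₂) := h.swap.be.algInd b₂
  have fi : ∀ (L K : Type) [Field L] [Field K] [Algebra ℂ L] [Algebra ℂ K] [Algebra L K]
      [IsScalarTower ℂ L K] (k : ℕ) (x : Fin r₂ → K), FF L k → FF K (r₂ + k) →
      AlgebraicIndependent L x → FiniteDimensional (IntermediateField.adjoin L (range x)) K := by
    intro L K _ _ _ _ _ _ k x hL hK hx
    have := (hx.isTranscendenceBasis_of_trdeg_le_of_finite (by simp [trdegL hL hK])).isAlgebraic_field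
    have := hK.ess
    have : IsScalarTower ℂ (IntermediateField.adjoin L (range x)) K :=
      .of_algebraMap_eq fun _ => rfl
    have := Algebra.EssFiniteType.of_comp ℂ (IntermediateField.adjoin L (range x)) K
    exact Algebra.finite_of_essFiniteType_of_isAlgebraic
  have gen : ∀ (L K : Type) [Field L] [Field K] [Algebra L K] (x : Fin r₂ → K),
      IntermediateField.adjoin L (range fun i => (⟨x i, IntermediateField.subset_adjoin _ _ ⟨i, rfl⟩⟩ :
        IntermediateField.adjoin L (range x))) = ⊤ := fun L K _ _ _ x =>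
    IntermediateField.lift_injective _ (by
      rw [IntermediateField.lift_adjoin, IntermediateField.lift_top, ← range_comp]; rfl)
  have := fi L K₂ _ x₂ h.fL h.fb b₂
  have := fi K₁ E _ _ h.fa (by convert h.ff using 1; omega) b₃
  have : IsScalarTower ℂ M E := .of_algebraMap_eq fun _ => rfl
  obtain ⟨R, lR, -, ym, gi, -⟩ := exists_gauss (K' := M) (y := s)
    (AlgebraicIndependent.of_comp M.val b₃) (gen K₁ E _) v₁
  let ρ : F →+* M := ((algebraMap K₂ E).comp (algebraMap F K₂)).codRestrict M fun c =>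
    (IntermediateField.adjoin_le_iff (T := (M.restrictScalars L).comap
      (IsScalarTower.toAlgHom L K₂ E))).2 (range_subset_iff.2 fun i => (s i).2) c.2
  have ht : AlgebraicIndependent L t := AlgebraicIndependent.of_comp F.val b₂
  have lF : Lies (ρ.comp (algebraMap L F)) R u := by
    rw [show ρ.comp (algebraMap L F) = (algebraMap K₁ M).comp (algebraMap L K₁) from
      RingHom.ext fun a => Subtype.ext (tw K₂ K₁ E a)]
    exact lR.comp l₁
  obtain ⟨w, lw, w₂⟩ := cmp_fin ρ (okL h.ff) (fun _ => rfl) (fun _ _ hv => dis_tw h.be b₂ hv) R v₂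
    fun c hc => (gau_iff ht (gen L K₂ x₂) (algebraMap F K₂) l₂ (fun i => s₂.mem (.inl i))
      (fun p hp => by
        let _ := l₂.κ.toAlgebra
        have : IsScalarTower ℂ u.κ v₂.κ := .of_algebraMap_eq fun c => by
          rw [← rd_const, ← rd_const, ← lin L K₂]
          exact (l₂.isRd _ (u.con c)).symm
        refine algebraicIndependent_iff.1 (indL (r := r₂) (Gm.ff_κ u h.fL) (Gm.ff_κ v₂ h.fb)
          (Fintype.card_fin _) (Fintype.card_fin _) (z := fun i => u.rd (x i)) ?_) p hp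
        exact (congrArg (fun w => AlgebraicIndependent ℂ w) (funext (by
          rintro (i | i); exacts [rfl, (l₂.isRd _ (hx.mem i)).symm]))).mp s₂.ind) c).2
      ((gau_iff ht (gen L K₂ x₂) ρ lF ym (fun p hp => MvPolynomial.map_injective l₁.κ
        l₁.κ.injective ((gi _ (by
          rw [MvPolynomial.eval₂_map, ← hp]
          congr 1
          ext a
          obtain ⟨f, hf, rfl⟩ := rd_surj a
          rw [RingHom.comp_apply, l₁.isRd _ hf, lR.isRd _ ((l₁ f).1 hf), lF.isRd _ hf]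
          exact congrArg _ (Subtype.ext (tw K₁ K₂ E f)))).trans (map_zero _).symm)) c).1 hc)
  have w₁ : Lies (algebraMap K₁ E) w v₁ := lw.comp lR
  have lu : Lies (algebraMap L E) w u := IsScalarTower.algebraMap_eq L K₁ E ▸ w₁.comp l₁
  have aR : Az R (Sum.elim (algebraMap K₁ M ∘ f1 x₁ x) s) := by
    let _ := lR.κ.toAlgebra
    have : IsScalarTower ℂ v₁.κ R.κ := .of_algebraMap_eq fun c => by
      rw [← rd_const, ← rd_const, ← lin K₁ M]
      exact (lR.isRd _ (v₁.con c)).symm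
    refine ⟨by rintro (i | i); exacts [(lR _).1 (s₁.mem i), ym i], ?_⟩
    exact (congrArg (fun w => AlgebraicIndependent ℂ w) (funext (by
      rintro (i | i); exacts [lR.isRd _ (s₁.mem i), rfl]))).mp
      ((s₁.ind.sumElim_comp (algebraicIndependent_iff.2 gi)).comp _ (Equiv.sumComm _ _).injective)
  have aw := aR.up lw
  let e := (oL (Fin r₁ ⊕ Fin k) (Fin r₂)).trans ((oR _ _).sumCongr (.refl _))
  have q : ∀ i, f3 E x₁ x₂ (zz u x) (e (some i)) =
      (algebraMap M E ∘ Sum.elim (algebraMap K₁ M ∘ f1 x₁ x) s) i := by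
    rintro ((i | i) | i) <;> rfl
  have ap : Ap w (f3 E x₁ x₂ (zz u x)) := ap_of h.ff (h.card (by simp) (by simp) (by simp)) e
    ((w₁.comp l₁).e_pos) (fun i => q i ▸ aw.mem i) (by simpa only [q] using aw.ind)
  have e := congrFun (h.chg c₁ c₂ c (by simp) (by simp) (by simp) a₁ a₂ a b₁ b₂ hx.indep) w
  rw [Ap, h.sum3 (by simp) (by simp) (by simp), ← pb_ap (.inr ⟨_, w₁, p₁⟩),
    ← pb_ap (.inr ⟨_, w₂, p₂⟩), ← pb_ap (.inr ⟨_, lu, hx.ap h.fL (by simp)⟩)] at ap
  simp only [Pi.add_apply, Pi.sub_apply] at e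
  exact ⟨w, w₁, w₂, by linarith⟩

end Pd

end two

end Vale.Agent.P283B.Wp
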