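import Vale.Agent.P283B.EB.Cs
import Vale.Agent.P283B.EB.Cut1
import Vale.Agent.P283B.EB.WpA
import Vale.Agent.P283B.U.Lg

/-!
# P283B, block EB: the blow up of the generic fibre (leaf PBU)
-/

set_option linter.unusedVariables false

open Set Function
open Vale.Agent.P297Z
open Vale.Agent.P285N.Brep (jac Fr)

noncomputable section

namespace Vale.Agent.P283B.Eb

open P287D P287D.Cb

variable {n : ℕ} {K K' : Type} [Field K] [Algebra ℂ K] [Field K'] [Algebra ℂ K'] {φ : K →+* K'}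
  {j : K →+* ℂ}

/-- a place at which `y` specialises to the generic point and `v` stays independent is
horizontal -/
theorem trv_of (ok : Ok φ) (hK : FF K (n + 1)) (hc : Hc φ j) {ι ι' : Type} [Fintype ι]
    [Fintype ι'] (e : Fintype.card ι + Fintype.card ι' = n + 1) {v : ι → K} {y : ι' → K}
    (hy : AlgebraicIndependent ℂ y) {x : Pl K'} (hv : ∀ i, φ (v i) ∈ x.ring)
    (iv : AlgebraicIndependent ℂ fun i => x.rd (φ (v i))) (my : ∀ i, Mx x (tt φ j (y i))) :
    Trv φ x := by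
  refine (ok x).resolve_right fun ⟨Q, l⟩ => ?_
  have m : ∀ i, φ (y i) ∈ x.ring := fun i => by
    simpa [tt] using add_mem (my i).mem (x.con (j (y i)))
  let σ := j.comp (algebraMap ℂ K)
  have h1 : AlgebraicIndependent σ.fieldRange (j ∘ y) :=
    hy.ringHom_of_comp_eq σ.rangeRestrictField j σ.rangeRestrict_surjective j.injective rfl
  have h2 := (h1.map' (f := IsScalarTower.toAlgHom σ.fieldRange ℂ x.κ)
    (algebraMap ℂ x.κ).injective).sumElim_of_tower (S := ℂ)
      (by rintro _ ⟨i, rfl⟩; exact ⟨_, rfl⟩) iv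
  have h3 : AlgebraicIndependent ℂ (Sum.elim (fun i => Q.rd (v i)) fun i => Q.rd (y i)) := by
    refine .of_ringHom_of_comp_eq σ.rangeRestrictField l.κ ?_ (RingHom.injective _)
      (RingHom.ext fun c => ?_)
    · convert h2 using 1
      funext i
      rcases i with i | i
      · exact l.isRd _ ((l _).2 (hv i))
      · refine (l.isRd _ ((l _).2 (m i))).trans (sub_eq_zero.1 ?_)
        have := (rd_eq_zero (my i).mem).2 (my i)
        rwa [tt, rd_sub (m i) (x.con _), rd_const] at this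
    · have := l.isRd _ (Q.con c)
      rw [rd_const, hc, rd_const] at this
      exact this.symm
  have := h3.cardinalMk_le_trdeg
  rw [Gm.trdeg_κ Q hK, Cardinal.mk_fintype, Fintype.card_sum, e, Nat.cast_le] at this
  omega

theorem pbu : PBU := fun K K' _ _ _ _ φ n k Γ Γ' j y h hc hy => by
  have kn := hy.cardinalMk_le_trdeg
  rw [h.ff.trdeg, Cardinal.mk_fin, Nat.cast_le, Nat.add_le_add_iff_right] at kn
  obtain ⟨m, rfl⟩ := Nat.exists_eq_add_of_le kn
  obtain ⟨v, hv⟩ := Cb.ext_ind hy m (by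
    rw [h.ff.trdeg, Fintype.card_fin, Nat.cast_le]; omega)
  obtain ⟨g, g0, g1, g2, gi⟩ : ∃ g : Fin (k + m + 1) → Fin m ⊕ Fin (k + 1), g 0 = .inr 0 ∧
      (∀ i, g (Fin.castAdd m i).succ = .inr i.succ) ∧ (∀ i, g (Fin.natAdd k i).succ = .inl i) ∧
      Injective g := by
    refine ⟨Fin.cons (.inr 0) (Fin.append (fun i => .inr i.succ) .inl), rfl, by simp, by simp,
      Fin.cons_injective_iff.2 ⟨?_, Fin.append_injective_iff.2 ⟨fun a b e => by simpa using e,
        Sum.inl_injective, by simp⟩⟩⟩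
    rintro ⟨a, ha⟩
    induction a using Fin.addCases <;> simp at ha
  have hY := hv.comp g gi
  obtain ⟨T, hT⟩ : ∃ T : Fin (k + m + 1) → K',
    T = Sum.elim (fun i => φ (v i)) (fun i => tt φ j (y i)) ∘ g := ⟨_, rfl⟩
  obtain ⟨w, hw⟩ : ∃ w : Fin (k + m + 1) → ℕ, w = Sum.elim (fun _ => 0) (fun _ => 1) ∘ g :=
    ⟨_, rfl⟩
  have hφ := ext_ind h.ext hY
  obtain ⟨E, hE⟩ := fr_of h.ff' hφ
  have jT : jac E T = 1 := by
    rw [jac, ← Matrix.det_one (n := Fin (k + m + 1))]
    refine congrArg _ (Matrix.ext fun a b => ?_)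
    rw [Matrix.one_apply, ← hE.dual a b, hT]
    rcases e : g b with i | i <;> simp [e, tt]
  have j0 : jac E T ≠ 0 := jT ▸ one_ne_zero
  have iT := (jac_ne_iff hE T).1 j0
  have w0 : w 0 = 1 := by simp [hw, g0]
  have T0 : T 0 = tt φ j (y 0) := by simp [hT, g0]
  obtain ⟨iZ, kZ⟩ := U.mon_kap h.ff' iT (k := 0) (w := w) (by omega)
  obtain ⟨u, hu⟩ : ∃ u : Fin (k + m) → K', u = fun a => T a.succ / T 0 ^ w a.succ := ⟨_, rfl⟩
  have eZ : U.mon T 0 w = Fin.cons (T 0) u := funext fun a => by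
    induction a using Fin.cases <;> simp [U.mon, hu, w0]
  rw [eZ] at iZ kZ
  obtain ⟨x, x0, A⟩ := Gm.exists_pl h.ff' iZ
  have u1 : ∀ i, u (Fin.castAdd m i) = tt φ j (y i.succ) / tt φ j (y 0) := fun i => by
    simp [hu, hT, hw, g0, g1]
  have u2 : ∀ i, u (Fin.natAdd k i) = φ (v i) := fun i => by simp [hu, hT, hw, g2]
  have t0 := iT.ne_zero 0
  have uo : ∀ a, x.ord (u a) = 0 := fun a => by
    have u0 : u a ≠ 0 := iZ.ne_zero a.succ
    have a1 := (Pl.ord_nonneg_iff _ u0).2 (A.mem a)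
    have a2 : ¬ Mx x (u a) := fun z => A.ind.ne_zero a ((rd_eq_zero (A.mem a)).2 z)
    rw [mx_iff, not_or] at a2
    omega
  have To : ∀ a, x.ord (T a) = w a * x.ord (T 0) := fun a => by
    induction a using Fin.cases with
    | zero => simp [w0]
    | succ a =>
      have := uo a
      rw [hu, Pl.ord_div _ (iT.ne_zero _) (pow_ne_zero _ t0), Pl.ord_pow] at this
      omega
  have iv : AlgebraicIndependent ℂ fun i => x.rd (φ (v i)) := by
    simpa only [comp_def, u2] using A.ind.comp _ (Fin.natAdd_injective m k)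
  have tr : Trv φ x := trv_of h.ok h.ff hc (by simp; omega) hy (fun i => u2 i ▸ A.mem _) iv
    fun i => by
      induction i using Fin.cases with
      | zero => exact mx_iff.2 (.inr (T0 ▸ x0))
      | succ i =>
        have := (mx_iff.2 (.inr x0)).mul (A.mem (Fin.castAdd m i))
        rwa [u1, T0, div_mul_cancel₀ _ (T0 ▸ t0)] at this
  refine ⟨x, ⟨tr, T0 ▸ x0, fun i => u1 i ▸ A.mem _, ?_⟩, ?_, fun kl => ⟨v ⟨0, by omega⟩, ?_⟩⟩
  · simpa only [comp_def, u1] using A.ind.comp _ (Fin.castAdd_injective k m)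
  · obtain ⟨f, t, rfl⟩ := h.eq
    obtain ⟨z, D, hD, e₀⟩ := exists_cn h.ff
    have e1 := congrFun (tr_gen h.ext h.ff h.ff' t hY
      (e₀ ▸ kap_chg hD ((jac_ne_iff hD _).2 hY))) x
    have e2 := congrFun (kap_chg hE j0) x
    have e4 := Wp.kap_ada h.ff' x0 A.mem A.ind
    have e5 : ∑ a, (w a : ℝ) = k + 1 := by
      simp [Fin.sum_univ_succ, Fin.sum_univ_add, hw, g0, g1, g2, add_comm]
    have e6 : ∑ a, (x.ord (T a) : ℝ) = (k + 1) * x.ord (T 0) := by
      rw [← e5, Finset.sum_mul]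
      exact Finset.sum_congr rfl fun a _ => by rw [To a]; simp
    rw [Fin.sum_univ_succ] at kZ
    have e3 := congrFun kZ x
    simp only [Pi.sub_apply, Pi.add_apply, Finset.sum_apply, dv, e6, Fin.cons_zero, Fin.cons_succ,
      uo] at e3
    simp only [dsc, Pi.add_apply, Pi.sub_apply, tr.pb, dv, tr.ord, jT, ← T0] at e1 e2 ⊢
    simp at e1 e2 e3
    linarith
  · rintro ⟨c, hc⟩
    exact iv.transcendental ⟨0, by omega⟩ (hc ▸ isAlgebraic_algebraMap c)

end Vale.Agent.P283B.Eb
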