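import Vale.Agent.P283B.EB.Cut1
import Vale.Agent.P283B.EB.Cs
import Vale.Agent.P287D.Ku.Ex

/-!
# P283B, block EB: sections which separate two generic places
-/

set_option linter.unusedVariables false

open Set

noncomputable section

namespace Vale.Agent.P283B.Eb

open P287D P287D.Pr P287D.Cb

variable {n : ℕ} {K K' : Type} [Field K] [Algebra ℂ K] [Field K'] [Algebra ℂ K'] {φ : K →+* K'}
  {Λ N Γ β : BD K} {Γ' : BD K'}

/-- sections after an extension of the constants -/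
theorem sec_span (h : Ext ⊥ φ) (hK : FF K (n + 1)) (c : β ∈ Car K) {g : K'}
    (hg : Sec (pb φ β) g) : g ∈ Submodule.span ℂ (φ '' {s | Sec β s}) := by
  have hK' : FF K' (n + 1) := h.ff Gm.ff_bot hK
  have := Ba.mod.fin n K hK β ((Ba.mod.isb n K hK).1 β c)
  obtain ⟨s, hs⟩ := (Module.Finite.iff_fg (N := H0 β)).1 this
  obtain ⟨θ, i, e, b⟩ := h.iso hK hK' (β := fun _ : Unit => β) (fun _ => c) s
  obtain ⟨g, rfl⟩ := i.sur g
  have m : g ∈ Submodule.span ℂ (s : Set K) := hs ▸ mem_H0.2 (i.sec.1 (b () ▸ hg))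
  clear hg
  induction m using Submodule.span_induction with
  | mem x hx =>
    exact Submodule.subset_span ⟨x, mem_H0.1 (hs ▸ Submodule.subset_span hx), (e x hx).symm⟩
  | zero => exact map_zero θ ▸ zero_mem _
  | add x y _ _ u v => exact map_add θ x y ▸ add_mem u v
  | smul c x _ u => exact i.map_smul c x ▸ Submodule.smul_mem _ _ u

/-- **SEPL** -/
theorem sepl : SEPL := by
  intro K K' _ _ _ _ φ n β F P R f h hK c tP tR ag sf nP mR
  by_contra H
  have H : ∀ s₁ s₂, Sec β s₁ → Sec β s₂ → s₁ / s₂ ∈ F := fun s₁ s₂ a b =>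
    by_contra fun k => H ⟨s₁, s₂, a, b, k⟩
  have m := sec_span h hK c sf
  obtain ⟨s₀, s0, z⟩ : ∃ s₀, Sec β s₀ ∧ s₀ ≠ 0 := by_contra fun k => nP (by
    have : Submodule.span ℂ (φ '' {s | Sec β s}) = ⊥ := Submodule.span_eq_bot.2 (by
      rintro _ ⟨s, hs, rfl⟩
      rw [show s = 0 from by_contra fun z => k ⟨s, hs, z⟩, map_zero])
    rw [show f = 0 from (Submodule.mem_bot ℂ).1 (this ▸ m)]
    exact mx_zero)
  have z' := (map_ne_zero φ).2 z
  have key : ∃ d : ℂ, Mx P (f - algebraMap ℂ K' d * φ s₀) ∧ Mx R (f - algebraMap ℂ K' d * φ s₀) := by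
    clear nP mR sf
    induction m using Submodule.span_induction with
    | mem x hx =>
      obtain ⟨s, hs, rfl⟩ := hx
      obtain ⟨d, a, b⟩ := ag _ (H s s₀ hs s0)
      have e : φ s - algebraMap ℂ K' d * φ s₀ = φ s₀ * (φ (s / s₀) - algebraMap ℂ K' d) := by
        rw [map_div₀]
        field_simp
      exact ⟨d, e ▸ a.mul (tP _), e ▸ b.mul (tR _)⟩
    | zero => exact ⟨0, by simpa using mx_zero, by simpa using mx_zero⟩
    | add x y _ _ u v =>
      obtain ⟨d, a, b⟩ := u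
      obtain ⟨d', a', b'⟩ := v
      have e : x + y - algebraMap ℂ K' (d + d') * φ s₀ =
          x - algebraMap ℂ K' d * φ s₀ + (y - algebraMap ℂ K' d' * φ s₀) := by
        rw [map_add]
        ring
      exact ⟨d + d', e ▸ a.add a', e ▸ b.add b'⟩
    | smul t x _ u =>
      obtain ⟨d, a, b⟩ := u
      have e : t • x - algebraMap ℂ K' (t * d) * φ s₀ =
          algebraMap ℂ K' t * (x - algebraMap ℂ K' d * φ s₀) := by
        rw [map_mul, Algebra.smul_def]
        ring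
      exact ⟨t * d, e ▸ a.mul (P.con t), e ▸ b.mul (R.con t)⟩
  obtain ⟨d, a, b⟩ := key
  obtain rfl : d = 0 := by_contra fun d0 => by
    have k := (mR.sub b).mul (mul_mem (R.con d⁻¹) (tR s₀⁻¹))
    have d1 := (map_ne_zero (algebraMap ℂ K')).2 d0
    rw [show _ * _ = (1 : K') by rw [map_inv₀, map_inv₀]; field_simp; ring] at k
    exact not_mx_one k
  exact nP (by simpa using a)

theorem Bl.bz (B : Bl n Λ N Γ) : Bz n N Γ :=
  ⟨B.ff, B.smp, B.big, ⟨_, B.nef⟩, fun P o => B.bdy P (on_mono res' B.ff B.smp B.sl B.dn o)⟩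

/-- a function without poles after rounding is a section -/
theorem Bl.sec (B : Bl n Λ N Γ) (h : Xt n φ Γ Γ') {m : ℕ} {f : K'}
    (hf : ∀ Q, On n (pb φ Λ) Q → f ≠ 0 → -1 < m * pb φ N Q + Q.ord f) :
    Sec (pb φ ((m : ℝ) • N)) f := or_iff_not_imp_left.2 fun f0 => by
  have sΛ := h.ok.smp B.sl
  refine hart res' h.ff' sΛ (h.big B.bl) ((Dsc.dv sΛ f).add (h.ok.dsc (B.dn.smul _)))
    fun Q o => ?_
  obtain ⟨z, hz⟩ := h.zon B.sl B.bl B.int Q o
  have := hf Q o f0
  simp only [pb_smul, Pi.add_apply, Pi.smul_apply, smul_eq_mul, dv_apply, hz] at this ⊢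
  have : ((-1 : ℤ) : ℝ) < ((Q.ord f + m * z : ℤ) : ℝ) := by push_cast; linarith
  exact_mod_cast Int.lt_iff_add_one_le.1 (Int.cast_lt.1 this)

/-- **SEP** -/
theorem sep : SEP := by
  intro K K' _ _ _ _ φ n m Λ N Γ F Γ' Δ a P R B ⟨h, t, tP, tR, lt, ag⟩ o am
  have hK := h.ff'
  have hκ := Bm.ff_κ hK P
  have z := B.bz.up h
  have e0 := h.cst.res_trv res' h.ff hK tP (Gx.hr_apply tP) B.smp.car
  have fb := (fld_eq_bot_iff hκ).2 o
  have hor : ∀ w : Pl P.κ, Hor (fld (res P (pb φ N))) w := fun w u hu => by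
    obtain ⟨c, rfl⟩ := IntermediateField.mem_bot.1 (fb ▸ hu)
    exact w.con c
  have r0 : ∀ w, res P (pb φ N) w = 0 := fun w => by
    refine (congrFun e0 w).trans (Trv.pb (fun u => hor w _ ?_) N)
    rw [e0]
    exact (Pb.hor_ok (Gx.hr_apply tP) h.cst h.ff hK).mem_fld B.smp.eff
      (B.big.fld_eq ▸ IntermediateField.mem_top)
  have cN := Submodule.smul_mem _ (-m : ℝ) z.smp.car
  have q : (0 : ℝ) < m - a - 2 := by linarith
  have e : -(Γ' + Δ + (-m : ℝ) • pb φ N) = ((m : ℝ) - a - 2) • pb φ N +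
      (((2 : ℝ) • pb φ N - Γ') + (a • pb φ N - Δ)) := by module
  have nf := (h.nef B.nef).add t.smp.nef
  have d : ∀ Q, dsc (n + 1) (Γ' + Δ + (-m : ℝ) • pb φ N) Q =
      dsc (n + 1) (Γ' + Δ) Q + m * pb φ N Q := fun Q => by rw [dsc_add_smul]; ring
  obtain ⟨f, f1, f2, f3⟩ := Ku.uext n K' hK P (Γ' + Δ + (-m : ℝ) • pb φ N) 1
    (e ▸ (z.smp.smul q.le).nef.add nf) (e ▸ (z.big.smul q).add_nef nf)
    (by rw [d, t.lc, tP.pb, mul_zero, add_zero]) fun w => .inr (by
      rw [(a4 n K' hK P _ (add_mem z.car t.car) _ cN).1, res_smul hK P _ z.smp.car, dsc_add_smul,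
        r0]
      simpa using t.hor z w (hor w))
  have nP : ¬ Mx P f := fun k => one_ne_zero (f2.symm.trans ((rd_eq_zero f1).2 k))
  refine sepl K K' φ n _ F P R f h.ext h.ff (Submodule.smul_mem _ _ B.smp.car) tP tR ag
    (B.sec h fun Q oQ f0 => ?_) nP (mx_iff.2 ((f3 R fun k => ?_).imp_right fun k => ?_))
  · rcases eq_or_ne Q P with rfl | ne
    · have : (0 : ℝ) ≤ Q.ord f := Int.cast_nonneg_iff.2 (P297Z.Pl.ord_nonneg_of_mem _ f1)
      rw [tP.pb]
      linarith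
    · have := (f3 Q ne).resolve_left f0
      rw [d, dsc_add] at this
      linarith [h.bdy B.sl B.bl B.bdy Q oQ, t.nn Q, show (0 : BD K') Q = 0 from rfl]
  · exact lt.ne (k ▸ t.lc)
  · rw [d, tR.pb] at k
    exact Int.cast_pos.1 (show (0 : ℝ) < _ by linarith)

end Vale.Agent.P283B.Eb
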