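import Vale.Agent.P287D.Ku.St
import Vale.Agent.P287D.Pb.Bas

/-!
# P283B, block EB: subadjunction (statement)
-/

open Set

noncomputable section

namespace Vale.Agent.P283B.Eb

open P287D

/-- the threshold of `Γ` over the place `u` of `L` is at most `t` -/
def Adm {E : Type} [Field E] [Algebra ℂ E] (n : ℕ) (L : IntermediateField ℂ E) (Γ : BD E)
    (u : Pl L) (t : ℝ) : Prop :=
  ∃ w, Lies (inc L) w u ∧ dsc n Γ w + 1 ≤ t * w.ord (inc L u.t)

theorem Adm.mono {E : Type} [Field E] [Algebra ℂ E] {n : ℕ} {L : IntermediateField ℂ E}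
    {Γ : BD E} {u : Pl L} {t t' : ℝ} (h : Adm n L Γ u t) (e : t ≤ t') : Adm n L Γ u t' :=
  let ⟨w, a, b⟩ := h
  ⟨w, a, b.trans (mul_le_mul_of_nonneg_right e (Int.cast_pos.2 a.e_pos).le)⟩

/-- **WPX**: subadjunction, the moduli part is pseudo-effective -/
def WPX : Prop := ∀ (n k : ℕ) (E : Type) [Field E] [Algebra ℂ E] (L : IntermediateField ℂ E)
  (Γ : BD E) (D H θ : BD L) (η : ℝ), FF E n → FF L (k + 1) → Smp H → Big H → Dsc H D →
  Nef (pb (inc L) D - Γ) → Big (pb (inc L) D - Γ) → (∀ w, Hor L w → -1 < dsc n Γ w) →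
  (∀ f, (∀ w, Hor L w → Aj n Γ w f) → f ∈ L) → {u | On k H u ∧ θ u ≠ 0}.Finite →
  (∀ u, On k H u → Adm n L Γ u (1 - θ u)) → 0 < η →
  ∃ G, G - (D + η • H) ∈ Prn L ∧ ∀ u, On k H u → cn L (k + 1) u + θ u ≤ G u

end Vale.Agent.P283B.Eb
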