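import Vale.Agent.P283B.EB.WpA
import Vale.Agent.P283B.EB.Wx
import Vale.Agent.P283B.LC.G0
import Vale.Agent.P287D.Api.Adj
import Vale.Agent.P287D.Ti.Tie

/-!
# P283B, block EB: weak positivity by fibre powers and extension of sections
-/

set_option linter.unusedVariables false
set_option linter.unusedSectionVars false

open Set
open Vale.Agent.P297Z Vale.Agent.P287D Vale.Agent.P287D.Cb

noncomputable section

namespace Vale.Agent.P283B.Wp

section rg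

variable (A B : Type) [Field A] [Field B] [Algebra ℂ A] [Algebra ℂ B] [Algebra A B]
  [IsScalarTower ℂ A B]

/-- the image of the base -/
def rg : IntermediateField ℂ B := (IsScalarTower.toAlgHom ℂ A B).fieldRange

/-- the base and its image -/
def tr : A →+* rg A B := (algebraMap A B).codRestrict _ fun a => ⟨a, rfl⟩

variable {A B}

theorem tr_sur : Function.Surjective (tr A B) := fun ⟨_, a, e⟩ => ⟨a, Subtype.ext e⟩

theorem ff_rg {n : ℕ} (h : FF A n) : FF (rg A B) n := Semi.ff (φ := tr A B)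
  ⟨tr_sur, fun c => ⟨c, Subtype.ext (lin A B c).symm⟩, fun c => ⟨c, Subtype.ext (lin A B c)⟩⟩ h

theorem li_rg {m : ℕ} {v : Fin m → B} : LinearIndependent (rg A B) v ↔ LinearIndependent A v := by
  simp only [Fintype.linearIndependent_iff]
  refine ⟨fun h g e i => (map_eq_zero (tr A B)).1 (h (fun i => tr A B (g i))
    (e ▸ Finset.sum_congr rfl fun i _ => (Algebra.smul_def _ _).symm) i), fun h g e i => ?_⟩
  choose a ha using fun i => tr_sur (g i)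
  rw [← ha i, h a (e ▸ Finset.sum_congr rfl fun i _ => ha i ▸ Algebra.smul_def _ _) i, map_zero]

theorem hor_rg {P : Pl B} : Hor (rg A B) P ↔ Trv (algebraMap A B) P :=
  ⟨fun h a => h _ ⟨a, rfl⟩, fun h _ ⟨a, e⟩ => e ▸ h a⟩

theorem cld_rg (h : Cl A B) : Cld (rg A B) := fun f ⟨p, p0, hp⟩ => by
  obtain ⟨q, rfl⟩ := Polynomial.map_surjective _ tr_sur p
  exact h f ⟨q, fun e => p0 (by rw [e, Polynomial.map_zero]), by
    rwa [Polynomial.aeval_def, Polynomial.eval₂_map] at hp⟩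

end rg

section dt

variable {L K : Type} [Field L] [Field K] [Algebra ℂ L] [Algebra ℂ K] [Algebra L K]
  [IsScalarTower ℂ L K] {n k : ℕ} {Γ : BD K}

variable (L) in
/-- a pair over `L` which is klt and of rank one on the generic fibre -/
structure Dt (n : ℕ) (Γ : BD K) : Prop where
  ff : FF K n
  nef : Nef (-Γ)
  big : Big (-Γ)
  hor : ∀ P, Trv (algebraMap L K) P → -1 < dsc n Γ P
  rk : ∀ f, (∀ P, Trv (algebraMap L K) P → Aj n Γ P f) → f ∈ range (algebraMap L K)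

/-- some place over `u` has small log discrepancy -/
def Adm (n : ℕ) (Γ : BD K) (u : Pl L) (t : ℝ) : Prop :=
  ∃ v, Lies (algebraMap L K) v u ∧ dsc n Γ v + 1 ≤ t * v.ord (algebraMap L K u.t)

/-- all places over `u` have large log discrepancy -/
def Low (n : ℕ) (Γ : BD K) (u : Pl L) (t : ℝ) : Prop :=
  ∀ v, Lies (algebraMap L K) v u → t * v.ord (algebraMap L K u.t) ≤ dsc n Γ v + 1

theorem Dt.car (d : Dt L n Γ) : Γ ∈ Car K := neg_mem_iff.1 d.nef.car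

theorem Dt.cl (d : Dt L n Γ) : Cl L K := fun e he => d.rk e fun P t => .of_klt (d.hor P t) (by
  obtain ⟨p, hp, hpx⟩ := he.isIntegral
  obtain ⟨y, hy⟩ := IsIntegrallyClosed.isIntegral_iff.1 (⟨p.map ((algebraMap L K).codRestrict _ t),
    hp.map _, by rw [Polynomial.eval₂_map]; exact hpx⟩ : IsIntegral P.ring e)
  exact Pl.ord_nonneg_of_mem _ (hy ▸ y.2))

end dt

section two

variable {L K₁ K₂ E : Type} [Field L] [Field K₁] [Field K₂] [Field E] [Algebra ℂ L] [Algebra ℂ K₁]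
  [Algebra ℂ K₂] [Algebra ℂ E] [Algebra L K₁] [Algebra L K₂] [Algebra L E] [Algebra K₁ E]
  [Algebra K₂ E] [IsScalarTower ℂ L K₁] [IsScalarTower ℂ L K₂] [IsScalarTower ℂ L E]
  [IsScalarTower ℂ K₁ E] [IsScalarTower ℂ K₂ E] [IsScalarTower L K₁ E] [IsScalarTower L K₂ E]
  {r₁ r₂ k n₁ n₂ n : ℕ} {Γ₁ : BD K₁} {Γ₂ : BD K₂} {Γ : BD E}

variable (L) in
/-- `Γ` is the product of the pairs `Γ₁`, `Γ₂` -/
structure P3 (k n₁ n₂ n : ℕ) (Γ₁ : BD K₁) (Γ₂ : BD K₂) (Γ : BD E) : Prop where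
  eq : ∃ j, j ≠ 0 ∧ Γ = pb (algebraMap K₁ E) Γ₁ + pb (algebraMap K₂ E) Γ₂ + dv j
  ge : ∀ w, pb (algebraMap K₁ E) (dsc n₁ Γ₁ + 1) w + pb (algebraMap K₂ E) (dsc n₂ Γ₂ + 1) w -
    pb (algebraMap L E) (cn L k + 1) w ≤ dsc n Γ w + 1
  ex : ∀ u v₁ v₂, Lies (algebraMap L K₁) v₁ u → Lies (algebraMap L K₂) v₂ u → ∃ w,
    Lies (algebraMap K₁ E) w v₁ ∧ Lies (algebraMap K₂ E) w v₂ ∧ dsc n Γ w + 1 =
      pb (algebraMap K₁ E) (dsc n₁ Γ₁ + 1) w + pb (algebraMap K₂ E) (dsc n₂ Γ₂ + 1) w -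
        pb (algebraMap L E) (cn L k + 1) w
  tr : ∀ w, Trv (algebraMap K₁ E) w → Trv (algebraMap K₂ E) w → 0 ≤ dsc n Γ w

theorem Pd.p3 (h : Pd L K₁ K₂ E r₁ r₂ k) (Γ₁ : BD K₁) (Γ₂ : BD K₂) :
    ∃ Γ : BD E, P3 L k (r₁ + k) (r₂ + k) (r₁ + r₂ + k) Γ₁ Γ₂ Γ := by
  obtain ⟨z, D, hD, e⟩ := exists_cn h.fL
  have a : AlgebraicIndependent ℂ z := (jac_ne_iff hD z).1 (by simp [P285N.Brep.jac, hD.dual,
    show (Matrix.of fun i j : Fin k => if i = j then (1 : L) else 0) = 1 from rfl])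
  rw [← kq_fin h.fL] at e
  obtain ⟨y₁, a₁⟩ := exists_y h.fL h.fa
  obtain ⟨y₂, a₂⟩ := exists_y h.fL h.fb
  obtain ⟨j₁, n₁, e₁⟩ := kq_cn h.fa (by simp) (ind1 a₁ a)
  obtain ⟨j₂, n₂, e₂⟩ := kq_cn h.fb (by simp) (ind1 a₂ a)
  obtain ⟨j, n, e₃⟩ := kq_cn h.ff (h.card (by simp) (by simp) (by simp)) (h.ind a₁ a₂ a)
  have m₁ := (map_ne_zero (algebraMap K₁ E)).2 n₁
  have m₂ := (map_ne_zero (algebraMap K₂ E)).2 n₂
  have d : dsc (r₁ + r₂ + k) (pb (algebraMap K₁ E) Γ₁ + pb (algebraMap K₂ E) Γ₂ +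
      dv (algebraMap K₁ E j₁ * algebraMap K₂ E j₂ / j)) = kq (f3 E y₁ y₂ z) -
      pb (algebraMap K₁ E) (kq (f1 y₁ z) + 1) - pb (algebraMap K₂ E) (kq (f1 y₂ z) + 1) +
      pb (algebraMap K₁ E) (dsc (r₁ + k) Γ₁ + 1) + pb (algebraMap K₂ E) (dsc (r₂ + k) Γ₂ + 1) := by
    rw [dv_div (mul_ne_zero m₁ m₂) n, dv_mul m₁ m₂, ← (okL h.ff).pb_dv, ← (okL h.ff).pb_dv, e₁, e₂, e₃]
    simp only [dsc, pb_add, pb_sub]
    abel
  refine ⟨_, ⟨_, div_ne_zero (mul_ne_zero m₁ m₂) n, rfl⟩, fun w => ?_, fun u v₁ v₂ l₁ l₂ => ?_,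
    fun w t₁ t₂ => ?_⟩
  · have := h.ge (by simp) (by simp) (by simp) a₁ a₂ a w
    rw [d, e]
    simp only [Pi.add_apply, Pi.sub_apply]
    linarith
  · obtain ⟨w, w₁, w₂, q⟩ := h.eq (by simp) (by simp) (by simp) a₁ a₂ a l₁ l₂
    refine ⟨w, w₁, w₂, ?_⟩
    rw [d, e]
    simp only [Pi.add_apply, Pi.sub_apply]
    linarith
  · rw [d]
    simp only [Pi.add_apply, Pi.sub_apply, t₁.pb, t₂.pb, sub_zero, add_zero]
    exact kq_nonneg h.ff (h.card (by simp) (by simp) (by simp))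
      (by rintro (i | i); exacts [t₁ _, t₂ _])

namespace P3

variable (p : P3 L k n₁ n₂ n Γ₁ Γ₂ Γ)
include p

theorem swap : P3 L k n₂ n₁ n Γ₂ Γ₁ Γ :=
  ⟨let ⟨j, a, b⟩ := p.eq; ⟨j, a, by rw [b, add_comm (pb _ Γ₁)]⟩, fun w => by linarith [p.ge w],
    fun u a b c d => let ⟨w, x, y, z⟩ := p.ex u b a d c; ⟨w, y, x, by linarith⟩,
    fun w a b => p.tr w b a⟩

theorem prn : -Γ - (pb (algebraMap K₁ E) (-Γ₁) + pb (algebraMap K₂ E) (-Γ₂)) ∈ Prn E := by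
  obtain ⟨j, -, rfl⟩ := p.eq
  rw [pb_neg, pb_neg, show ∀ a b c : BD E, -(a + b + c) - (-a + -b) = -c from fun _ _ _ => by abel]
  exact neg_mem (dv_mem_Prn j)

theorem hor (hE : FF E n) (d₁ : Dt L n₁ Γ₁) (d₂ : Dt L n₂ Γ₂) (w : Pl E)
    (t : Trv (algebraMap L E) w) : -1 < dsc n Γ w := by
  have one : ∀ {K : Type} [Field K] [Algebra ℂ K] [Algebra L K] [Algebra K E]
      [IsScalarTower ℂ K E] [IsScalarTower L K E] {m : ℕ} {Γ : BD K}, Dt L m Γ →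
      (Trv (algebraMap K E) w ∧ pb (algebraMap K E) (dsc m Γ + 1) w = 0) ∨
        0 < pb (algebraMap K E) (dsc m Γ + 1) w := by
    intro K _ _ _ _ _ _ m Γ d
    refine (okL hE w).imp (fun s => ⟨s, s.pb _⟩) fun ⟨v, l⟩ => ?_
    have := d.hor v fun f => (l _).2 (IsScalarTower.algebraMap_apply L K E f ▸ t f)
    rw [l.pb, Pi.add_apply, Pi.one_apply]
    exact mul_pos (Int.cast_pos.2 l.e_pos) (by linarith)
  have := p.ge w
  rw [t.pb] at this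
  rcases one d₁ with a | a <;> rcases one d₂ with b | b
  exacts [by linarith [p.tr w a.1 b.1], by linarith [a.2], by linarith [b.2], by linarith]

theorem e_eq {w : Pl E} {v : Pl K₁} (l : Lies (algebraMap K₁ E) w v) (f : L) :
    (w.ord (algebraMap L E f) : ℝ) = w.ord (algebraMap K₁ E v.t) * v.ord (algebraMap L K₁ f) := by
  rw [IsScalarTower.algebraMap_apply L K₁ E, l.ord, Int.cast_mul]

theorem adm {u : Pl L} {t₁ t₂ : ℝ} (a₁ : Adm n₁ Γ₁ u t₁) (a₂ : Adm n₂ Γ₂ u t₂) :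
    Adm n Γ u (t₁ + t₂ - (cn L k u + 1)) := by
  obtain ⟨v₁, l₁, b₁⟩ := a₁
  obtain ⟨v₂, l₂, b₂⟩ := a₂
  obtain ⟨w, w₁, w₂, e⟩ := p.ex u v₁ v₂ l₁ l₂
  have l : Lies (algebraMap L E) w u := IsScalarTower.algebraMap_eq L K₁ E ▸ w₁.comp l₁
  refine ⟨w, l, ?_⟩
  have c₁ := mul_le_mul_of_nonneg_left b₁ (Int.cast_pos.2 w₁.e_pos).le
  have c₂ := mul_le_mul_of_nonneg_left b₂ (Int.cast_pos.2 w₂.e_pos).le
  rw [mul_left_comm, ← p.e_eq w₁] at c₁
  rw [mul_left_comm, ← p.swap.e_eq w₂] at c₂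
  rw [e, w₁.pb, w₂.pb, l.pb]
  simp only [Pi.add_apply, Pi.one_apply]
  linarith

theorem low (hE : FF E n) {u : Pl L} {t₁ t₂ : ℝ} (a₁ : Low n₁ Γ₁ u t₁) (a₂ : Low n₂ Γ₂ u t₂) :
    Low n Γ u (t₁ + t₂ - (cn L k u + 1)) := fun w l => by
  have e := p.ge w
  have l₁ := IsScalarTower.algebraMap_eq L K₁ E ▸ l
  have l₂ := IsScalarTower.algebraMap_eq L K₂ E ▸ l
  obtain ⟨v₁, w₁⟩ := (okL (L := K₁) hE w).resolve_left fun s => l₁.not_trv (s.comp _)
  obtain ⟨v₂, w₂⟩ := (okL (L := K₂) hE w).resolve_left fun s => l₂.not_trv (s.comp _)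
  have c₁ := mul_le_mul_of_nonneg_left (a₁ v₁ (w₁.of_comp l₁)) (Int.cast_pos.2 w₁.e_pos).le
  have c₂ := mul_le_mul_of_nonneg_left (a₂ v₂ (w₂.of_comp l₂)) (Int.cast_pos.2 w₂.e_pos).le
  rw [mul_left_comm, ← p.e_eq w₁] at c₁
  rw [mul_left_comm, ← p.swap.e_eq w₂] at c₂
  rw [w₁.pb, w₂.pb, l.pb] at e
  simp only [Pi.add_apply, Pi.one_apply] at e
  linarith

end P3

theorem Pd.big (h : Pd L K₁ K₂ E r₁ r₂ k) {X₁ : BD K₁} {X₂ : BD K₂} (b₁ : Big X₁) (b₂ : Big X₂) :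
    Big (pb (algebraMap K₁ E) X₁ + pb (algebraMap K₂ E) X₂) := by
  classical
  have one : ∀ {K : Type} [Field K] [Algebra ℂ K] [Algebra K E] [IsScalarTower ℂ K E] {X : BD K}
      {Y : BD E}, Big X → Eff Y → ∀ f, algebraMap K E f ∈ fld (pb (algebraMap K E) X + Y) := by
    intro K _ _ _ _ X Y b e f
    obtain ⟨ε, e0, k⟩ := b {1, f}
    have := ((okL h.ff).eff k).add e
    rw [pb_sub, pb_smul, (okL h.ff).pb_mx, Pb.im_eq, Finset.image_insert, Finset.image_singleton,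
      map_one, mx_pld, sub_add_eq_add_sub] at this
    exact InF.mem ⟨ε, e0, this⟩
  have e₁ := (okL (K := E) h.ff).eff b₁.eff
  have e₂ := (okL (K := E) h.ff).eff b₂.eff
  exact (big_iff_fld (e₁.add e₂)).2 (eq_top_iff.2 fun x _ =>
    (Subfield.closure_le (t := (fld _).toSubfield)).2 (union_subset (range_subset_iff.2 (one b₁ e₂))
      (range_subset_iff.2 (add_comm (pb (algebraMap K₂ E) X₂) _ ▸ one b₂ e₁))) (h.be.gen ▸ Subfield.mem_top x))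

/-- the Kuenneth formula, one half -/
theorem Pd.half (h : Pd L K₁ K₂ E r₁ r₂ k) (hE : FF E n) (p : P3 L k (r₁ + k) n₂ n Γ₁ Γ₂ Γ)
    (d : Dt L (r₁ + k) Γ₁) {f : E} (hf : ∀ w, Trv (algebraMap K₂ E) w → Aj n Γ w f) :
    f ∈ range (algebraMap K₂ E) := by
  classical
  obtain rfl := Gm.ff_uniq h.ff hE
  obtain _ | r := r₁
  · have := Pb.fin_of_ff h.fb (zero_add r₂ ▸ hE)
    exact h.cb f (Algebra.IsAlgebraic.isAlgebraic f)
  by_cases f0 : f = 0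
  · exact ⟨0, by rw [f0, map_zero]⟩
  obtain ⟨E', _, _, ψ, g⟩ := gen_ex _ E hE _ (cld_rg h.cb)
  have fM : FF (rg K₂ E) (r₂ + k) := ff_rg h.fb
  have hE' : FF E (r + 1 + (r₂ + k)) := add_assoc (r + 1) r₂ k ▸ hE
  have fE : FF E' (r + 1) := g.toExt.ff fM hE'
  let φ := ψ.comp (algebraMap K₁ E)
  have x : Ext (rg L K₁) φ := ⟨by
      rintro _ ⟨a, rfl⟩
      exact g.cst _ ⟨_, (tw K₁ K₂ E a).symm⟩, eq_top_iff.2 (g.gen ▸ Subfield.closure_le.2
      (union_subset (range_subset_iff.2 fun y => (Subfield.closure_le (t := Subfield.comap ψ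
        (Subfield.closure (range φ ∪ range (algebraMap ℂ E'))))).2
        (union_subset (range_subset_iff.2 fun a => Subfield.subset_closure (.inl ⟨a, rfl⟩))
          (range_subset_iff.2 fun a => Subfield.subset_closure (.inr (g.cst _ ⟨a, rfl⟩))))
        (h.be.gen ▸ Subfield.mem_top y)) fun _ c => Subfield.subset_closure (.inr c))),
    fun m v hv => g.dis m _ (li_rg.2 (h.be.dis m v (li_rg.1 hv)))⟩
  have ok := x.ok fE
  have okψ := g.toExt.ok fE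
  have hK : FF K₁ (r + k + 1) := add_right_comm r 1 k ▸ h.fa
  obtain ⟨s₀, -, b₀⟩ := exists_big (ff_rg (B := K₁) h.fL)
  obtain ⟨s, κ, T, H, l, -, sκ, sB⟩ := exists_ls hK finite_empty
    (toFinite {Γ₁, pb (inc _) (mx s₀)}) (forall_mem_insert.2 ⟨d.car, forall_eq.2
      ((hK.ok_sub _).car (mx_mem_Car _))⟩)
  have sΓ := sB Γ₁ (by simp)
  obtain ⟨f', tr⟩ := Api.gtr _ _ _ _ φ _ x hK fE
  have on := tr.on _ l.smp l.big ⟨_, smp_mx _, b₀, (sB _ (by simp)).1⟩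
  obtain ⟨c, c0, ec⟩ := gen_can _ _ _ _ ψ _ g fM hE'
  rw [← add_assoc] at ec
  obtain ⟨j, j0, ej⟩ := p.eq
  have hart : ∀ Z, Dsc (pb φ (mx s)) Z → (∀ P, On r (pb φ (mx s)) P → 0 ≤ Z P) → 0 ≤ Z :=
    fun Z => Pr.hart res' fE (ok.smp l.smp) (Gx.big_pb ok x.gen l.big)
  have bl : ∀ P : Pl E', ∃ w, Lies ψ P w ∧ Trv (algebraMap K₂ E) w := fun P =>
    (g.below fE P).imp fun w a => ⟨a, hor_rg.1 (g.toExt.hor a)⟩
  have eZ : pb ψ (dsc (r + 1 + r₂ + k) Γ) - (cn E' (r + 1) + dv f' - pb φ Γ₁) =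
      dv c - dv (ψ j) - dv f' := by
    have z : pb ψ (pb (algebraMap K₂ E) Γ₂) = 0 := funext fun P => by
      obtain ⟨w, a, b⟩ := bl P
      rw [a.pb, b.pb, mul_zero, Pi.zero_apply]
    rw [dsc, pb_sub, ← ec, ej, pb_add, pb_add, z, okψ.pb_dv, okψ.pb_comp]
    abel
  have pZ : pb ψ (dsc (r + 1 + r₂ + k) Γ) - (cn E' (r + 1) + dv f' - pb φ Γ₁) ∈ Prn E' :=
    eZ ▸ sub_mem (sub_mem (dv_mem_Prn _) (dv_mem_Prn _)) (dv_mem_Prn _)
  have v : ∀ P w, On r (pb φ (mx s)) P → Lies ψ P w → Trv (algebraMap K₂ E) w →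
      (cn E' (r + 1) + dv f' - pb φ Γ₁) P ≤ dsc (r + 1 + r₂ + k) Γ w ∧
      ((Trv φ P ∧ (cn E' (r + 1) + dv f' - pb φ Γ₁) P = 0) ∨ ∃ Q, On (r + k) (mx s) Q ∧
        (∀ β, pb φ β P = β Q) ∧ (cn E' (r + 1) + dv f' - pb φ Γ₁) P = dsc (r + k + 1) Γ₁ Q) := by
    intro P w o a b
    rcases on P o with ⟨t, e⟩ | ⟨Q, q1, q2, q3, q4⟩
    · rw [Pi.sub_apply, e, Trv.pb t, sub_zero]
      exact ⟨p.tr w (fun y => (a _).2 (t y)) b, .inl ⟨t, rfl⟩⟩
    · have e : ∀ β, pb φ β P = β Q := fun β => by rw [q1.pb, q3, Int.cast_one, one_mul]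
      have := p.ge w
      rw [b.pb, Trv.pb (φ := algebraMap L E) fun y => IsScalarTower.algebraMap_apply L K₂ E y ▸ b _,
        ← g.pb_eq a (pb _ _), ← okψ.pb_comp, e, add_right_comm r 1 k] at this
      rw [pb_zero, sub_zero] at q4
      rw [Pi.sub_apply, q4, e]
      exact ⟨by simpa [dsc] using this, .inr ⟨Q, q2, e, rfl⟩⟩
  have z := Api.mod.zero _ E' fE _ pZ (hart _ (.of_prn (ok.smp l.smp) pZ) fun P o => by
    obtain ⟨w, a, b⟩ := bl P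
    rw [Pi.sub_apply, g.pb_eq a]
    exact sub_nonneg.2 (v P w o a b).1)
  obtain ⟨β1, β2⟩ := l.hull_sum fun P => ⌈dsc (r + k + 1) Γ₁ P⌉
  set β := ∑ P ∈ T, (⌈dsc (r + k + 1) Γ₁ P⌉ : ℝ) • H P
  have sec : Sec (pb φ β) (ψ f) := .inr (hart _ ((Dsc.dv (ok.smp l.smp) _).add (ok.dsc β1))
    fun P o => by
      obtain ⟨w, a, b⟩ := bl P
      have e := congrFun z P
      have u := hf w b
      rw [Pi.sub_apply, g.pb_eq a, Pi.zero_apply, sub_eq_zero] at e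
      rw [Pi.add_apply, dv_apply, g.ord_eq a]
      rcases (v P w o a b).2 with ⟨t, q⟩ | ⟨Q, q1, q2, q3⟩
      · rw [t.pb, add_zero]
        exact_mod_cast u.nonneg (e.trans q).le
      · have := (aj_iff.1 u).resolve_left f0
        rw [e, q3] at this
        rw [q2, β2 Q q1]
        split_ifs with y
        · exact this
        · have a1 := (sκ.sub sΓ).2 Q q1 y
          have a2 := l.d0 q1
          rw [show dsc (r + k + 1) Γ₁ Q = 0 by
            simp only [dsc, Pi.sub_apply] at a1 a2 ⊢; linarith] at this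
          simpa using this)
  obtain ⟨K₀, _, _, φ₀, g₀⟩ := gen_ex _ K₁ hK _ x.cld
  obtain ⟨a, b, -, gd⟩ := g₀.gfd hK
  obtain ⟨θ, sθ, -, kθ⟩ := x.xc g₀.toExt hK ok gd.ok (β := fun _ : Unit => β) (fun _ => β1.car) ∅
  obtain ⟨y, hy⟩ := sθ.sur (ψ f)
  rw [← kθ (), ← hy, sθ.sec] at sec
  have cy : y ∈ (algebraMap ℂ K₀).range := by
    refine (Submodule.span_le (p := LinearMap.range (Algebra.linearMap ℂ K₀))).2 ?_
      ((g3 _ _ _ _ _ _ gd).2.2.1 β y sec)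
    rintro _ ⟨b, ⟨b0, hb⟩, rfl⟩
    refine g₀.cst b (d.rk b fun Q t => .inr ?_)
    have := l.gt (Q := Q) (Γ := Γ₁ + β) (sκ.sub (sΓ.add ⟨β1, fun P a b => by
      rw [β2 P a, if_neg b]⟩)) le_rfl one_pos fun P hP _ => by
        rw [Pr.dsc_add, β2 P (l.on P hP), if_pos hP]
        linarith [Int.ceil_lt_add_one (dsc (r + k + 1) Γ₁ P)]
    have := hb Q (hor_rg.2 t)
    rw [add_right_comm r 1 k]
    rw [Pi.add_apply, dv_apply] at this
    rw [Pr.dsc_add] at *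
    linarith
  obtain ⟨c, rfl⟩ := cy
  obtain ⟨c', hc⟩ := sθ.cst c
  exact g.toExt.mem_of_const (hc.trans hy)

theorem Pd.dt (h : Pd L K₁ K₂ E r₁ r₂ k) (p : P3 L k (r₁ + k) (r₂ + k) (r₁ + r₂ + k) Γ₁ Γ₂ Γ)
    (d₁ : Dt L (r₁ + k) Γ₁) (d₂ : Dt L (r₂ + k) Γ₂) : Dt L (r₁ + r₂ + k) Γ := by
  refine ⟨h.ff, (((okL h.ff).nef d₁.nef).add ((okL h.ff).nef d₂.nef)).congr p.prn,
    (h.big d₁.big d₂.big).congr p.prn, p.hor h.ff d₁ d₂, fun f hf => ?_⟩
  obtain ⟨b, rfl⟩ := h.half h.ff p d₁ fun w t => hf w fun a =>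
    IsScalarTower.algebraMap_apply L K₂ E a ▸ t _
  obtain ⟨a, e⟩ := h.swap.half h.ff p.swap d₂ fun w t => hf w fun a =>
    IsScalarTower.algebraMap_apply L K₁ E a ▸ t _
  by_contra z
  have i : LinearIndependent L ![1, b] := (LinearIndependent.pair_iff' one_ne_zero).2 fun c e' =>
    z ⟨c, by rw [← e', Algebra.smul_def, mul_one, ← IsScalarTower.algebraMap_apply]⟩
  have := Fintype.linearIndependent_iff.1 (h.swap.be.dis 2 _ i) ![a, -1] (by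
    simp [Fin.sum_univ_two, Algebra.smul_def, e]) 1
  simp at this

end two

section pw

variable {L K : Type} [Field L] [Field K] [Algebra ℂ L] [Algebra ℂ K] [Algebra L K]
  [IsScalarTower ℂ L K] {n r k : ℕ} {Γ : BD K}

/-- fibre powers -/
theorem Dt.pow (hL : FF L k) (d : Dt L (r + k) Γ) (s : ℕ) :
    ∃ (E : Type) (_ : Field E) (_ : Algebra ℂ E) (_ : Algebra L E) (_ : IsScalarTower ℂ L E)
      (r' : ℕ) (Γ' : BD E), Dt L (r' + k) Γ' ∧ ∀ (u : Pl L) (t : ℝ),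
      (Adm (r + k) Γ u t → Adm (r' + k) Γ' u ((s + 1) * (t - (cn L k u + 1)) + (cn L k u + 1))) ∧
      (Low (r + k) Γ u t → Low (r' + k) Γ' u ((s + 1) * (t - (cn L k u + 1)) + (cn L k u + 1))) := by
  induction s with
  | zero => exact ⟨K, _, _, _, inferInstance, r, Γ, d, fun u t => by simp⟩
  | succ s ih =>
    obtain ⟨F, _, _, _, _, r', Γ', d', h⟩ := ih
    have := charZero_of L
    obtain ⟨E, _, _, _, _, _, _, be, c1, c2⟩ := am L K F d.cl d'.cl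
    let _ : Algebra ℂ E := ((algebraMap L E).comp (algebraMap ℂ L)).toAlgebra
    have : IsScalarTower ℂ L E := .of_algebraMap_eq fun _ => rfl
    have : IsScalarTower ℂ K E := .of_algebraMap_eq fun c => by
      rw [← lin L K, ← IsScalarTower.algebraMap_apply]; rfl
    have : IsScalarTower ℂ F E := .of_algebraMap_eq fun c => by
      rw [← lin L F, ← IsScalarTower.algebraMap_apply]; rfl
    have pd : Pd L K F E r r' k := ⟨be, hL, d.ff, d'.ff, c1, c2⟩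
    obtain ⟨Γ₃, p⟩ := pd.p3 Γ Γ'
    refine ⟨E, _, _, _, inferInstance, r + r', Γ₃, pd.dt p d d', fun u t => ⟨fun a => ?_, fun a => ?_⟩⟩
    · convert p.adm a ((h u t).1 a) using 1
      push_cast; ring
    · convert p.low pd.ff a ((h u t).2 a) using 1
      push_cast; ring

/-- non-vanishing over a base of dimension `k` -/
def NV (k : ℕ) : Prop := ∀ (L : Type) [Field L] [Algebra ℂ L], FF L k → ∃ W ∈ Car L,
  ∀ (n : ℕ) (K : Type) [Field K] [Algebra ℂ K] (φ : L →+* K) (Γ : BD K), FF K n →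
    (∀ c, φ (algebraMap ℂ L c) = algebraMap ℂ K c) → Nef (-Γ - pb φ W) → Big (-Γ - pb φ W) →
    (∀ P, Trv φ P → -1 < dsc n Γ P) → ∃ f, f ≠ 0 ∧ ∀ P, Aj n Γ P f

/-- non-vanishing, with a bound for the order at one place -/
theorem nvg (ih : NV k) (hL : FF L (k + 1)) (u : Pl L) : ∃ W ∈ Car L,
    ∀ (n : ℕ) (K : Type) [Field K] [Algebra ℂ K] (φ : L →+* K) (Γ : BD K), FF K n →
      (∀ c, φ (algebraMap ℂ L c) = algebraMap ℂ K c) → Nef (-Γ - pb φ W) → Big (-Γ - pb φ W) →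
      (∀ P, Trv φ P → -1 < dsc n Γ P) → ∃ f, f ≠ 0 ∧ (∀ P, Aj n Γ P f) ∧ ∃ P, Lies φ P u ∧
        ∀ t : ℝ, (∀ v, Lies φ v u → t * v.ord (φ u.t) ≤ dsc n Γ v + 1) →
          (P.ord f : ℝ) ≤ (1 - t) * P.ord (φ u.t) := by
  obtain ⟨s, κ, T, h, l, hT, -, -⟩ := exists_ls hL (finite_singleton u) finite_empty (by simp)
  have on := l.on u (hT u rfl)
  have U0 := l.nn on
  have U1 : h u u = 1 := ((l.hull u on).2 u on).trans u.δ_self
  have U2 := (l.hull u on).1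
  generalize h u = U at U0 U1 U2
  obtain ⟨ε, e0, ab⟩ := U2.exists_abs
  obtain ⟨W', c', ih'⟩ := ih u.κ (Gm.ff_κ u hL)
  obtain ⟨s', nz, -, sm⟩ := Car.exists_mx c'
  obtain ⟨s₂, rfl⟩ := In.exists_rs u nz
  have cW : ε⁻¹ • mx s + mx s₂ ∈ Car L := add_mem ((Car L).smul_mem _ (mx_mem_Car _)) (mx_mem_Car _)
  refine ⟨_, cW, fun n K _ _ φ Γ hK hc hX bX hor => ?_⟩
  have ok : Ok φ := hK.ok (ah φ hc)
  obtain ⟨P₀, l₀⟩ := Pb.up hc hK u
  obtain ⟨n, rfl⟩ := Ba.ff_succ hK P₀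
  have cΓ : Γ ∈ Car K := by simpa using neg_mem (add_mem hX.car (ok.car cW))
  have cΛ := ok.car (mx_mem_Car s)
  have cU := ok.car U2.car
  have eU : ∀ v, Lies φ v u → pb φ U v = v.ord (φ u.t) := fun v a => by rw [a.pb, U1, mul_one]
  let S := {v | Trv φ v ∨ Lies φ v u}
  have mS : ∀ R, (∀ G, Rep (mx s) G → G u = 0 → pb φ G R ≤ 0) → R ∈ S := fun R z =>
    (ok R).imp_right fun ⟨u', a⟩ => by
      by_contra b
      obtain ⟨G, g1, g2, g3⟩ := (Api.sep' k L hL _ u u' l.smp l.big on).1 fun e => b (e ▸ a)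
      exact (z G g1 g3).not_gt (a.pb G ▸ mul_pos (Int.cast_pos.2 a.e_pos) g2)
  have up : ∀ Q ∈ S, ∀ P, CLe (pb φ (mx s)) Q P → P ∈ S := fun Q hQ P c => mS P fun G a b =>
    (c.zero (ok.rep a) (hQ.elim (·.pb G) fun e => by rw [e.pb, b, mul_zero])).le
  obtain ⟨a, a1, a2⟩ := Int.exists_least_of_bdd (P := fun z : ℤ => ∀ v, Lies φ v u →
      0 < dsc (n + 1) Γ v + 1 + z * v.ord (φ u.t)) ⟨⌊-(dsc (n + 1) Γ P₀ + 1) / P₀.ord (φ u.t)⌋,
      fun z hz => Int.floor_le_iff.2 (lt_add_of_lt_of_pos ((div_lt_iff₀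
        (Int.cast_pos.2 l₀.e_pos)).2 (by linarith [hz P₀ l₀])) one_pos)⟩ (by
    obtain ⟨T', hT'⟩ := Pr.fin_chk hK (toFinite {Γ, pb φ U, pb φ (mx s)})
      (forall_mem_insert.2 ⟨cΓ, forall_mem_insert.2 ⟨cU, forall_eq.2 cΛ⟩⟩)
    obtain ⟨b, hb⟩ := (T'.finite_toSet.image fun P => -(dsc (n + 1) Γ P + 1)).bddAbove
    obtain ⟨c, hc⟩ := exists_nat_gt b
    refine ⟨c, fun v hv => not_le.1 fun z => ?_⟩
    obtain ⟨P, p1, p2, p3⟩ := (hT' (Γ + -(c : ℝ) • pb φ U) (add_mem (Submodule.subset_span (by simp))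
      (Submodule.smul_mem _ _ (Submodule.subset_span (by simp)))) v 0 le_rfl).1 one_pos (by
        rw [Pr.dsc_add_smul, eU v hv]; push_cast at z; linarith)
    rw [Pr.dsc_add_smul] at p2
    rcases up v (.inr hv) P (p3 _ (Submodule.subset_span (by simp))) with t | t
    · rw [t.pb] at p2
      linarith [hor P t]
    · have : (1 : ℝ) ≤ P.ord (φ u.t) := by exact_mod_cast t.e_pos
      have := hb (mem_image_of_mem _ p1)
      rw [eU P t] at p2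
      nlinarith [(Nat.cast_nonneg c : (0 : ℝ) ≤ c)])
  obtain ⟨R, r1, r2⟩ : ∃ R, Lies φ R u ∧ dsc (n + 1) Γ R + 1 + (a - 1) * R.ord (φ u.t) ≤ 0 := by
    by_contra! z
    have := a2 (a - 1) (by exact_mod_cast z)
    omega
  obtain ⟨E, cE, E0, kE⟩ := Ba.Fg.kod0 hK hX bX (β := fun _ : Unit => pb φ (mx s)) fun _ => cΛ
  have c₁ : Γ + -(a : ℝ) • dv (φ u.t) ∈ Car K := add_mem cΓ ((Car K).smul_mem _ (dv_mem_Car _))
  obtain ⟨η, η0, kη⟩ := Pr.open_on hK c₁ cE cΛ up fun Q hQ => by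
    rw [Pr.dsc_add_smul, dv_apply]
    rcases hQ with t | t
    · simpa [t.ord] using hor Q t
    · linarith [a1 Q t]
  have m0 := lt_min η0 one_pos
  obtain ⟨sΛ, bΛ, dΛ⟩ := kE _ m0 (min_le_right _ _)
  have c₂ := add_mem c₁ ((Car K).smul_mem (min η 1) cE)
  obtain ⟨μ, D, P, g0, μ0, μ1, D0, cD, sD, bD, rD, pS, lc, plt⟩ := Ti.tie_big0 hK sΛ.nef bΛ c₂ cU
    (pb_nonneg φ U0) (fun Q a P b => up Q a P (b.of_dsc (dΛ ())))
    (kη _ ((abs_of_pos m0).trans_le (min_le_left _ _))) (.inr r1) (by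
      rw [Pr.dsc_add, Pr.dsc_add_smul, Pr.dsc_add_smul, dv_apply, eU R r1]
      linarith [mul_nonneg m0.le (E0 R)]) one_pos
  have lP : Lies φ P u := pS.resolve_left fun t => g0.ne' (t.pb U)
  set Γ₃ := Γ + -(a : ℝ) • dv (φ u.t) + min η 1 • E + μ • pb φ U + D
  have c₃ : Γ₃ ∈ Car K := add_mem (add_mem c₂ ((Car K).smul_mem _ cU)) cD
  have nN : Nef (pb φ (ε⁻¹ • (mx s + -(μ * ε) • U)) + (a : ℝ) • dv (φ u.t)) :=
    (ok.nef ((ab _ (by rw [abs_neg, abs_of_pos (mul_pos μ0 e0)]; nlinarith)).smul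
      (inv_pos.2 e0).le).nef).add_prn (Submodule.smul_mem _ _ (dv_mem_Prn _))
  set X := (1 : ℝ) • (-Γ - pb φ (ε⁻¹ • mx s + mx s₂) - min η 1 • E) - D
  set N := pb φ (ε⁻¹ • (mx s + -(μ * ε) • U)) + (a : ℝ) • dv (φ u.t)
  have e₃ : -Γ₃ = X + N + pb φ (mx s₂) := by
    simp only [Γ₃, X, N, pb_add, pb_smul, smul_add, smul_smul, mul_neg, mul_comm μ ε,
      inv_mul_cancel_left₀ e0.ne']
    module
  have n₂ := ok.nef (nef_mx s₂)
  have hρ : ∀ c, lP.κ (algebraMap ℂ u.κ c) = algebraMap ℂ P.κ c := fun c => by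
    rw [← rd_const, lP.isRd _ (u.con c), hc, rd_const]
  have okρ : Ok lP.κ := (Gm.ff_κ P hK).ok (ah _ hρ)
  have cst : Cst φ := fun c => ⟨c, (hc c).symm⟩
  have pr : -adj n P Γ₃ - pb lP.κ W' - (res P X + (res P N + pb lP.κ (mx (u.rs s₂) - W'))) ∈
      Prn P.κ := by
    have x := (P287D.a1 n K hK P Γ₃ c₃).2.1
    have y := (cst.res_lies res' hL hK lP lP.isRd (mx_mem_Car s₂)).1
    have z := res'.smul n K hK P (-1) Γ₃ c₃
    rw [neg_one_smul, neg_one_smul, e₃, res'.add n K hK P _ (add_mem sD.car nN.car) _ n₂.car,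
      res'.add n K hK P _ sD.car _ nN.car] at z
    rw [res'.sys k L hL] at y
    convert sub_mem y x using 1
    rw [pb_sub, neg_eq_iff_eq_neg.1 z.symm]
    abel
  have nr := (res'.nef n K hK P _ nN).add (okρ.nef sm.nef)
  obtain ⟨y, y0, hy⟩ := ih' n P.κ lP.κ (adj n P Γ₃) (Gm.ff_κ P hK) hρ
    (((res'.nef n K hK P _ sD.nef).add nr).congr pr) ((rD.add_nef nr).congr pr) fun w t => by
      obtain ⟨R, a, -, -, b, c⟩ := P287D.a2 n K hK P w {Γ₃} _ 0 (finite_singleton _)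
        (singleton_subset_iff.2 c₃) cΛ
      have d := c _ rfl
      rw [lc, neg_add_cancel, zero_mul, add_zero] at d
      refine d ▸ plt R (mS R fun G g z => ?_) a.1
      have := (b _ (ok.rep g) (by rw [lP.pb, z, mul_zero])).1
      rwa [(cst.res_lies res' hL hK lP lP.isRd (g.car (mx_mem_Car s))).2 z, t.pb] at this
  obtain ⟨f, f1, f2, f3⟩ := Ku.uext n K hK P Γ₃ y (e₃ ▸ (sD.nef.add nN).add n₂)
    (e₃ ▸ (bD.add_nef nN).add_nef n₂) lc hy
  have f0 : f ≠ 0 := fun e => y0 (by rw [← f2, e]; exact (rd_eq_zero (zero_mem _)).2 mx_zero)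
  have t0 := zpow_ne_zero a ((map_ne_zero φ).2 u.t_ne)
  have o : ∀ R : Pl K, (R.ord (f * φ u.t ^ a) : ℝ) = R.ord f + a * R.ord (φ u.t) := fun R => by
    rw [Pl.ord_mul _ f0 t0, Pl.ord_zpow]; push_cast; rfl
  have oP := ord_zero_of f1 (f2 ▸ y0)
  have ds : ∀ R, dsc (n + 1) Γ₃ R = dsc (n + 1) Γ R + a * R.ord (φ u.t) - min η 1 * E R -
      μ * pb φ U R - D R := fun R => by
    rw [Pr.dsc_add, Pr.dsc_add_smul, Pr.dsc_add_smul, Pr.dsc_add_smul, dv_apply]; ring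
  refine ⟨_, mul_ne_zero f0 t0, fun R => .inr ?_, P, lP, fun t ht => ?_⟩
  · have := mul_nonneg m0.le (E0 R)
    have : 0 ≤ D R := D0 R
    have := ds R
    rw [o]
    by_cases e : R = P
    · subst e
      have := mul_pos μ0 g0
      rw [oP, Int.cast_zero]
      linarith
    · linarith [(f3 R e).resolve_left f0, mul_nonneg μ0.le (pb_nonneg φ U0 R)]
  · have e : (0 : ℝ) < R.ord (φ u.t) := Int.cast_pos.2 r1.e_pos
    rw [o, oP, Int.cast_zero, zero_add]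
    refine mul_le_mul_of_nonneg_right (le_of_mul_le_mul_right ?_ e) (Int.cast_pos.2 lP.e_pos).le
    linarith [ht R r1]

theorem nv (k : ℕ) : NV k := by
  have e : ∀ k, (∀ (L : Type) [Field L] [Algebra ℂ L], FF L k → ∀ u : Pl L, ∃ W ∈ Car L,
      ∀ (n : ℕ) (K : Type) [Field K] [Algebra ℂ K] (φ : L →+* K) (Γ : BD K), FF K n →
      (∀ c, φ (algebraMap ℂ L c) = algebraMap ℂ K c) → Nef (-Γ - pb φ W) → Big (-Γ - pb φ W) →
      (∀ P, Trv φ P → -1 < dsc n Γ P) → ∃ f, f ≠ 0 ∧ ∀ P, Aj n Γ P f) → NV k := by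
    intro k h L _ _ hL
    by_cases z : Nonempty (Pl L)
    · exact z.elim (h L hL)
    · exact ⟨0, zero_mem _, fun n K _ _ φ Γ hK hc _ _ hor => ⟨1, one_ne_zero, fun P => .of_klt
        (hor P ((hK.ok (ah φ hc) P).resolve_right fun ⟨Q, _⟩ => z ⟨Q⟩)) (by simp)⟩⟩
  induction k with
  | zero => exact e _ fun L _ _ hL u => (no_pl hL u).elim
  | succ k ih =>
    refine e _ fun L _ _ hL u => ?_
    obtain ⟨W, c, h⟩ := nvg ih hL u
    exact ⟨W, c, fun n K _ _ φ Γ a b c d e => (h n K φ Γ a b c d e).imp fun _ x => ⟨x.1, x.2.1⟩⟩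

/-- **sections of the multiples of the moduli part** -/
theorem Dt.core (hL : FF L (k + 1)) (d : Dt L n Γ) (u₀ : Pl L) : ∃ W ∈ Car L, ∀ s : ℕ, ∃ g : L,
    g ≠ 0 ∧ (∀ u t, Adm n Γ u t → 0 < u.ord g + (s + 1) * (t - (cn L (k + 1) u + 1)) +
      (cn L (k + 1) u + 1) + W u) ∧ ∀ t, Low n Γ u₀ t → u₀.ord g +
        (s + 1) * (t - (cn L (k + 1) u₀ + 1)) + (cn L (k + 1) u₀ + 1) + W u₀ ≤ 1 := by
  obtain ⟨m, hm, fm⟩ := Gm.ff_alg (L := L) d.ff
  obtain rfl := Gm.ff_uniq hL fm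
  obtain ⟨r, rfl⟩ := Nat.exists_eq_add_of_le' hm
  obtain ⟨W, c, h⟩ := nvg (nv k) hL u₀
  refine ⟨W, c, fun s => ?_⟩
  obtain ⟨E, _, _, _, _, r', Γ', d', p⟩ := d.pow hL s
  have ds : ∀ v, dsc (r' + (k + 1)) (Γ' - pb (algebraMap L E) W) v =
      dsc (r' + (k + 1)) Γ' v + pb (algebraMap L E) W v := fun v => by
    simp only [dsc, Pi.sub_apply]; ring
  obtain ⟨f, f0, f1, P, lP, f2⟩ := h _ E (algebraMap L E) (Γ' - pb (algebraMap L E) W) d'.ff
    (lin L E) (by simpa using d'.nef) (by simpa using d'.big) fun P t => by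
      rw [ds, t.pb, add_zero]; exact d'.hor P t
  obtain ⟨g, rfl⟩ := d'.rk f fun P t => (f1 P).imp_right fun z => by
    rwa [ds, t.pb, add_zero] at z
  refine ⟨g, (map_ne_zero _).1 f0, fun u t a => ?_, fun t a => ?_⟩
  · obtain ⟨v, l, b⟩ := (p u t).1 a
    have := (f1 v).resolve_left f0
    rw [ds, l.pb, l.ord g, Int.cast_mul] at this
    have e : (0 : ℝ) < v.ord (algebraMap L E u.t) := Int.cast_pos.2 l.e_pos
    exact (mul_pos_iff_of_pos_left e).1 (by linarith)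
  · have := f2 ((s + 1) * (t - (cn L (k + 1) u₀ + 1)) + (cn L (k + 1) u₀ + 1) + W u₀) fun v l => by
      rw [ds, l.pb, add_mul]; linarith [(p u₀ t).2 a v l]
    rw [lP.ord g, Int.cast_mul] at this
    have e : (0 : ℝ) < P.ord (algebraMap L E u₀.t) := Int.cast_pos.2 lP.e_pos
    exact le_of_mul_le_mul_left (by linarith) e

theorem rep_pos {Λ : BD L} (b : Big Λ) {T : Set (Pl L)} (hT : T.Finite) :
    ∃ G, Rep Λ G ∧ ∀ u ∈ T, 0 < G u := by
  have nn : 0 ≤ ∑ u ∈ hT.toFinset, pld u.t⁻¹ := Finset.sum_nonneg fun _ _ => pld_nonneg _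
  obtain ⟨ε, e0, G, r⟩ := b.exists_eff (γ := ∑ u ∈ hT.toFinset, pld u.t⁻¹)
    (sum_mem fun _ _ => pld_car _)
  refine ⟨G + ε • ∑ u ∈ hT.toFinset, pld u.t⁻¹, by simpa using r.add ((Rep.refl nn).smul e0.le), fun u hu =>
    add_pos_of_nonneg_of_pos (r.1 u) (mul_pos e0 ?_)⟩
  rw [Finset.sum_apply]
  refine Finset.sum_pos' (fun v _ => pld_nonneg _ u) ⟨u, hT.mem_toFinset.2 hu, ?_⟩
  rw [pld_apply, Pl.ord_inv, u.ord_t]
  simp

variable {Λ D θ β : BD L} (hL : FF L (k + 1)) (hK : FF K n) (hD : D ∈ Car L)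
  (nef : Nef (pb (algebraMap L K) D - Γ)) (big : Big (pb (algebraMap L K) D - Γ))
  (hor : ∀ P, Trv (algebraMap L K) P → -1 < dsc n Γ P)
  (rk : ∀ f, (∀ P, Trv (algebraMap L K) P → Aj n Γ P f) → f ∈ range (algebraMap L K))
  (sΛ : Smp Λ) (bΛ : Big Λ)

include hL hK hD nef big hor rk sΛ bΛ

theorem wpx0 (fin : {u | On k Λ u ∧ θ u ≠ 0}.Finite) (adm : ∀ u, On k Λ u → Adm n Γ u (1 - θ u))
    (u₀ : Pl L) : ∃ G, Rep Λ G ∧ ∀ η : ℝ, 0 < η → ∃ Z ∈ Prn L,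
      (∀ u, On k Λ u → cn L (k + 1) u + θ u ≤ (D + Z + η • G) u) ∧
      ∀ t, Low n Γ u₀ t → (D + Z) u₀ ≤ cn L (k + 1) u₀ + 1 - t + η := by
  have ds : ∀ v, dsc n (Γ - pb (algebraMap L K) D) v = dsc n Γ v + pb (algebraMap L K) D v :=
    fun v => by simp only [dsc, Pi.sub_apply]; ring
  have d : Dt L n (Γ - pb (algebraMap L K) D) := ⟨hK, neg_sub Γ _ ▸ nef, neg_sub Γ _ ▸ big,
    fun P t => by rw [ds, t.pb, add_zero]; exact hor P t, fun f h => rk f fun P t =>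
      (h P t).imp_right fun z => by rwa [ds, t.pb, add_zero] at z⟩
  obtain ⟨W, c, h⟩ := d.core hL u₀
  have i := Api.mod.isb k L hL
  have f := fun Z => Pr.fin_on (β := Z) res' hL sΛ bΛ
  have fT := fin.union ((f _ (i.1 D hD)).union ((f _ (i.1 W c)).union (f _ i.2.1)))
  obtain ⟨G, r, g⟩ := rep_pos bΛ fT
  refine ⟨G, r, fun η e0 => ?_⟩
  obtain ⟨b, hb⟩ := (fT.image fun u => (cn L (k + 1) u + 1 + W u) / (η * G u)).bddAbove
  obtain ⟨s, hs⟩ := exists_nat_ge (max b (-(cn L (k + 1) u₀ + W u₀) / η))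
  obtain ⟨y, y0, y1, y2⟩ := h s
  have m0 : (0 : ℝ) < s + 1 := by positivity
  have v : ∀ u : Pl L, ((s + 1 : ℝ)⁻¹ • dv y) u * (s + 1) = u.ord y := fun u => by
    rw [Pi.smul_apply, smul_eq_mul, dv_apply]; field_simp
  refine ⟨(s + 1 : ℝ)⁻¹ • dv y, Submodule.smul_mem _ _ (dv_mem_Prn y), fun u o => ?_,
    fun t a => le_of_mul_le_mul_right ?_ m0⟩
  · obtain ⟨w, l, a⟩ := adm u o
    have z := y1 u (1 - θ u + D u) ⟨w, l, by rw [ds, l.pb]; linarith⟩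
    refine le_of_mul_le_mul_right ?_ m0
    rw [Pi.add_apply, Pi.add_apply, add_mul, add_mul, add_mul, v, Pi.smul_apply, smul_eq_mul]
    by_cases x : u ∈ {u | On k Λ u ∧ θ u ≠ 0} ∪ ({u | On k Λ u ∧ D u ≠ 0} ∪
      ({u | On k Λ u ∧ W u ≠ 0} ∪ {u | On k Λ u ∧ cn L (k + 1) u ≠ 0}))
    · have p := mul_pos e0 (g u x)
      have := (div_le_iff₀ p).1 ((hb (mem_image_of_mem _ x)).trans ((le_max_left _ _).trans hs))
      linarith
    · simp only [mem_union, mem_ofPred_eq, o, true_and, not_or, not_not] at x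
      obtain ⟨x1, x2, x3, x4⟩ := x
      rw [x1, x2, x3, x4] at z
      have : ((-1 : ℤ) : ℝ) < u.ord y := by push_cast; linarith
      have : (0 : ℝ) ≤ u.ord y := by exact_mod_cast (by exact_mod_cast this : -1 < u.ord y)
      rw [x1, x2, x4]
      linarith [mul_nonneg (mul_nonneg e0.le (r.1 u)) m0.le]
  · have z := y2 (t + D u₀) fun w l => by rw [ds, l.pb]; linarith [a w l]
    have := (div_le_iff₀ e0).1 ((le_max_right _ _).trans hs)
    rw [Pi.add_apply, add_mul, v]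
    linarith

/-- **WPX**: the moduli part plus a small ample class is effective, on the primes of `V Λ` -/
theorem wpx (fin : {u | On k Λ u ∧ θ u ≠ 0}.Finite) (adm : ∀ u, On k Λ u → Adm n Γ u (1 - θ u))
    {η : ℝ} (e0 : 0 < η) :
    ∃ G, G - (D + η • Λ) ∈ Prn L ∧ ∀ u, On k Λ u → cn L (k + 1) u + θ u ≤ G u := by
  by_cases z : Nonempty (Pl L)
  · obtain ⟨G, r, h⟩ := wpx0 hL hK hD nef big hor rk sΛ bΛ fin adm z.some
    obtain ⟨Z, a, b, -⟩ := h η e0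
    refine ⟨_, ?_, b⟩
    rw [show D + Z + η • G - (D + η • Λ) = Z + η • (G - Λ) by module]
    exact add_mem a (Submodule.smul_mem _ _ r.2)
  · exact ⟨_, by rw [sub_self]; exact zero_mem _, fun u => (z ⟨u⟩).elim⟩

omit hD in
/-- **NGX**: weak positivity and negativity -/
theorem ngx (dD : Dsc Λ D) (dβ : Dsc Λ β)
    (adm : ∀ u, On k Λ u → Adm n Γ u (dsc (k + 1) β u + 1)) :
    Psef (D - β) ∧ ∀ u t, Low n Γ u t → t ≤ dsc (k + 1) β u + 1 := by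
  have i := Api.mod.isb k L hL
  have fin : {u | On k Λ u ∧ (β - cn L (k + 1)) u ≠ 0}.Finite :=
    ((Pr.fin_on res' hL sΛ bΛ (i.1 β dβ.car)).union (Pr.fin_on res' hL sΛ bΛ i.2.1)).subset
      fun u a => by
        by_contra z
        simp only [mem_union, mem_ofPred_eq, a.1, true_and, not_or, not_not] at z
        exact a.2 (by rw [Pi.sub_apply, z.1, z.2, sub_zero])
  have adm' : ∀ u, On k Λ u → Adm n Γ u (1 - (β - cn L (k + 1)) u) := fun u o => by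
    convert adm u o using 1
    simp only [dsc, Pi.sub_apply]; ring
  have ht : ∀ G, Dsc Λ G → (∀ u, On k Λ u → cn L (k + 1) u + (β - cn L (k + 1)) u ≤ G u) →
      β ≤ G := fun G a b => Pr.hart_le res' hL sΛ bΛ dβ a fun u o => by simpa using b u o
  refine ⟨.of_eff sΛ.car fun η e0 => ?_, fun u t a => ?_⟩
  · obtain ⟨G, b, c⟩ := wpx hL hK dD.car nef big hor rk sΛ bΛ fin adm' e0
    exact ⟨G - β, sub_nonneg.2 (ht G ((dD.add ((Dsc.refl sΛ).smul η)).congr b) c), by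
      rwa [show G - β - (D - β + η • Λ) = G - (D + η • Λ) by module]⟩
  · obtain ⟨G, r, h⟩ := wpx0 hL hK dD.car nef big hor rk sΛ bΛ fin adm' u
    refine le_of_forall_pos_le_add fun ε e0 => ?_
    have g : 0 < G u + 1 := add_pos_of_nonneg_of_pos (r.1 u) one_pos
    obtain ⟨Z, b, c, d⟩ := h _ (div_pos e0 g)
    have x := ht _ ((dD.add_prn b).add (((Dsc.refl sΛ).congr r.2).smul _)) c u
    have y := d t a
    have z := div_mul_cancel₀ ε g.ne'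
    rw [Pi.add_apply, Pi.smul_apply, smul_eq_mul] at x
    simp only [dsc, Pi.sub_apply]
    linarith

end pw

/-- **WPN** -/
theorem wpn : Lg.WPN := fun k n K _ _ hK L Γ Λ D β hL _ nef big kl rk sΛ bΛ dD dβ adm =>
  ngx hL hK nef big (fun P _ => kl P)
    (fun f h => ⟨⟨f, rk f fun P t => h P fun a => t a a.2⟩, rfl⟩) sΛ bΛ dD dβ
    fun u o => let ⟨v, a, b⟩ := adm u o; ⟨v, a, b.trans_eq (mul_comm _ _)⟩

/-- **WPX** -/
theorem wpx' : Eb.WPX := fun n k E _ _ L Γ D H θ η hE hL sH bH dD nef big hor rk fin adm e0 =>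
  wpx hL hE dD.car nef big (fun P t => hor P fun a ha => t ⟨a, ha⟩)
    (fun f h => ⟨⟨f, rk f fun P t => h P fun a => t a a.2⟩, rfl⟩) sH bH fin adm e0

end Vale.Agent.P283B.Wp

theorem Vale.Agent.P283B.Eb.wpx : Vale.Agent.P283B.Eb.WPX := Vale.Agent.P283B.Wp.wpx'
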