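import Vale.Agent.P283B.EB.Cut1
import Vale.Agent.P283B.EB.Cs
import Vale.Agent.P283B.VOL.Klt
import Vale.Agent.P287D.Ba.PosOn

/-!
# P283B, block EB: the cutting argument from its leaves
-/

set_option linter.unusedVariables false

open Set Filter Topology

noncomputable section

namespace Vale.Agent.P283B.Eb

open P287D P287D.Pr P287D.Cb

variable {n : ℕ} {K K' K'' : Type} [Field K] [Algebra ℂ K] [Field K'] [Algebra ℂ K'] [Field K'']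
  [Algebra ℂ K''] {φ : K →+* K'} {ψ : K' →+* K''} {Λ N Γ E : BD K} {Γ' Δ : BD K'}
  {a a' b c : ℝ} {F : IntermediateField ℂ K} {P R x : Pl K'}

/-- the centres of the generic tigers of level `a` have a large volume -/
def Fat (n : ℕ) (N Γ : BD K) (a c : ℝ) : Prop := ∀ (K' : Type) [Field K'] [Algebra ℂ K']
  (φ : K →+* K') (Γ' Δ : BD K') (P : Pl K') (k : ℕ) (h : BD (fld (res P (pb φ N)))), k < n →
  Xt n φ Γ Γ' → Tg n (pb φ N) Γ' Δ a P → Trv φ P → FF (fld (res P (pb φ N))) (k + 1) →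
  Po (pb φ N) P h → ((n : ℝ) + 2) ^ (k + 1) < vol (k + 1) (c • h)

/-- there is a marked tiger of level `a` with a centre of dimension at most `j` -/
def EM (n : ℕ) (N Γ : BD K) (F : IntermediateField ℂ K) (a : ℝ) (j : ℕ) : Prop :=
  ∃ (K' : Type) (_ : Field K') (_ : Algebra ℂ K') (φ : K →+* K') (Γ' Δ : BD K') (P R : Pl K'),
    Mk n φ N Γ F Γ' Δ a P R ∧ cd (pb φ N) P ≤ j

theorem Ag.up (g : Ag φ F P R) (hc : Cst ψ) {P₁ R₁ : Pl K''} (l : Lies ψ P₁ P)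
    (l' : Lies ψ R₁ R) : Ag (ψ.comp φ) F P₁ R₁ := fun u hu => by
  obtain ⟨c, x, y⟩ := g u hu
  obtain ⟨d, hd⟩ := hc c
  refine ⟨d, ?_, ?_⟩ <;> rw [hd, RingHom.comp_apply, ← map_sub]
  exacts [mx_up l x, mx_up l' y]

theorem Xt.gen (h : Xt n φ Γ Γ') (p : GenPt n φ x) : dsc (n + 1) Γ' x = n := by
  obtain ⟨f, t, rfl⟩ := h.eq
  have := p.dsc f t
  simp only [dsc, Pi.add_apply, Pi.sub_apply, Trv.pb p.triv] at this ⊢
  linarith

theorem cl_empty {u : K} (h : u ∈ Gm.Cl (∅ : Set K)) : u ∈ range (algebraMap ℂ K) := by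
  have k : IsAlgebraic (IntermediateField.adjoin ℂ (∅ : Set K)) u := mem_algebraicClosure_iff.1 h
  rw [IntermediateField.adjoin_empty] at k
  exact IntermediateField.mem_bot.1 (cld_bot u k)

theorem bz_of (B : Bl n Λ N Γ) : Bz n N Γ :=
  ⟨B.ff, B.smp, B.big, ⟨_, B.nef⟩, fun P o => B.bdy P (on_mono res' B.ff B.smp B.sl B.dn o)⟩

/-- two generic points -/
theorem first (z : Bz n N Γ) (c0 : 0 < c) (v : ((n : ℝ) + 2) ^ (n + 1) < vol (n + 1) (c • N))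
    (e1 : c + c < a) (hF : ∀ u ∈ F, u ∈ range (algebraMap ℂ K)) : EM n N Γ F a n := by
  obtain ⟨K', _, _, φ, x, e, hK', p⟩ := Gm.gen_pt n K z.ff
  obtain ⟨Γ', h⟩ := exists_xt e z.ff Γ
  have s := z.smp.smul c0.le
  obtain ⟨G, r, m⟩ := p.mult _ s.nef _ (by positivity) v
  obtain ⟨K₁, _, _, ψ, x₁, e₁, hK₁, p₁⟩ := Gm.gen_pt n K' hK'
  obtain ⟨Γ₁, h₁⟩ := exists_xt e₁ hK' Γ'
  obtain ⟨G₁, r₁, m₁⟩ := p₁.mult _ (h.ok.smp s).nef _ (by positivity) (v.trans_eq (h.vol s.car).symm)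
  rw [pb_smul] at r r₁
  rw [pb_smul] at r₁
  have z' := z.up h
  have h₂ := h₁.add G
  have z₂ := (z'.add r.1 (smp_of_rep r)).up h₂
  obtain ⟨Δ, P, t, cl, -⟩ := lo_of (ε := a - c) z₂ (fun Q k => neg_one_lt_zero.trans_le
    (h₂.trv (trv_cle h₂ z'.big p₁.triv k))) c0.le (by linarith) r₁.1 (smp_of_rep r₁) (by
      rw [dsc_add, h₂.gen p₁]; linarith)
  have tP : Trv ψ P := trv_cle h₂ z'.big p₁.triv cl
  have r₂ := h₁.ok.rep r
  rw [pb_smul] at r₂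
  have t₂ := (t.congr (Γ₂ := Γ₁) fun Q k => by
    rw [Pi.add_apply, (trv_cle h₂ z'.big tP k).pb, add_zero]).add hK₁ z₂.smp r₂.1 c0
      (smp_of_rep r₂) (tP.pb G)
  rw [sub_add_cancel, ← h₁.ok.pb_comp] at t₂
  obtain ⟨R, l, d⟩ := h₂.up x
  refine ⟨K₁, _, _, ψ.comp φ, Γ₁, _, P, R, ⟨h.comp h₁, t₂, tP.comp φ, l.comp_trv p.triv, ?_,
    fun u hu => ?_⟩, dim_le (Bm.ff_κ hK₁ P) _⟩
  · rw [add_comm Δ, ← add_assoc, dsc_add, d, dsc_add, h.gen p]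
    linarith [t.nn R, show (0 : BD K₁) R = 0 from rfl]
  · obtain ⟨c, rfl⟩ := hF u hu
    obtain ⟨d, hd⟩ := (h.comp h₁).cst c
    exact ⟨d, by rw [hd, sub_self]; exact mx_zero, by rw [hd, sub_self]; exact mx_zero⟩

/-- a tiger in the generic fibre of a rational map -/
theorem ladder (hB : PBU) (z : Bz n N Γ) {k κ : ℕ} {g : K} {y : Fin (k + 1) → K} (kn : k < n)
    (g0 : g ≠ 0) (sg : Sec ((κ : ℝ) • N) g) (sy : ∀ i, Sec ((κ : ℝ) • N) (g * y i))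
    (hy : AlgebraicIndependent ℂ y) (e1 : ((k : ℝ) + 1) * κ < a) :
    ∃ (K' : Type) (_ : Field K') (_ : Algebra ℂ K') (φ : K →+* K') (Γ' Δ : BD K') (P : Pl K'),
      Xt n φ Γ Γ' ∧ Tg n (pb φ N) Γ' Δ a P ∧ Trv φ P ∧ Ag φ (Gm.Cl (range y)) P P ∧
        cd (pb φ N) P ≠ 0 := by
  classical
  obtain ⟨K', _, _, φ, j, e, hc⟩ := Gm.exists_ext z.ff
  obtain ⟨Γ', h⟩ := exists_xt e z.ff Γ
  obtain ⟨x, bu, dx, w⟩ := hB K K' φ n k Γ Γ' j y h hc hy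
  obtain ⟨w, hw⟩ := w kn
  have z' := z.up h
  let s : Finset K' := Finset.univ.image fun i => φ g * tt φ j (y i)
  have g1 := (map_ne_zero φ).2 g0
  have t0 : tt φ j (y 0) ≠ 0 := fun e => by simpa [e] using bu.pos
  have ms : ∀ i, φ g * tt φ j (y i) ∈ s := fun i => Finset.mem_image_of_mem _ (Finset.mem_univ i)
  have od : ∀ {Q : Pl K'} {u}, Trv φ Q → u ≠ 0 → Q.ord (φ g * u) = Q.ord u := fun t u0 => by
    rw [P297Z.Pl.ord_mul _ g1 u0, t.ord, zero_add]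
  have f0 : mx s ≤ (κ : ℝ) • pb φ N := mx_le ⟨_, ms 0, mul_ne_zero g1 t0⟩ fun f hf => by
    obtain ⟨i, -, rfl⟩ := Finset.mem_image.1 hf
    have := (h.ok.sec (sy i)).add ((h.ok.sec sg).smul (-j (y i)))
    rwa [pb_smul, map_mul, neg_smul, Algebra.smul_def (j (y i)), mul_comm _ (φ g), ← sub_eq_add_neg,
      ← mul_sub] at this
  have vx : x.mz s = -x.ord (tt φ j (y 0)) := by
    rw [← od bu.trv t0]
    refine Pb.mz_eq x (ms 0) (mul_ne_zero g1 t0) fun f hf f0 => ?_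
    obtain ⟨i, -, rfl⟩ := Finset.mem_image.1 hf
    have i0 := right_ne_zero_of_mul f0
    rw [od bu.trv t0, od bu.trv i0]
    induction i using Fin.cases with
    | zero => exact le_rfl
    | succ i =>
      have := P297Z.Pl.ord_nonneg_of_mem _ (bu.mem i)
      rwa [P297Z.Pl.ord_div _ i0 t0, sub_nonneg] at this
  have k0 : (0 : ℝ) < k + 1 := by positivity
  obtain ⟨Δ, P, t, cl, p⟩ := lo_of (F := ((k : ℝ) + 1) • ((κ : ℝ) • pb φ N - mx s)) z'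
    (fun Q q => neg_one_lt_zero.trans_le (h.trv (trv_cle h z.big bu.trv q))) (by positivity) e1
    (smul_nonneg k0.le (sub_nonneg.2 f0)) (by
      rw [mul_smul, ← smul_sub, sub_sub_cancel]; exact (smp_mx s).smul k0.le) (by
      rw [dsc_add_smul, Pi.sub_apply, Pi.smul_apply, bu.trv.pb, mx_apply, vx]
      push_cast
      rw [smul_zero]
      linarith)
  have tP := trv_cle h z.big bu.trv cl
  have rd : ∀ u c, Mx P (φ u - algebraMap ℂ K' c) ↔ algebraMap ℂ P.κ c = Gx.hr tP u :=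
    fun u c => by
      rw [← rd_eq_zero (sub_mem (tP u) (P.con c)), rd_sub (tP u) (P.con c), rd_const,
        Gx.hr_apply tP, sub_eq_zero, eq_comm]
  refine ⟨K', _, _, φ, Γ', Δ, P, h, t, tP, fun u hu => ?_, fun e0 => hw ?_⟩
  · obtain ⟨c, hc⟩ := cl_empty (Gm.cl_map (Pb.hor_cst (Gx.hr_apply tP) h.cst) (T := ∅) (by
      rintro _ ⟨i, rfl⟩
      refine Gm.cl_cst ⟨j (y i), (rd _ _).1 (mx_iff.2 (or_iff_not_imp_left.2 fun i0 => ?_))⟩ _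
      have := Pb.le_mz P (ms i) (mul_ne_zero g1 i0)
      rw [od (u := tt φ j (y i)) tP i0] at this
      rw [Pi.smul_apply, Pi.sub_apply, Pi.smul_apply, tP.pb, smul_zero, zero_sub, mx_apply,
        smul_eq_mul] at p
      have := Int.cast_lt_zero.1 (neg_pos.1 ((mul_pos_iff_of_pos_left k0).1 p))
      change 0 < P.ord (tt φ j (y i))
      omega) hu)
    exact ⟨c, (rd u c).2 hc, (rd u c).2 hc⟩
  · have hx := Bm.ff_κ h.ff' x
    have := (fld_eq_bot_iff hx).2 (Nat.le_zero.1 ((On.cle_cd h.ff' z'.smp cl).1.trans_eq e0))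
    rw [h.cst.res_trv res' h.ff h.ff' bu.trv (Gx.hr_apply bu.trv) z.smp.car] at this
    rw [← Gx.hr_apply bu.trv]
    exact IntermediateField.mem_bot.1 (this ▸ (Pb.hor_ok (Gx.hr_apply bu.trv) h.cst h.ff
      h.ff').mem_fld z.smp.eff (z.big.fld_eq ▸ IntermediateField.mem_top))

section cut

variable (hB : PBU) (hM : MULT) (hA : ADJ) (z : Bz n N Γ)

include hB hM hA z

/-- a divisor which is singular at the generic point of the centre of a tiger -/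
theorem pre (h : Xt n φ Γ Γ') (t : Tg n (pb φ N) Γ' Δ a P) (tP : Trv φ P) (f : Fat n N Γ a c)
    (c0 : 0 < c) (e : cd (pb φ N) P ≠ 0) :
    ∃ (K₁ : Type) (_ : Field K₁) (_ : Algebra ℂ K₁) (ψ : K' →+* K₁) (Γ₁ : BD K₁) (P₁ : Pl K₁)
      (x : Pl P₁.κ) (D : BD K₁), Lies ψ P₁ P ∧ Xt n ψ Γ' Γ₁ ∧
      Tg n (pb (ψ.comp φ) N) Γ₁ (pb ψ Δ) a P₁ ∧ cd (pb (ψ.comp φ) N) P₁ = cd (pb φ N) P ∧
      Rep ((c + c) • pb (ψ.comp φ) N) D ∧ D P₁ = 0 ∧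
      dsc n (adj n P₁ (Γ₁ + pb ψ Δ) + res P₁ D) x < -1 ∧
      (∀ R, Cq (pb (ψ.comp φ) N) P₁ x R → Trv (ψ.comp φ) R) ∧
      ∀ Q, Ti.Cu (pb (ψ.comp φ) N) P₁ x Q → -1 < dsc n (adj n P₁ (Γ₁ + pb ψ Δ)) Q := by
  have hK := h.ff'
  have z' := z.up h
  have hκ := Bm.ff_κ hK P
  obtain ⟨k, ek⟩ := Nat.exists_eq_succ_of_ne_zero e
  have hL : FF (fld (res P (pb φ N))) (k + 1) := by
    have := ff_fld hκ (res P (pb φ N))
    rwa [show dim (res P (pb φ N)) = k + 1 from ek] at this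
  have kn : k < n := (show k + 1 = dim (res P (pb φ N)) from ek.symm).trans_le (dim_le hκ _)
  obtain ⟨h₀, s0, b0, p0⟩ := fld_down hκ (res_smp hK P z'.smp)
  have v := f K' φ Γ' Δ P k h₀ kn h t tP hL ⟨s0, b0, p0⟩
  obtain ⟨m, rfl⟩ : ∃ m, n = m + 1 := ⟨n - 1, by omega⟩
  obtain ⟨-, -, -, -, j, -⟩ := Gm.exists_ext hκ
  obtain ⟨K₁, _, _, ψ, e₁, hj⟩ := Pb.exists_ext_of K' (j.comp (algebraMap ℂ _))
  obtain ⟨P₁, l, -, bκ⟩ := e₁.above hK P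
  have hc : Hc l.κ j := fun c => by
    rw [← Gx.rd_cst P, l.isRd _ (P.con c), hj, Gx.rd_cst, Gx.rd_cst]
    rfl
  obtain ⟨Γ₁, h₁⟩ := exists_xt e₁ hK Γ'
  obtain ⟨X, hX⟩ := exists_xt bκ hκ 0
  obtain ⟨y, hy, -⟩ := id hL
  obtain ⟨x, bu, dx, -⟩ := hB _ _ l.κ m k 0 X j (fun i => (y i : P.κ)) hX hc
    (hy.map' (f := (fld (res P (pb φ N))).val) Subtype.val_injective)
  obtain ⟨G, rG, mG⟩ := hM _ _ l.κ (m + 1) k _ j y x (c • h₀) _ bκ hκ hc hL hy bu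
    (s0.smul c0.le).nef (by positivity) v
  have t₁ := t.up h₁ l bκ z'.smp
  have z₁ := z'.up h₁
  obtain ⟨D, x1, x2, x3⟩ := (t₁.su z₁).lift (t₁.hor z₁) (z₁.smp.smul c0.le)
    ((Dsc.refl z₁.smp).smul _) (rG.congr (by
      rw [res_smul h₁.ff' P₁ c z₁.smp.car, pb_smul, pb_smul, ← smul_sub]
      have := add_mem (h₁.res_prn l z'.smp.car) (hX.ok.prn p0)
      rw [pb_sub, sub_add_sub_cancel] at this
      exact Submodule.smul_mem _ c this)) c0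
  rw [← add_smul] at x1
  refine ⟨K₁, _, _, ψ, Γ₁, P₁, x, D, l, h₁, ?_⟩
  rw [h₁.ok.pb_comp]
  refine ⟨t₁, h₁.cd_eq l bκ z'.smp.car, x1, x2, ?_, fun R cq => Ti.cq_trv h₁.cst hK h₁.ff' l l.isRd
    z'.smp.car (by simp) bu.trv h.ok z.big (by simp) tP cq, fun Q cu => ?_⟩
  · have i := hA _ _ ψ m _ _ P P₁ l X x (h₁.add Δ) (add_mem z'.car t.car) t.lc hX bu.trv
    have e0 : (0 : ℝ) < x.ord (tt l.κ j (y 0)) := Int.cast_pos.2 bu.pos
    have e1 : (k : ℝ) ≤ m := by exact_mod_cast Nat.lt_succ_iff.1 kn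
    have := x3 x
    rw [dsc_add]
    push_cast at mG
    nlinarith
  · obtain ⟨R, ne, -, r, d⟩ := t₁.fol0 z₁ Q
    exact d ▸ t.lift_gt h₁ l bκ ne fun G g e => Ti.cq_zero h₁.cst hK h₁.ff' l l.isRd z'.smp.car
      (by simp) bu.trv (fun G g e p => cu G g e (p.trans_le (r G g e))) g e

/-- marking a tiger -/
theorem mark (h : Xt n φ Γ Γ') (t : Tg n (pb φ N) Γ' Δ a P) (tP : Trv φ P) (g : Ag φ F P P)
    (e : cd (pb φ N) P ≠ 0) (f : Fat n N Γ a c) (c0 : 0 < c) (e1 : a + (c + c) ≤ a') :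
    EM n N Γ F a' n := by
  obtain ⟨K₁, _, _, ψ, Γ₁, P₁, x, D, l, h₁, t₁, -, r, o, lt, tr, -⟩ := pre hB hM hA z h t tP f c0 e
  have h₂ := h.comp h₁
  have z₁ := z.up h₂
  obtain ⟨R, -, cl, q, d⟩ := t₁.fol z₁ x D (r.car (Submodule.smul_mem _ _ z₁.smp.car)) o
  have tR := tr R fun G r z p => p.trans_le (q G r z)
  refine ⟨K₁, _, _, ψ.comp φ, Γ₁, _, P₁, R, ⟨h₂, (t₁.add h₂.ff' z₁.smp r.1 (add_pos c0 c0)
    (smp_of_rep r) o).mono h₂.ff' z₁.smp e1, l.comp_trv tP, tR, by rwa [← add_assoc, ← d],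
    fun u hu => ?_⟩, dim_le (Bm.ff_κ h₂.ff' P₁) _⟩
  obtain ⟨c, x, -⟩ := g.up h₁.cst l l u hu
  exact ⟨c, x, mx_of_cle h₂.ok z.big tR cl x⟩

/-- cutting a marked tiger -/
theorem cuts {j : ℕ} (e : EM n N Γ F a (j + 1)) (f : Fat n N Γ a c) (c0 : 0 < c)
    (e1 : a + (c + c) < a') : EM n N Γ F a' j := by
  obtain ⟨K', _, _, φ, Γ', Δ, P, R, ⟨h, t, tP, tR, lt, g⟩, e⟩ := e
  by_cases o : cd (pb φ N) P = 0
  · exact ⟨K', _, _, φ, Γ', Δ, P, R, ⟨h, t.mono h.ff' (z.up h).smp (by linarith), tP, tR, lt, g⟩,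
      o.trans_le j.zero_le⟩
  obtain ⟨K₁, _, _, ψ, Γ₁, P₁, x, D, l, h₁, t₁, ce, r, o, lt₁, tr, hk⟩ :=
    pre hB hM hA z h t tP f c0 o
  have h₂ := h.comp h₁
  obtain ⟨R₁, l', d⟩ := (h₁.add Δ).up R
  obtain ⟨Δ', P', t', cq, cl, cd', lt'⟩ := cut (z.up h₂) t₁ (add_pos c0 c0) e1 r.1 (smp_of_rep r) o
    (fun Q q => neg_one_lt_zero.trans_le (h₂.trv (tr Q q))) hk lt₁.le (d.trans_lt lt)
  refine ⟨K₁, _, _, ψ.comp φ, Γ₁, Δ', P', R₁, ⟨h₂, t', tr P' cq, l'.comp_trv tR, lt',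
    fun u hu => ?_⟩, by omega⟩
  obtain ⟨c, x, y⟩ := g.up h₁.cst l l' u hu
  exact ⟨c, mx_of_cle h₂.ok z.big (tr P' cq) cl x, y⟩

end cut

/-- one step is possible between the levels `a` and `b` -/
structure St (n : ℕ) (N Γ : BD K) (a b : ℝ) : Prop where
  nn : 0 ≤ a
  le : ((n : ℝ) + 5) * (a + 4) ≤ b
  fat : Fat n N Γ a (b / 4)
  vol : ((n : ℝ) + 2) ^ (n + 1) < vol (n + 1) ((b / 4) • N)

/-- a chain of levels -/
def Rc (n : ℕ) (N Γ : BD K) : ℕ → ℝ → ℝ → Prop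
  | 0, a, a' => a ≤ a'
  | L + 1, a, a' => ∃ b, St n N Γ a b ∧ Rc n N Γ L b a'

/-- `r` independent functions are quotients of sections of a multiple of `N` -/
def Lad (N : BD K) (r : ℕ) (b : ℝ) : Prop := ∃ (κ : ℕ) (g : K) (y : Fin r → K), r ≤ κ ∧
  (κ : ℝ) ≤ b ∧ g ≠ 0 ∧ Sec ((κ : ℝ) • N) g ∧ (∀ i, Sec ((κ : ℝ) • N) (g * y i)) ∧
  AlgebraicIndependent ℂ y

theorem St.five (s : St n N Γ a b) : 5 * a + 20 ≤ b := by
  nlinarith [s.le, s.nn, mul_nonneg n.cast_nonneg (show 0 ≤ a + 4 by linarith [s.nn])]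

section rounds

variable (hB : PBU) (hM : MULT) (hA : ADJ) (hS : SEP) (hG : GFB) (B : Bl n Λ N Γ) {L : ℕ}

include hB hM hA B

theorem cuts_all (j : ℕ) : ∀ a, EM n N Γ F a j → Rc n N Γ (L + j) a a' →
    ∃ b, a ≤ b ∧ EM n N Γ F b 0 ∧ Rc n N Γ L b a' := by
  induction j with
  | zero => exact fun a e r => ⟨a, le_rfl, e, r⟩
  | succ j ih =>
    rintro a e ⟨b, s, r⟩
    have := s.five
    have := s.nn
    obtain ⟨b', x, y⟩ := ih b (cuts hB hM hA (bz_of B) e s.fat (by linarith) (by linarith)) r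
    exact ⟨b', by linarith, y⟩

include hS

theorem round {r : ℕ} (l : Lad N r a) (rn : r ≤ n) (h : Rc n N Γ (L + (n + 3)) a a') :
    ∃ b, Lad N (r + 1) b ∧ Rc n N Γ L b a' := by
  obtain ⟨κ, g, y, rκ, κa, g0, sg, sy, hy⟩ := l
  rw [show L + (n + 3) = L + 1 + n + 1 + 1 by omega] at h
  obtain ⟨a₁, s₁, a₂, s₂, h⟩ := h
  have := s₁.five
  have := s₂.five
  have := s₁.nn
  have e : EM n N Γ (Gm.Cl (range y)) a₂ n := by
    obtain _ | k := r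
    · exact first (bz_of B) (by linarith) s₂.vol (by linarith) fun u hu =>
        cl_empty (range_eq_empty y ▸ hu)
    have : (k : ℝ) + 1 ≤ n := by exact_mod_cast rn
    obtain ⟨K', _, _, φ, Γ', Δ, P, h, t, tP, g, e⟩ := ladder (a := a₁) hB (bz_of B) rn g0 sg sy hy
      (by nlinarith [s₁.le, κ.cast_nonneg (α := ℝ), n.cast_nonneg (α := ℝ)])
    exact mark hB hM hA (bz_of B) h t tP g e s₂.fat (by linarith) (by linarith)
  obtain ⟨b₀, e₀, ⟨K', _, _, φ, Γ', Δ, P, R, m, o⟩, b₁, s, h⟩ := cuts_all hB hM hA B n a₂ e h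
  have := s.five
  have f1 := Nat.floor_le s.nn
  have f2 := Nat.lt_floor_add_one b₀
  obtain ⟨u, w, su, sw, ne⟩ := hS K K' φ n (⌊b₀⌋₊ + 3) Λ N Γ _ Γ' Δ b₀ P R B m (Nat.le_zero.1 o)
    (by push_cast; linarith)
  have w0 : w ≠ 0 := fun e => ne (by rw [e, div_zero]; exact zero_mem _)
  have mul : ∀ {f f'}, Sec ((κ : ℝ) • N) f → Sec (((⌊b₀⌋₊ + 3 : ℕ) : ℝ) • N) f' →
      Sec (((κ + (⌊b₀⌋₊ + 3) : ℕ) : ℝ) • N) (f * f') := fun x y => by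
    rw [Nat.cast_add, add_smul]; exact x.mul y
  refine ⟨b₁, ⟨κ + (⌊b₀⌋₊ + 3), g * w, Fin.cons (u / w) y, by omega, by push_cast; linarith,
    mul_ne_zero g0 w0, mul sg sw, fun i => ?_, ?_⟩, h⟩
  · induction i using Fin.cases with
    | zero => rw [Fin.cons_zero, mul_assoc, mul_div_cancel₀ _ w0]; exact mul sg su
    | succ i => rw [Fin.cons_succ, mul_right_comm]; exact mul (sy i) sw
  · refine (algebraicIndependent_equiv' (finSuccEquiv r) ?_).2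
      ((hy.option_iff_transcendental (u / w)).2 fun k => ne (Gm.mem_Cl.2 k))
    funext i
    induction i using Fin.cases <;> simp

theorem rounds (i : ℕ) : ∀ r a, r + i = n + 1 → Lad N r a → Rc n N Γ (L + i * (n + 3)) a a' →
    ∃ b, Lad N (n + 1) b ∧ Rc n N Γ L b a' := by
  induction i with
  | zero => exact fun r a e l h => ⟨a, e ▸ l, by simpa using h⟩
  | succ i ih =>
    intro r a e l h
    rw [Nat.succ_mul, ← add_assoc] at h
    obtain ⟨b, x, y⟩ := round hB hM hA hS B l (by omega) h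
    exact ih (r + 1) b (by omega) x y

include hG

theorem final (a0 : 0 ≤ a) (h : Rc n N Γ (1 + (n + 1) * (n + 3)) a a') :
    ∃ m : ℕ, 0 < m ∧ (m : ℝ) ≤ a' ∧ Bir ((m : ℝ) • N) := by
  obtain ⟨b, ⟨κ, g, y, rκ, κa, g0, sg, sy, hy⟩, b₁, s, e⟩ := rounds hB hM hA hS B (n + 1) 0 a
    (zero_add _) ⟨0, 1, Fin.elim0, le_rfl, by simpa using a0, one_ne_zero, .inr (by simp),
      fun i => i.elim0, algebraicIndependent_empty_type⟩ h
  refine ⟨(n + 5) * κ, Nat.mul_pos (by omega) (by omega), le_trans ?_ e,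
    hG n K B.ff Λ N Γ κ _ g y B g0 sg sy hy (Dvd.intro_left _ rfl) (by nlinarith)⟩
  push_cast
  nlinarith [s.le, n.cast_nonneg (α := ℝ)]

end rounds

theorem exists_bir (hG : GFB) (B : Bl n Λ N Γ) (q : CarQ N) :
    ∃ m : ℕ, 0 < m ∧ Bir ((m : ℝ) • N) := by
  obtain ⟨κ, s, k0, -, e⟩ := B.smp.exists_nsmul q.rat
  obtain ⟨g, f, g0, sg, sf, hy⟩ := Vk.basis_of B.ff (A := (· ∈ s)) fun x => by
    have := (big_mx_iff B.ff).1 (e ▸ B.big.smul (Nat.cast_pos.2 k0)) x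
    rwa [rts, show {a : K | ∃ f ∈ s, ∃ g ∈ s, a = f / g} = {x | ∃ f g, f ∈ s ∧ g ∈ s ∧ x = f / g}
      by simp only [exists_and_left]] at this
  exact ⟨(n + 5) * κ, Nat.mul_pos (by omega) k0, hG n K B.ff Λ N Γ κ _ g _ B g0
    (e ▸ sec_of_mem sg) (fun i => by rw [mul_div_cancel₀ _ g0, e]; exact sec_of_mem (sf i)) hy
    (Dvd.intro_left _ rfl) (by nlinarith)⟩

section num

variable {ε : ℝ} {q : ℕ} (hk : KN0 n ε q ∧ ∀ k < n, KN1 n k ε q)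

include hk

theorem step {θ : ℝ} (t0 : 0 < θ) : ∃ (η : ℝ) (m₀ : ℕ), 0 < η ∧ ∀ (K : Type) [Field K]
    [Algebra ℂ K] (Λ N Γ E : BD K) (m : ℕ), Dn n ε q Λ N Γ → Bir ((m : ℝ) • N) → m₀ < m →
    (∀ a, a ≤ η * m → Fat n N (Γ + E) a (θ * m)) ∧
      ((n : ℝ) + 2) ^ (n + 1) < vol (n + 1) ((θ * m) • N) := by
  obtain ⟨u, u1, u2⟩ : ∃ u : ℝ, 1 ≤ u ∧ (n : ℝ) + 2 ≤ θ * u :=
    ⟨max 1 ((n + 2) / θ), le_max_left _ _, (div_le_iff₀' t0).1 (le_max_right _ _)⟩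
  have num : ∀ {k : ℕ} {A : Type} [Field A] [Algebra ℂ A] {h : BD A} {m : ℕ}, k ≤ n →
      FF A (k + 1) → Smp h → ¬ vol (k + 1) ((m : ℝ) • h) ≤ u ^ (n + 1) →
      ((n : ℝ) + 2) ^ (k + 1) < vol (k + 1) ((θ * m) • h) := fun {k A _ _ h m} e f s v => by
    rw [mul_smul, (In.hy.row _ A f).vol_smul θ (s.smul m.cast_nonneg).car]
    refine (pow_le_pow_left₀ (by positivity) u2 _).trans_lt ?_
    rw [mul_pow]
    exact mul_lt_mul_of_pos_left ((pow_le_pow_right₀ u1 (by omega)).trans_lt (not_le.1 v))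
      (pow_pos t0 _)
  obtain ⟨m₀, H₀⟩ := hk.1 (u ^ (n + 1))
  choose η m₁ hη H using fun k : Fin n => hk.2 k k.2 (u ^ (n + 1))
  obtain ⟨η₀, h1, h0⟩ := (((eventually_all.2 fun k : Fin n => gt_mem_nhds (hη k) :
    ∀ᶠ t in 𝓝 (0 : ℝ), ∀ k, t < η k).filter_mono nhdsWithin_le_nhds).and
    (self_mem_nhdsWithin (s := Ioi (0 : ℝ)))).exists
  refine ⟨η₀, m₀ + ∑ k, m₁ k, h0, fun K _ _ Λ N Γ E m D b lt => ⟨fun a ha K' _ _ φ Γ' Δ P k h kn x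
    t tP f p => num kn.le f p.smp fun v => ?_, num le_rfl D.ff D.sn fun v => ?_⟩⟩
  · have x' := x.add (-E)
    rw [add_neg_cancel_right] at x'
    have := H ⟨k, kn⟩ K K' φ Λ N Γ _ Δ a P h m D x' (t.congr fun Q c => by
      rw [Pi.add_apply, (trv_cle x D.bn tP c).pb, add_zero]) tP f p b
      (ha.trans (mul_le_mul_of_nonneg_right (h1 _).le m.cast_nonneg)) v
    have := Finset.single_le_sum (f := m₁) (fun _ _ => Nat.zero_le _) (Finset.mem_univ ⟨k, kn⟩)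
    omega
  · have := H₀ K Λ N Γ m D b v
    omega

theorem chain (L : ℕ) {θ : ℝ} (t0 : 0 < θ) : ∃ (θ' : ℝ) (m₀ : ℕ), 0 < θ' ∧ ∀ (K : Type) [Field K]
    [Algebra ℂ K] (Λ N Γ E : BD K) (m : ℕ), Dn n ε q Λ N Γ → Bir ((m : ℝ) • N) → m₀ < m →
    Rc n N (Γ + E) L (θ' * m) (θ * m) := by
  induction L with
  | zero => exact ⟨θ, 0, t0, fun _ _ _ _ _ _ _ _ _ _ _ => le_rfl⟩
  | succ L ih =>
    obtain ⟨τ, m₀, τ0, H⟩ := ih
    obtain ⟨η, m₁, η0, H₁⟩ := step hk (θ := τ / 4) (by positivity)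
    obtain ⟨m₂, e₂⟩ := exists_nat_ge (8 * ((n : ℝ) + 5) / τ)
    have p : 0 < min η (τ / (2 * (n + 5))) := lt_min η0 (by positivity)
    refine ⟨_, m₀ + m₁ + m₂, p, fun K _ _ Λ N Γ E m D b lt => ?_⟩
    obtain ⟨x, y⟩ := H₁ K Λ N Γ E m D b (by omega)
    rw [show τ / 4 * m = τ * m / 4 by ring] at x y
    refine ⟨τ * m, ⟨by positivity, ?_, x _ (mul_le_mul_of_nonneg_right (min_le_left _ _)
      m.cast_nonneg), y⟩, H K Λ N Γ E m D b (by omega)⟩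
    have i := (le_div_iff₀ (by positivity)).1 (min_le_right η (τ / (2 * (n + 5))))
    have j := (div_le_iff₀ τ0).1 (e₂.trans (Nat.cast_le.2 (show m₂ ≤ m by omega)))
    nlinarith [mul_le_mul_of_nonneg_right i m.cast_nonneg]

end num

/-- **CUTN** from the leaves -/
theorem cutn_of (hB : PBU) (hM : MULT) (hA : ADJ) (hS : SEP) (hG : GFB) : CUTN :=
  fun n hk ε q e0 q0 => by
  classical
  obtain ⟨θ, m₀, t0, H⟩ := chain (hk ε q e0 q0) (1 + (n + 1) * (n + 3)) one_half_pos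
  refine ⟨m₀.factorial, m₀.factorial_pos, fun K _ _ hK Λ Γ N pr elc cf dn sn bn car int psm psp => ?_⟩
  obtain ⟨E, r⟩ := (psm.add_big bn).eff
  have B : Bl n Λ N (Γ + E) := ⟨hK, pr.smp, pr.big, dn, sn, bn, .of_prn (by
    rw [show (2 : ℝ) • N - (Γ + E) = -(E - (N - Γ + N)) by module]; exact neg_mem r.2),
    fun P o => by rw [dsc_add]; exact sub_nonpos.2 ((pr.bdy P o).trans (r.1 P)), int⟩
  have ex := exists_bir hG B car
  obtain ⟨m0, b⟩ := Nat.find_spec ex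
  have le : Nat.find ex ≤ m₀ := not_lt.1 fun lt => by
    obtain ⟨m, p, l, k⟩ := final hB hM hA hS hG B (by positivity) (H K Λ N Γ E _
      ⟨hK, pr, elc, cf, dn, sn, bn, car, int, psm, psp⟩ b lt)
    have : (0 : ℝ) < Nat.find ex := Nat.cast_pos.2 m0
    exact Nat.find_min ex (Nat.cast_lt.1 (show (m : ℝ) < Nat.find ex by linarith)) ⟨p, k⟩
  obtain ⟨d, hd⟩ := Nat.dvd_factorial m0 le
  obtain ⟨d, rfl⟩ := Nat.exists_eq_succ_of_ne_zero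
    (show d ≠ 0 from fun e => m₀.factorial_ne_zero (by rw [hd, e, mul_zero]))
  exact hd ▸ bir_mul b

theorem eb_of (h : Lg.EBN n) : EB n := fun ε q e0 q0 =>
  (h ε q e0 q0).imp fun _ ⟨m0, H⟩ => ⟨m0, fun K _ _ hK Λ Γ N pr elc cf am =>
    H K hK Λ Γ N pr elc cf am.dsc am.smp (am.big_iff.1 pr.big)⟩

end Vale.Agent.P283B.Eb
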