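import Vale.Agent.P283B.Spec
import Vale.Agent.P287D.Pb.Bas

/-!
# P283B, block EB: tigers (definitions and the interface between the two halves)
-/

set_option linter.unusedVariables false

open Set

noncomputable section

namespace Vale.Agent.P283B.Eb

open P287D

section defs

variable {K K' : Type} [Field K] [Algebra ℂ K] [Field K'] [Algebra ℂ K']

/-- the data of `EB` on the variety `V N` -/
structure Dt (n : ℕ) (ε : ℝ) (q : ℕ) (N Γ : BD K) : Prop where
  ff : FF K (n + 1)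
  pr : Pr n N Γ
  elc : ELc n ε Γ All
  cf : Cf n N Γ (Frq q) All
  car : CarQ N
  int : ZOn n N N
  psm : Psef (N - Γ)
  psp : Psef (N + Γ)

/-- `Γ'` is the extension of the constants of `Γ` -/
structure Xt (n : ℕ) (φ : K →+* K') (Γ : BD K) (Γ' : BD K') : Prop where
  ext : Ext ⊥ φ
  ff : FF K (n + 1)
  ff' : FF K' (n + 1)
  eq : ∃ f, Tr n n φ 0 (fun _ => True) f ∧ Γ' = pb φ Γ - dv f

/-- a tiger of level `a`: `P` is the only place through its centre on `V N` at which `Γ + Δ` is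
not klt -/
structure Tg (n : ℕ) (N Γ Δ : BD K) (a : ℝ) (P : Pl K) : Prop where
  pos : 0 < a
  car : Δ ∈ Car K
  nn : 0 ≤ Δ
  smp : Smp (a • N - Δ)
  big : Big (res P (a • N - Δ))
  lc : dsc (n + 1) (Γ + Δ) P = -1
  plt : ∀ Q, Q ≠ P → CLe N P Q → -1 < dsc (n + 1) (Γ + Δ) Q

/-- `h` is the polarisation of the centre of `P` on `V N` -/
structure Po (N : BD K) (P : Pl K) (h : BD (fld (res P N))) : Prop where
  smp : Smp h
  big : Big h
  prn : res P N - pb (inc (fld (res P N))) h ∈ Prn P.κ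

end defs

/-- **KL0**: a birational multiple of bounded volume is bounded -/
def KL0 (n : ℕ) (ε : ℝ) (q : ℕ) : Prop := ∀ v : ℝ, ∃ m₀ : ℕ, ∀ (K : Type) [Field K] [Algebra ℂ K]
  (N Γ : BD K) (m : ℕ), Dt n ε q N Γ → Bir ((m : ℝ) • N) → vol (n + 1) ((m : ℝ) • N) ≤ v → m ≤ m₀

/-- **KL1**: the same for the volume of the centre (of dimension `k + 1`) of a generic tiger of
small level -/
def KL1 (n k : ℕ) (ε : ℝ) (q : ℕ) : Prop := ∀ v : ℝ, ∃ (η : ℝ) (m₀ : ℕ), 0 < η ∧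
  ForH fun K K' _ _ _ _ φ => ∀ (N Γ : BD K) (Γ' Δ : BD K') (a : ℝ) (P : Pl K')
    (h : BD (fld (res P (pb φ N)))) (m : ℕ), Dt n ε q N Γ → Xt n φ Γ Γ' →
    Tg n (pb φ N) Γ' Δ a P → Trv φ P → FF (fld (res P (pb φ N))) (k + 1) → Po (pb φ N) P h →
    Bir ((m : ℝ) • N) → a ≤ η * m → vol (k + 1) ((m : ℝ) • h) ≤ v → m ≤ m₀

/-- the first half (`k < n` automatically) -/
def KL (n : ℕ) : Prop := ∀ (ε : ℝ) (q : ℕ), 0 < ε → 0 < q → KL0 n ε q ∧ ∀ k < n, KL1 n k ε q

/-- **CUT**: the second half -/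
def EBCUT : Prop := ∀ n, KL n → EB n

end Vale.Agent.P283B.Eb
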