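import Vale.Agent.P283B.Spec
import Vale.Agent.P287D.Va.Cone

/-!
# P283B, block EB: weak pairs (what a tiger induces on its centre) and the limit statement
-/

open Set

noncomputable section

namespace Vale.Agent.P283B.Eb

open P287D

/-- a weak pair on `V Λ`: `Γ` is sub-`ε`-lc, and `Z`, a member of `a N`, makes the boundary
effective and as large as the indices of `N` and `q Γ` require -/
structure WK {K : Type} [Field K] [Algebra ℂ K] (k : ℕ) (ε : ℝ) (q : ℕ) (a : ℝ)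
    (Λ Γ N Z : BD K) : Prop where
  ff : FF K (k + 1)
  smp : Smp Λ
  big : Big Λ
  dn : Dsc Λ N
  sn : Smp N
  bn : Big N
  qn : CarQ N
  dg : Dsc Λ Γ
  qg : CarQ Γ
  elc : ELc k ε Γ All
  p1 : Psef (N - Γ)
  p2 : Psef (N + Γ)
  rep : Rep (a • N) Z
  ix : ∀ u, On k Λ u → ∀ i j : ℤ, ld (k + 1) (Γ + Z) u ≤ 1 - Int.fract (i * N u + j * (q * Γ u))

/-- **LIM**: a birational multiple of bounded volume of the polarisation of a weak pair is a
bounded multiple -/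
def LIM (k : ℕ) : Prop := ∀ (ε : ℝ) (q : ℕ) (v : ℝ), 0 < ε → 0 < q → ∃ (η : ℝ) (m₀ : ℕ), 0 < η ∧
  ∀ (K : Type) [Field K] [Algebra ℂ K] (a : ℝ) (m : ℕ) (Λ Γ N Z : BD K), WK k ε q a Λ Γ N Z →
    0 ≤ a → a ≤ η * m → Bir ((m : ℝ) • N) → vol (k + 1) ((m : ℝ) • N) ≤ v → m ≤ m₀

/-- an honest pair is a weak pair -/
theorem wk_of {K : Type} [Field K] [Algebra ℂ K] {n q : ℕ} {ε : ℝ} {Λ Γ N : BD K}
    (hK : FF K (n + 1)) (z : IsZ (cn K (n + 1))) (h : Pr n Λ Γ) (e : ELc n ε Γ All)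
    (c : Cf n Λ Γ (Frq q) All) (q0 : 0 < q) (dn : Dsc Λ N) (sn : Smp N) (bn : Big N)
    (qn : CarQ N) (zn : ZOn n Λ N) (p1 : Psef (N - Γ)) (p2 : Psef (N + Γ)) :
    WK n ε q 0 Λ Γ N 0 := by
  refine ⟨hK, h.smp, h.big, dn, sn, bn, qn, h.des, h.rat, e, p1, p2, ⟨le_rfl, by simp⟩,
    fun u o i j => ?_⟩
  obtain ⟨a, ha⟩ := zn u o
  obtain ⟨b, hb⟩ := c u o trivial
  obtain ⟨d, hd⟩ := z u
  have q1 : (q : ℝ) ≠ 0 := by positivity
  have g : (q : ℝ) * Γ u = ((b + q * d : ℤ) : ℝ) := by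
    simp only [ld, dsc, Pi.sub_apply, hd] at hb
    rw [show Γ u = b / q + d by linarith]
    push_cast
    field_simp
  rw [ha, g, ← Int.cast_mul, ← Int.cast_mul, ← Int.cast_add, Int.fract_intCast, add_zero]
  have := h.bdy u o
  simp only [ld]
  linarith

end Vale.Agent.P283B.Eb
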