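import Vale.Agent.P283B.EB.Idx
import Vale.Agent.P283B.EB.St
import Vale.Agent.P283B.EB.Wk
import Vale.Agent.P283B.EB.Wx
import Vale.Agent.P287D.Tg.Mov
import Vale.Agent.P287D.Tg.Up

/-!
# P283B, block EB: the weak pair on the centre of a generic tiger
-/

open Set

noncomputable section

namespace Vale.Agent.P283B.Eb

open P287D P287D.Wp

theorem Adm.min {E : Type} [Field E] [Algebra ℂ E] {n : ℕ} {L : IntermediateField ℂ E}
    {Γ : BD E} {u : Pl L} {t t' : ℝ} (h : Adm n L Γ u t) (h' : Adm n L Γ u t') :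
    Adm n L Γ u (min t t') := (min_choice t t').elim (·.symm ▸ h) (·.symm ▸ h')

theorem fract_fin (x y : ℚ) :
    (range fun p : ℤ × ℤ => Int.fract (p.1 * (x : ℝ) + p.2 * (y : ℝ))).Finite := by
  have d0 : (0 : ℝ) < (x.den * y.den : ℕ) := by positivity
  refine ((finite_Ico (0 : ℤ) (x.den * y.den : ℕ)).image
    fun z : ℤ => (z : ℝ) / (x.den * y.den : ℕ)).subset ?_
  rintro _ ⟨⟨i, j⟩, rfl⟩
  have e : (i : ℝ) * x + j * y = ((i * x.num * y.den + j * y.num * x.den : ℤ) : ℝ) /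
      (x.den * y.den : ℕ) := by
    rw [Rat.cast_def x, Rat.cast_def y]
    push_cast
    field_simp
  have d1 : (0 : ℤ) < (x.den * y.den : ℕ) := by exact_mod_cast d0
  exact ⟨(i * x.num * y.den + j * y.num * x.den) % (x.den * y.den : ℕ),
    ⟨Int.emod_nonneg _ d1.ne', Int.emod_lt_of_pos _ d1⟩, by
    simp only [e, Int.fract_div_intCast_eq_div_intCast_mod]⟩

variable {n k : ℕ} {K K' : Type} [Field K] [Algebra ℂ K] [Field K'] [Algebra ℂ K'] {φ : K →+* K'}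
  {Λ Λ' N Γ β γ : BD K} {Γ' Δ : BD K'} {a : ℝ} {P : Pl K'}

/-- sections after an extension of the constants -/
theorem sec_ext (h : Ext ⊥ φ) (hK : FF K (n + 1)) (hK' : FF K' (n + 1)) (c : β ∈ Car K) {g : K'}
    (hg : Sec (pb φ β) g) : g ∈ Submodule.span ℂ (range φ) := by
  have := Ba.mod.fin n K hK β ((Ba.mod.isb n K hK).1 β c)
  obtain ⟨s, hs⟩ := (Module.Finite.iff_fg (N := H0 β)).1 this
  obtain ⟨θ, i, e, b⟩ := h.iso hK hK' (β := fun _ : Unit => β) (fun _ => c) s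
  obtain ⟨g, rfl⟩ := i.sur g
  have m : g ∈ Submodule.span ℂ (s : Set K) := hs ▸ mem_H0.2 (i.sec.1 (b () ▸ hg))
  clear hg
  induction m using Submodule.span_induction with
  | mem x hx => exact Submodule.subset_span ⟨x, (e x hx).symm⟩
  | zero => exact map_zero θ ▸ zero_mem _
  | add x y _ _ u v => exact map_add θ x y ▸ add_mem u v
  | smul c x _ u => exact i.map_smul c x ▸ Submodule.smul_mem _ _ u

/-- a generic tiger for a pair on `V Λ`, polarised by `N` -/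
structure Ce (n : ℕ) (φ : K →+* K') (Λ N Γ : BD K) (Γ' Δ : BD K') (a : ℝ) (P : Pl K') : Prop where
  xt : Xt n φ Γ Γ'
  tg : Tg n (pb φ N) Γ' Δ a P
  trv : Trv φ P
  smp : Smp Λ
  big : Big Λ
  des : Dsc Λ Γ
  bdy : Bdy n Λ Γ
  dn : Dsc Λ N
  sn : Smp N
  bn : Big N

/-- the function field of the centre -/
abbrev Fc (φ : K →+* K') (N : BD K) (P : Pl K') : IntermediateField ℂ P.κ := fld (res P (pb φ N))

namespace Ce

variable (h : Ce n φ Λ N Γ Γ' Δ a P)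

include h

theorem cst : Cst φ := fun c => h.xt.ext.cst _ (IntermediateField.algebraMap_mem _ c)

theorem ok : Ok φ := h.cst.ok h.xt.ff h.xt.ff'

theorem fκ : FF P.κ n := Gm.ffs.rsd n K' h.xt.ff' P

theorem cρ : Cst (Gx.hr h.trv) := Pb.hor_cst (Gx.hr_apply h.trv) h.cst

theorem res0 (c : β ∈ Car K) : res P (pb φ β) = pb (Gx.hr h.trv) β :=
  h.cst.res_trv res' h.xt.ff h.xt.ff' h.trv (Gx.hr_apply h.trv) c

theorem mem (x : K) : Gx.hr h.trv x ∈ Fc φ N P := by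
  rw [Fc, h.res0 h.sn.car]
  exact (h.cρ.ok h.xt.ff h.fκ).mem_fld h.sn.eff (h.bn.fld_eq ▸ IntermediateField.mem_top)

/-- the generic point of the centre -/
def ψ : K →+* Fc φ N P := (Gx.hr h.trv).codRestrict (Fc φ N P) h.mem

theorem ψ_apply (x : K) : (h.ψ x : P.κ) = P.rd (φ x) := Gx.hr_apply h.trv x

theorem cψ : Cst h.ψ := fun c => (h.cρ c).imp fun _ hd => Subtype.ext hd

theorem okψ : Ok h.ψ := h.cψ.ok h.xt.ff (ff_fld h.fκ _)

theorem res_pb (c : β ∈ Car K) : res P (pb φ β) = pb (inc (Fc φ N P)) (pb h.ψ β) := by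
  rw [h.res0 c, ← (h.fκ.ok_sub _).pb_comp]
  rfl

theorem alc : Cb.Alc h.ψ :=
  Tg.alc_of (ρ := Gx.hr h.trv) (fun _ => rfl) fun _ hx =>
    Tg.alg_of_mem h.fκ (h.cρ.ok h.xt.ff h.fκ) h.sn (h.res0 h.sn.car ▸ hx)

theorem bigψ (b : Big β) : Big (pb h.ψ β) := by
  have bN : Big (pb h.ψ N) := big_of_fld_pb h.fκ (h.okψ.smp h.sn) (h.res_pb h.sn.car ▸ le_rfl)
  obtain ⟨ε, e, k⟩ := b.exists_eff h.sn.car
  have := (bN.smul e).add_eff (h.okψ.eff k)
  rwa [pb_sub, pb_smul, add_sub_cancel] at this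

theorem fld_eq (c : β ∈ Car K) (b : Big β) : fld (res P (pb φ β)) = Fc φ N P := by
  rw [h.res_pb c]
  exact fld_pb h.fκ (cld_fld _) (h.bigψ b)

theorem car' : Γ' ∈ Car K' := by
  obtain ⟨f, -, rfl⟩ := h.xt.eq
  exact sub_mem (h.ok.car h.des.car) (dv_mem_Car f)

theorem car : Γ' + Δ ∈ Car K' := add_mem h.car' h.tg.car

/-- the adjoint pair is klt over the generic point of the centre -/
theorem hor (w : Pl P.κ) (hw : Hor (Fc φ N P) w) : -1 < dsc n (adj n P (Γ' + Δ)) w := by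
  have s := h.ok.smp h.sn
  obtain ⟨R, a, -, -, b, c⟩ := a2 n K' h.xt.ff' P w {Γ' + Δ} (pb φ N) 0 (finite_singleton _)
    (singleton_subset_iff.2 h.car) s.car
  have d := c _ rfl
  rw [h.tg.lc, neg_add_cancel, zero_mul, add_zero] at d
  refine d ▸ h.tg.plt R a.1 fun H r k => (r.nonneg P).lt_of_ne fun e => k.not_ge ?_
  exact (b H r e.symm).1.trans ((res_rep h.xt.ff' P s.car r e.symm).hor h.fκ
    (res_smp h.xt.ff' P s) hw).le

theorem sv (s : Smp Λ') (b : Big Λ') (d : Dsc Λ' Λ) (dβ : Dsc Λ' β) (dγ : Dsc Λ' γ)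
    (le : ∀ Q, On n Λ' Q → (⌈dsc (n + 1) Γ Q + γ Q⌉ : ℝ) ≤ β Q) :
    Sv n (pb φ Λ') (Γ' + Δ - pb φ γ) (pb φ β) P := by
  obtain ⟨f, t, e⟩ := h.xt.eq
  obtain ⟨c, hc⟩ := Ae.nef_of_dsc (((d.trans h.des).add ((d.trans h.dn).smul a)).sub dγ)
  refine ⟨h.xt.ff', h.ok.smp s, Gm.big_pb h.ok h.xt.ext.gen b, ⟨c, ?_⟩, h.ok.dsc dβ, h.trv.pb _,
    fun R o _ => ?_, ?_⟩
  · have := ((h.ok.nef hc).add h.tg.smp.nef).add_prn (dv_mem_Prn f)
    rw [pb_sub, pb_smul, pb_sub, pb_add, pb_smul] at this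
    convert this using 1
    rw [e]
    abel
  · have z := h.tg.nn R
    rcases t.on Λ' s b trivial R o with ⟨x, y⟩ | ⟨Q, l, r, x, y⟩
    · rw [Trv.pb x]
      refine Ae.ceil_np ?_
      simp only [e, dsc, Pi.add_apply, Pi.sub_apply, Pi.zero_apply, Trv.pb x] at y z ⊢
      linarith
    · rw [l.pb, x, Int.cast_one, one_mul]
      refine le_trans (Int.cast_le.2 (Int.ceil_mono ?_)) (le Q r)
      simp only [e, dsc, Pi.add_apply, Pi.sub_apply, Pi.zero_apply, l.pb, x] at y z ⊢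
      push_cast at y ⊢
      linarith
  · have := h.tg.lc
    simp only [dsc, Pi.add_apply, Pi.sub_apply, h.trv.pb] at this ⊢
    linarith

theorem su : Su n (pb φ Λ) (Γ' + Δ) P := by
  have v := h.sv (β := 0) (γ := 0) h.smp h.big (.refl h.smp) (.zero h.smp) (.zero h.smp)
    fun Q o => Ae.ceil_np (by simpa using h.bdy Q o)
  rw [pb_zero, sub_zero] at v
  refine ⟨v.ff, v.smp, v.big, v.nef, fun R o => ?_, v.lc⟩
  by_cases e : R = P
  · rw [e, v.lc]; norm_num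
  · exact (Int.le_ceil _).trans (v.le R o e)

theorem rk1 (u : P.κ) (hu : ∀ w, Hor (Fc φ N P) w → Aj n (adj n P (Γ' + Δ)) w u) :
    u ∈ Fc φ N P :=
  h.fld_eq h.smp.car h.big ▸ h.su.rk1 (h.fld_eq h.smp.car h.big ▸ hu)

/-- the twisted bound for the thresholds -/
theorem adm (hL : FF (Fc φ N P) (k + 1)) (s : Smp Λ') (b : Big Λ') (d : Dsc Λ' Λ) (dβ : Dsc Λ' β)
    (dγ : Dsc Λ' γ) (le : ∀ Q, On n Λ' Q → (⌈dsc (n + 1) Γ Q + γ Q⌉ : ℝ) ≤ β Q)
    {v : Pl (Fc φ N P)} (o : On k (pb h.ψ Λ) v) {i : ℤ} (hi : pb h.ψ β v < i) :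
    Adm n (Fc φ N P) (adj n P (Γ' + Δ)) v (i - pb h.ψ γ v) := by
  have e : adj n P (Γ' + Δ - pb φ γ) = adj n P (Γ' + Δ) - pb (inc _) (pb h.ψ γ) := by
    rw [sub_eq_add_neg, ← pb_neg, (a4 n K' h.xt.ff' P _ h.car _ (h.ok.car dγ.neg.car)).1,
      h.res_pb dγ.neg.car, pb_neg, pb_neg, sub_eq_add_neg]
  obtain ⟨w, l, z⟩ := (h.sv s b d dβ dγ le).tv (h.fld_eq s.car b) (fun w hw => by
      have := h.hor w hw
      simp only [e, dsc, Pi.sub_apply, hw.trv.pb] at this ⊢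
      linarith) hL (h.okψ.smp h.smp) (h.bigψ h.big)
    (h.res_pb h.smp.car ▸ res_dsc h.xt.ff' P (h.ok.dsc d)) o (h.res_pb dβ.car) hi
  refine ⟨w, l, ?_⟩
  simp only [e, dsc, Pi.sub_apply, l.pb] at z ⊢
  linarith

/-- **(ii), (iii)**: the index of an integral Weil divisor bounds the threshold -/
theorem adm_fract (hL : FF (Fc φ N P) (k + 1)) (d : Dsc Λ γ) (z : ZOn n Λ γ)
    {v : Pl (Fc φ N P)} (o : On k (pb h.ψ Λ) v) :
    Adm n (Fc φ N P) (adj n P (Γ' + Δ)) v (1 - Int.fract (pb h.ψ γ v)) := by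
  have := h.adm hL h.smp h.big (.refl h.smp) d d (fun Q q => by
    obtain ⟨j, hj⟩ := z Q q
    rw [hj, Int.ceil_add_intCast, Int.cast_add]
    linarith [Ae.ceil_np (h.bdy Q q)]) o (i := ⌊pb h.ψ γ v⌋ + 1)
    (by push_cast; exact Int.lt_floor_add_one _)
  convert this using 1
  rw [Int.fract]
  push_cast
  ring

/-- **(i)**: the threshold is at most the log discrepancy below -/
theorem adm_lies (hL : FF (Fc φ N P) (k + 1)) {v : Pl (Fc φ N P)} (o : On k (pb h.ψ Λ) v)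
    {Q : Pl K} (l : Lies h.ψ v Q) :
    Adm n (Fc φ N P) (adj n P (Γ' + Δ)) v (1 + v.ord (h.ψ Q.t) * dsc (n + 1) Γ Q) := by
  classical
  obtain ⟨s, κ, T, g, ls, t, u, d⟩ := Pr.ls2 h.xt.ff (finite_singleton Q) h.des.car h.smp.car
  have oQ := ls.on Q (t Q rfl)
  obtain ⟨x, y⟩ := ls.hull Q oQ
  obtain ⟨b1, b2⟩ := ls.hull_sum fun R => ⌈dsc (n + 1) Γ R + (-dsc (n + 1) Γ Q • g Q) R⌉
  have := h.adm hL ls.smp ls.big d.1 b1 (x.smul (-dsc (n + 1) Γ Q)) (fun R r => by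
    rw [b2 R r]
    split_ifs with p
    · exact le_rfl
    · have a := u.2 R r p
      have c := ls.d0 r
      rw [Pi.smul_apply, y R r, Pl.δ_ne fun e : R = Q => p (e ▸ t Q rfl)]
      refine Ae.ceil_np ?_
      simp only [dsc, Pi.sub_apply, smul_zero] at a c ⊢
      linarith) o (i := 1) (by
    rw [l.pb, b2 Q oQ, if_pos (t Q rfl), Pi.smul_apply, y Q oQ, Q.δ_self]
    simp)
  convert this using 1
  rw [l.pb, Pi.smul_apply, y Q oQ, Q.δ_self]
  simp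

/-- the field of the centre is generated by the image of `K` -/
theorem gen : IntermediateField.adjoin ℂ (range h.ψ) = ⊤ := by
  have hK := h.xt.ff'
  obtain ⟨s, h1, a⟩ := h.smp.exists_ampOn
  have a' := h.ok.ampOn a
  rw [h.ok.pb_mx] at a'
  have hs : Nz (im φ s) := ⟨1, Pb.mem_im.2 ⟨1, h1, map_one φ⟩, one_ne_zero⟩
  have ar : AmpOn (res P (pb φ Λ)) (mx (P.rs (im φ s))) := res_mx hK P _ ▸ res_ampOn hK P a'
  have key : ∀ x ∈ Submodule.span ℂ (range φ), x ∈ P.ring ∧ ∃ y ∈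
      IntermediateField.adjoin ℂ (range h.ψ), (y : P.κ) = P.rd x := fun x hx => by
    induction hx using Submodule.span_induction with
    | mem x hx =>
      obtain ⟨x, rfl⟩ := hx
      exact ⟨h.trv x, _, IntermediateField.subset_adjoin _ _ ⟨x, rfl⟩, h.ψ_apply x⟩
    | zero => exact ⟨zero_mem _, 0, zero_mem _, (Ae.rd_zero P).symm⟩
    | add x y _ _ u v =>
      obtain ⟨u, x', a, b⟩ := u
      obtain ⟨v, y', c, d⟩ := v
      refine ⟨add_mem u v, x' + y', add_mem a c, ?_⟩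
      rw [Gx.rd_of P (add_mem u v), IntermediateField.coe_add, b, d, Gx.rd_of P u, Gx.rd_of P v]
      exact (map_add (IsLocalRing.residue P.ring) ⟨x, u⟩ ⟨y, v⟩).symm
    | smul c x _ u =>
      obtain ⟨u, x', a, b⟩ := u
      rw [Algebra.smul_def]
      refine ⟨mul_mem (P.con c) u, algebraMap ℂ _ c * x',
        mul_mem (IntermediateField.algebraMap_mem _ c) a, ?_⟩
      rw [Gx.rd_mul P (P.con c) u, Gx.rd_cst, IntermediateField.coe_mul, b]
      rfl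
  refine eq_top_iff.2 fun u _ => ?_
  by_cases u0 : u = 0
  · exact u0 ▸ zero_mem _
  have u1 : (u : P.κ) ≠ 0 := fun e => u0 (Subtype.ext e)
  obtain ⟨m, w, y, z⟩ := (sv_of_su h.su).core hs a' finite_empty u1 one_ne_zero fun R =>
    (em (Hor (Fc φ N P) R)).imp
      (fun q => ⟨.inr (by simpa [q.ord u.2] using h.hor R q), .inr (by simpa using h.hor R q)⟩)
      fun q => van h.fκ (Ae.nz_rs hs) (ar.fld_eq ▸ h.fld_eq h.smp.car h.big ▸ q)
  have k : ∀ x, x = (u : P.κ) ∨ x = 1 → ∃ y ∈ IntermediateField.adjoin ℂ (range h.ψ),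
      (y : P.κ) = x * w := fun x hx => by
    obtain ⟨f, -, g, -, r⟩ := z x hx
    rw [h.trv.mz, mul_zero, zpow_zero, mul_one] at r
    rw [zero_add, ← h.ok.pb_mx, ← pb_smul] at g
    exact r ▸ (key f (sec_ext h.xt.ext h.xt.ff hK
      (Submodule.smul_mem _ _ (mx_mem_Car s)) (.inr g))).2
  obtain ⟨p, p1, p2⟩ := k _ (.inl rfl)
  obtain ⟨q, q1, q2⟩ := k _ (.inr rfl)
  have : u = p / q := Subtype.ext (by
    rw [IntermediateField.coe_div, p2, q2, one_mul, mul_div_cancel_right₀ _ y.ne])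
  exact this ▸ div_mem p1 q1

theorem bir (b : Bir β) : Bir (pb h.ψ β) := by
  refine eq_top_iff.2 (h.gen.ge.trans (IntermediateField.adjoin_le_iff.2 ?_))
  rintro _ ⟨x, rfl⟩
  have hx : x ∈ IntermediateField.adjoin ℂ {x | ∃ f g, Sec β f ∧ Sec β g ∧ x = f / g} :=
    b ▸ IntermediateField.mem_top
  induction hx using IntermediateField.adjoin_induction with
  | mem x hx =>
    obtain ⟨f, g, p, q, rfl⟩ := hx
    exact IntermediateField.subset_adjoin _ _ ⟨_, _, h.okψ.sec p, h.okψ.sec q, map_div₀ _ _ _⟩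
  | algebraMap c =>
    obtain ⟨d, hd⟩ := h.cψ c
    exact hd ▸ IntermediateField.algebraMap_mem _ d
  | add x y _ _ u v => exact map_add h.ψ x y ▸ add_mem u v
  | inv x _ u => exact map_inv₀ h.ψ x ▸ inv_mem u
  | mul x y _ _ u v => exact map_mul h.ψ x y ▸ mul_mem u v

/-- the class of the adjoint pair -/
theorem adj_prn (f : Fc φ N P) : pb (inc _) (pb h.ψ Γ - dv f + a • pb h.ψ N) - adj n P (Γ' + Δ) -
    res P (a • pb φ N - Δ) ∈ Prn P.κ := by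
  have hK := h.xt.ff'
  obtain ⟨g, -, e⟩ := h.xt.eq
  have c := h.ok.car h.sn.car
  have p1 := (a1 n K' hK P _ h.car).2.1
  have p2 := res_prn hK P (dv_mem_Prn g)
  have p3 := (h.fκ.ok_sub _).prn (dv_mem_Prn f)
  rw [res_add hK P h.car' h.tg.car, e, res_sub hK P (h.ok.car h.des.car) (dv_mem_Car g),
    h.res_pb h.des.car, ← e] at p1
  rw [res_sub hK P (Submodule.smul_mem _ _ c) h.tg.car, res_smul hK P _ c, h.res_pb h.sn.car,
    pb_add, pb_sub, pb_smul]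
  convert sub_mem (sub_mem p2 p1) p3 using 1
  abel

end Ce

/-- `f` compares the canonical b-divisors along `ψ` -/
structure Mv (n k : ℕ) {L : Type} [Field L] [Algebra ℂ L] (ψ : K →+* L) (f : L) : Prop where
  ne : f ≠ 0
  ge : ∀ u Q, Lies ψ u Q → u.ord (ψ Q.t) * (cn K (n + 1) Q + 1) ≤ (cn L (k + 1) + dv f) u + 1
  trv : ∀ u, Trv ψ u → 0 ≤ (cn L (k + 1) + dv f) u

section mv

variable {L : Type} [Field L] [Algebra ℂ L] {ψ : K →+* L} {f : L}

theorem Mv.lies (m : Mv n k ψ f) {u : Pl L} {Q : Pl K} (l : Lies ψ u Q) (Γ : BD K) :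
    u.ord (ψ Q.t) * ld (n + 1) Γ Q ≤ ld (k + 1) (pb ψ Γ - dv f) u := by
  have := m.ge u Q l
  simp only [ld, dsc, Pi.add_apply, Pi.sub_apply, l.pb] at this ⊢
  linarith

theorem Mv.one (m : Mv n k ψ f) {u : Pl L} (t : Trv ψ u) (Γ : BD K) :
    1 ≤ ld (k + 1) (pb ψ Γ - dv f) u := by
  have := m.trv u t
  simp only [ld, dsc, Pi.add_apply, Pi.sub_apply, t.pb] at this ⊢
  linarith

theorem Mv.elc (m : Mv n k ψ f) (ok : Ok ψ) {ε : ℝ} (e0 : 0 ≤ ε) (e1 : ε ≤ 1)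
    (e : ELc n ε Γ All) : ELc k ε (pb ψ Γ - dv f) All := fun u _ => by
  rcases ok u with t | ⟨Q, l⟩
  · exact e1.trans (m.one t Γ)
  · have a : (1 : ℝ) ≤ u.ord (ψ Q.t) := by exact_mod_cast l.e_pos
    have b := e Q trivial
    exact le_trans (by nlinarith) (m.lies l Γ)

end mv

namespace Ce

variable (h : Ce n φ Λ N Γ Γ' Δ a P)

include h

theorem mv (hL : FF (Fc φ N P) (k + 1)) : ∃ f, Mv n k h.ψ f :=
  let ⟨f, a, b, c⟩ := Cb.mov h.xt.ff hL h.cψ h.alc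
  ⟨f, a, b, c⟩

theorem adm_ld (hL : FF (Fc φ N P) (k + 1)) {f : Fc φ N P} (m : Mv n k h.ψ f)
    (e : ELc n 0 Γ All) {v : Pl (Fc φ N P)} (o : On k (pb h.ψ Λ) v) :
    Adm n (Fc φ N P) (adj n P (Γ' + Δ)) v (ld (k + 1) (pb h.ψ Γ - dv f) v) := by
  have one : Adm n (Fc φ N P) (adj n P (Γ' + Δ)) v 1 := by
    simpa [pb_zero] using h.adm_fract hL (.zero h.smp) (fun _ _ => ⟨0, by simp⟩) o
  rcases h.okψ v with t | ⟨Q, l⟩
  · exact one.mono (m.one t Γ)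
  have a : (1 : ℝ) ≤ v.ord (h.ψ Q.t) := by exact_mod_cast l.e_pos
  have b := m.lies l Γ
  have c := e Q trivial
  simp only [ld] at b c ⊢
  rcases le_total (dsc (n + 1) Γ Q) 0 with q | q
  · exact (h.adm_lies hL o l).mono (by nlinarith)
  · exact one.mono (by nlinarith)

/-- **CEN**, with a finite set `T` of further places -/
theorem main (wp : WPX) (hL : FF (Fc φ N P) (k + 1)) {f : Fc φ N P} (m : Mv n k h.ψ f)
    (e : ELc n 0 Γ All) {γ₁ γ₂ : BD K} (d₁ : Dsc Λ γ₁) (d₂ : Dsc Λ γ₂) (q₁ : CarQ γ₁)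
    (q₂ : CarQ γ₂) (z₁ : ZOn n Λ γ₁) (z₂ : ZOn n Λ γ₂) {T : Set (Pl (Fc φ N P))} (hT : T.Finite)
    {τ : BD (Fc φ N P)} (hτ : ∀ v ∈ T, Adm n (Fc φ N P) (adj n P (Γ' + Δ)) v (τ v)) {η : ℝ}
    (η0 : 0 < η) : ∃ Z, Rep ((a + η) • pb h.ψ N) Z ∧
      (∀ v ∈ T, ld (k + 1) (pb h.ψ Γ - dv f + Z) v ≤ τ v) ∧ ∀ u, On k (pb h.ψ Λ) u → ∀ i j : ℤ,
        ld (k + 1) (pb h.ψ Γ - dv f + Z) u ≤ 1 - Int.fract (i * pb h.ψ γ₁ u + j * pb h.ψ γ₂ u) := by
  have ok := h.okψ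
  have sΛ := ok.smp h.smp
  have bΛ := h.bigψ h.big
  have dΓ : Dsc (pb h.ψ Λ) (pb h.ψ Γ - dv f) := (ok.dsc h.des).sub (.dv sΛ f)
  have dD := dΓ.add ((ok.dsc h.dn).smul a)
  have A : ∀ u, ∃ t, Adm n (Fc φ N P) (adj n P (Γ' + Δ)) u t ∧ (On k (pb h.ψ Λ) u →
      t ≤ ld (k + 1) (pb h.ψ Γ - dv f) u ∧
      (∀ i j : ℤ, t ≤ 1 - Int.fract (i * pb h.ψ γ₁ u + j * pb h.ψ γ₂ u)) ∧
      (pb h.ψ γ₁ u = 0 → pb h.ψ γ₂ u = 0 → dsc (k + 1) (pb h.ψ Γ - dv f) u = 0 → t = 1)) := by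
    intro u
    by_cases o : On k (pb h.ψ Λ) u
    · obtain ⟨x, hx⟩ := (ok.carQ q₁).rat u
      obtain ⟨y, hy⟩ := (ok.carQ q₂).rat u
      obtain ⟨_, ⟨⟨i, j⟩, rfl⟩, b⟩ := (fract_fin x y).exists_maximal (range_nonempty _)
      have c := h.adm_fract hL ((d₁.smul i).add (d₂.smul j)) (fun Q q => by
        obtain ⟨r, hr⟩ := z₁ Q q
        obtain ⟨s, hs⟩ := z₂ Q q
        exact ⟨i * r + j * s, by simp [hr, hs]⟩) o
      rw [pb_add, pb_smul, pb_smul, Pi.add_apply, Pi.smul_apply, Pi.smul_apply, smul_eq_mul,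
        smul_eq_mul, hx, hy] at c
      refine ⟨_, (h.adm_ld hL m e o).min c, fun _ => ⟨min_le_left _ _, fun i' j' => (min_le_right _ _).trans ?_, fun a b c => ?_⟩⟩
      · rw [hx, hy]
        exact sub_le_sub_left (not_lt.1 fun w => w.not_ge (b ⟨(i', j'), rfl⟩ w.le)) 1
      · rw [← hx, ← hy, a, b, ld, c]
        simp
    · obtain ⟨w, l⟩ := Pb.up (φ := inc (Fc φ N P)) (fun _ => rfl) h.fκ u
      exact ⟨_, ⟨w, l, (div_mul_cancel₀ _ (Int.cast_pos.2 l.e_pos).ne').ge⟩, fun q => (o q).elim⟩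
  choose t t1 t2 using A
  obtain ⟨s, κ, T', g, ls, hT', -, d⟩ := Pr.ls2 hL hT sΛ.car sΛ.car
  have fin := fun {β : BD (Fc φ N P)} (c : IsB k β) => Pr.fin_on res' hL sΛ bΛ c
  have isb := Ba.mod.isb k _ hL
  classical
  have p := h.adj_prn f
  obtain ⟨δ, δ0, E, r⟩ := ((h.bigψ h.bn).smul η0).exists_eff ls.smp.car
  obtain ⟨G, g1, g2⟩ := wp n k P.κ (Fc φ N P) (adj n P (Γ' + Δ)) _ (mx s)
    (fun u => 1 - if u ∈ T then min (t u) (τ u) else t u) δ h.fκ hL ls.smp ls.big (d.1.trans dD)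
    ((res_smp h.xt.ff' P h.tg.smp).nef.congr p) (h.tg.big.congr p) h.hor h.rk1
    (((((Ba.mod.exc k _ hL _ _ ls.smp ls.big sΛ bΛ).union hT).union
      (fin (isb.1 _ (ok.car d₁.car)))).union (fin (isb.1 _ (ok.car d₂.car)))).union
      (fin (In.IsB.sub isb.2.1 (isb.1 _ dΓ.car))) |>.subset fun u ⟨o, z⟩ => by
        by_contra w
        simp only [mem_union, mem_ofPred_eq, not_or, not_and, not_not] at w
        obtain ⟨⟨⟨⟨w1, w2⟩, w3⟩, w4⟩, w5⟩ := w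
        have o' := w1 o
        exact z (by rw [if_neg w2, (t2 u o').2.2 (w3 o') (w4 o') (w5 o'), sub_self]))
    (fun u _ => by
      rw [sub_sub_cancel]
      split_ifs with q
      exacts [(t1 u).min (hτ u q), t1 u]) δ0
  have pr : G + E - (pb h.ψ Γ - dv f) - (a + η) • pb h.ψ N ∈ Prn _ := by
    convert add_mem g1 r.2 using 1
    module
  have le : ∀ u, On k (mx s) u → ld (k + 1) (pb h.ψ Γ - dv f + (G + E - (pb h.ψ Γ - dv f))) u ≤
      if u ∈ T then min (t u) (τ u) else t u := fun u o => by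
    have a := g2 u o
    have b := r.1 u
    rw [add_sub_cancel]
    simp only [ld, dsc, Pi.add_apply, Pi.sub_apply, Pi.zero_apply] at a b ⊢
    linarith
  have le' : ∀ u, On k (pb h.ψ Λ) u →
      ld (k + 1) (pb h.ψ Γ - dv f + (G + E - (pb h.ψ Γ - dv f))) u ≤ t u := fun u o =>
    (le u (Pr.on_mono res' hL sΛ ls.smp d.1 o)).trans (by
      split_ifs
      exacts [min_le_left _ _, le_rfl])
  refine ⟨_, ⟨Pr.hart res' hL sΛ bΛ (((ok.dsc h.dn).smul _).congr pr) fun u o => ?_, pr⟩,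
    fun v q => (le v (ls.on v (hT' v q))).trans (by rw [if_pos q]; exact min_le_right _ _),
    fun u o i j => (le' u o).trans ((t2 u o).2.1 i j)⟩
  have := (le' u o).trans (t2 u o).1
  simp only [ld, Pr.dsc_add] at this
  linarith

/-- **CENV**: if the adjoint pair is not klt then the centre carries a pair which is not klt -/
theorem cenv (wp : WPX) (hL : FF (Fc φ N P) (k + 1)) {f : Fc φ N P} (m : Mv n k h.ψ f)
    (e : ELc n 0 Γ All) (b : ¬ Klt n (adj n P (Γ' + Δ))) {η : ℝ} (η0 : 0 < η) :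
    ∃ Z, Rep ((a + η) • pb h.ψ N) Z ∧ Bdy k (pb h.ψ Λ) (pb h.ψ Γ - dv f + Z) ∧
      ¬ Klt (k + 1) (pb h.ψ Γ - dv f + Z) := by
  obtain ⟨w, hw⟩ := not_forall.1 b
  obtain ⟨v, l⟩ := (h.fκ.ok_sub (Fc φ N P) w).resolve_left fun t =>
    hw (h.hor w fun x hx => t ⟨x, hx⟩)
  obtain ⟨Z, r, x, y⟩ := h.main wp hL m e (.zero h.smp) (.zero h.smp) .zero .zero
    (fun _ _ => ⟨0, by simp⟩) (fun _ _ => ⟨0, by simp⟩) (finite_singleton v) (τ := 0)
    (fun _ q => q ▸ ⟨w, l, by simpa using by linarith [not_lt.1 hw]⟩) η0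
  refine ⟨Z, r, fun u o => ?_, fun q => ?_⟩
  · simpa [ld] using y u o 0 0
  · have := x v rfl
    simp only [ld, Pi.zero_apply] at this
    linarith [q v]

end Ce

theorem zon_frq {q : ℕ} (hK : FF K (n + 1)) (q0 : 0 < q) (c : Cf n Λ Γ (Frq q) All) :
    ZOn n Λ ((q : ℝ) • Γ) := fun u o => by
  obtain ⟨b, hb⟩ := c u o trivial
  obtain ⟨d, hd⟩ := (Ba.mod.isb n K hK).2.2 u
  have q1 : (q : ℝ) ≠ 0 := by positivity
  refine ⟨b + q * d, ?_⟩
  simp only [ld, dsc, Pi.sub_apply, hd] at hb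
  rw [Pi.smul_apply, smul_eq_mul, show Γ u = b / q + d by linarith]
  push_cast
  field_simp

/-- **CEN**: the weak pair on the centre -/
theorem Ce.cen (h : Ce n φ Λ N Γ Γ' Δ a P) (wp : WPX) (hL : FF (Fc φ N P) (k + 1)) {ε η : ℝ}
    {q : ℕ} (e0 : 0 < ε) (q0 : 0 < q) (qΓ : CarQ Γ) (e : ELc n ε Γ All)
    (c : Cf n Λ Γ (Frq q) All) (qN : CarQ N) (zN : ZOn n Λ N) (p1 : Psef (N - Γ))
    (p2 : Psef (N + Γ)) (η0 : 0 < η) :
    ∃ Γ₁ Z, WK k (min ε 1) q (a + η) (pb h.ψ Λ) Γ₁ (pb h.ψ N) Z := by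
  obtain ⟨f, m⟩ := h.mv hL
  have ok := h.okψ
  obtain ⟨Z, r, -, y⟩ := h.main wp hL m (fun u t => e0.le.trans (e u t)) h.dn (h.des.smul q) qN
    (by simpa using qΓ.qsmul q) zN (zon_frq h.xt.ff q0 c) finite_empty (τ := 0) (by simp) η0
  refine ⟨_, Z, hL, ok.smp h.smp, h.bigψ h.big, ok.dsc h.dn, ok.smp h.sn, h.bigψ h.bn, ok.carQ qN,
    (ok.dsc h.des).sub (.dv (ok.smp h.smp) f), (ok.carQ qΓ).sub (carQ_dv f),
    m.elc ok (lt_min e0 one_pos).le (min_le_right _ _) fun u t => (min_le_left _ _).trans (e u t),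
    (ok.psef p1).congr ?_, (ok.psef p2).congr ?_, r, fun u o i j => ?_⟩
  · rw [pb_sub, sub_sub_sub_cancel_left, sub_sub_cancel]
    exact dv_mem_Prn f
  · rw [pb_add, add_sub_add_left_eq_sub, sub_sub_cancel_left]
    exact neg_mem (dv_mem_Prn f)
  · have := y u o i j
    rwa [pb_smul, Pi.smul_apply, smul_eq_mul, ← Int.fract_sub_intCast _ (j * (q * u.ord f)),
      show (i : ℝ) * pb h.ψ N u + j * (q * pb h.ψ Γ u) - ((j * (q * u.ord f) : ℤ) : ℝ) =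
        i * pb h.ψ N u + j * (q * (pb h.ψ Γ - dv f) u) by
        rw [Pi.sub_apply, dv_apply]; push_cast; ring] at this

/-- the first half of `EB` from the limit statement -/
theorem kl_of (wp : WPX) (lim : ∀ k, LIM k) (n : ℕ) : KL n := fun ε q e0 q0 => by
  refine ⟨fun v => ?_, fun k _ v => ?_⟩
  · obtain ⟨η, m₀, η0, H⟩ := lim n ε q v e0 q0
    exact ⟨m₀, fun K _ _ N Γ m d => H K 0 m N Γ N 0 (wk_of d.ff (Ba.mod.isb n K d.ff).2.2 d.pr d.elc
      d.cf q0 (.refl d.pr.smp) d.pr.smp d.pr.big d.car d.int d.psm d.psp) le_rfl (by positivity)⟩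
  obtain ⟨η, m₀, η0, H⟩ := lim k (min ε 1) q v (lt_min e0 one_pos) q0
  refine ⟨η / 2, m₀, half_pos η0, fun K K' _ _ _ _ φ N Γ Γ' Δ a P g m d x t tr hL po b am hv => ?_⟩
  have h : Ce n φ N N Γ Γ' Δ a P :=
    ⟨x, t, tr, d.pr.smp, d.pr.big, d.pr.des, d.pr.bdy, .refl d.pr.smp, d.pr.smp, d.pr.big⟩
  rcases m.eq_zero_or_pos with rfl | m0
  · exact Nat.zero_le _
  obtain ⟨Γ₁, Z, w⟩ := h.cen wp hL e0 q0 d.pr.rat d.elc d.cf d.car d.int d.psm d.psp (half_pos η0)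
  have m1 : (1 : ℝ) ≤ m := by exact_mod_cast m0
  refine H _ _ m _ _ _ _ w (add_pos t.pos (half_pos η0)).le (by nlinarith)
    (pb_smul h.ψ _ N ▸ h.bir b) (le_of_eq_of_le ?_ hv)
  refine Iso.I_congr (In.hy.row _ _ hL) (fun _ => Submodule.smul_mem _ _ po.smp.car) fun _ => ?_
  rw [← smul_sub]
  refine Submodule.smul_mem _ _ ((pb_prn_iff h.fκ (cld_fld _)).1 ?_)
  rw [pb_sub, ← h.res_pb d.pr.smp.car]
  exact po.prn

end Vale.Agent.P283B.Eb
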