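import Vale.Agent.P283B.EB.Cut2
import Vale.Agent.P283B.EB.Adj
import Vale.Agent.P283B.EB.Mult
import Vale.Agent.P283B.EB.Pbu
import Vale.Agent.P283B.EB.Sep
import Vale.Agent.P283B.EB.Gfb

/-!
# P283B, block EB: the cutting argument
-/

namespace Vale.Agent.P283B.Eb

/-- **GFB** -/
theorem gfb : GFB := Gb.gfb_of pbu sepl

/-- **CUTN** -/
theorem cutn : CUTN := cutn_of pbu mult adjle sep gfb

end Vale.Agent.P283B.Eb
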