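import Vale.Agent.P283B.EB.Wk

/-!
# P283B, block EB: two inputs of the limit argument (statements)
-/

set_option linter.unusedVariables false

open Set

noncomputable section

namespace Vale.Agent.P283B.Eb

open P287D

/-- **DEG**: the primes of the birational model which matter have bounded degree -/
def DEG (k : ℕ) : Prop := ∀ q : ℕ, 0 < q → ∃ c : ℝ, ∀ (L : Type) [Field L] [Algebra ℂ L]
  (ε a : ℝ) (Λ Γ N Z : BD L) (m : ℕ) (s : Finset L) (f : L) (T : Finset (Pl L)),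
  WK k ε q a Λ Γ N Z → 0 ≤ a → a ≤ m → 1 ≤ m → Big (mx s) → mx s ≤ (m : ℝ) • N → f ≠ 0 →
  0 ≤ dv f + (m : ℝ) • N → (∀ P ∈ T, On k (mx s) P ∧
    (¬ On k Λ P ∨ dsc (k + 1) Γ P < 0 ∨ (dv f + (m : ℝ) • N) P ≠ 0)) →
  ∑ P ∈ T, vol k (res P (mx s)) ≤ c * vol (k + 1) ((m : ℝ) • N)

/-- **HN**: the case of equality in the index theorem -/
def HN (k : ℕ) : Prop := ∀ (L : Type) [Field L] [Algebra ℂ L] (A N b : BD L), FF L (k + 2) →
  Smp A → Big A → Smp N → Dsc A b → I (k + 2) L (Fin.cons b fun _ => A) = 0 →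
  0 ≤ I (k + 2) L (Fin.cons b (Fin.cons b fun _ => A)) → I (k + 2) L (Fin.cons b fun _ => N) = 0

end Vale.Agent.P283B.Eb
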