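import Vale.Agent.P283B.U.Hb
import Vale.Agent.P283B.EB.Lst
import Vale.Agent.P287D.In.Int
import Vale.Agent.P287D.Ku.St
import Vale.Agent.P287D.Va.Fld

/-!
# P283B, block EB: the degree of a reduced divisor is bounded by the number of log canonical
sections; the equality case of the index theorem
-/

set_option linter.unusedVariables false

open Set Function
open Vale.Agent.P297Z.Pl

noncomputable section

namespace Vale.Agent.P283B.Eb

open P287D

/-- reduced members -/
def RED : Prop := ForS fun n K _ _ => ∀ u : Finset K, Nz u → Big (mx u) →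
  ∃ g ∈ Submodule.span ℂ (u : Set K), g ≠ 0 ∧
    ∀ P, On n (mx u) P → (dv g + mx u) P = 0 ∨ (dv g + mx u) P = 1

/-- the rows which are used -/
structure Rw : Prop where
  md : MOD
  rs : RES
  it : INT
  hy : In.Hy
  vl : VOL
  ng : NEG
  ext : EXTU
  red : RED
  hb : U.HB

variable {K : Type} [Field K] [Algebra ℂ K] {n : ℕ}

theorem no_pl (hK : FF K 0) (P : Pl K) : False := by
  have := P.dvl
  rw [hK.trdeg] at this
  simp at this

theorem h0_succ {Z : BD K} {P : Pl K} {k : ℤ} (hk : Z P = k) [Module.Finite ℂ (H0 (Z + P.δ))]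
    (W : Submodule ℂ P.κ) (hW : ∀ u ∈ W, ∃ f, Sec (Z + P.δ) f ∧ P.rd (f * P.t ^ (k + 1)) = u) :
    h0 Z + Module.finrank ℂ W ≤ h0 (Z + P.δ) := by
  have e : (Z + P.δ) P = (k + 1 : ℤ) := by rw [Pi.add_apply, hk, P.δ_self]; push_cast; rfl
  have le : Z ≤ Z + P.δ := le_add_of_nonneg_right P.δ_nonneg
  let φ := U.lead P _ _ e
  have h1 : Module.finrank ℂ W ≤ Module.finrank ℂ (LinearMap.range φ) :=
    Submodule.finrank_mono fun u hu =>
      let ⟨f, a, b⟩ := hW u hu
      ⟨⟨f, mem_H0.2 a⟩, b⟩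
  have key : ∀ f : H0 Z, Submodule.inclusion (H0_mono le) f ∈ LinearMap.ker φ := fun f => by
    change P.rd (f * P.t ^ (k + 1)) = 0
    by_cases f0 : (f : K) = 0
    · rw [f0, zero_mul, ← map_zero (algebraMap ℂ K), Cb.rd_const, map_zero]
    have a := (sec_iff.1 (mem_H0.1 f.2) P).resolve_left f0
    rw [hk] at a
    have a' : 0 ≤ P.ord (f : K) + k := by exact_mod_cast a
    have b : 0 < P.ord ((f : K) * P.t ^ (k + 1)) := by rw [P.ord_mul_t f0]; omega
    exact (Cb.rd_eq_zero (Cb.mem_ord b.le)).2 (Cb.mx_iff.2 (.inr b))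
  have h2 : h0 Z ≤ Module.finrank ℂ (LinearMap.ker φ) :=
    LinearMap.finrank_le_finrank_of_injective
      (f := (Submodule.inclusion (H0_mono le)).codRestrict _ key) fun a b e =>
        Submodule.inclusion_injective _ (congrArg Subtype.val e)
  have h3 := φ.finrank_range_add_finrank_ker
  unfold h0 at *
  omega

theorem adj_dv (rs : RES) (hK : FF K (n + 1)) (P : Pl K) {g : K} (g0 : g ≠ 0) :
    ∃ w : P.κ, w ≠ 0 ∧ adj n P (dv g) = dv w := by
  unfold adj
  split_ifs with h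
  · obtain ⟨j0, j1, -⟩ := h.choose_spec
    have a := mul_ne_zero g0 j0
    have b : P.rd (g * h.choose.1 / P.t ^ P.ord (g * h.choose.1)) ≠ 0 := fun e => by
      have o : P.ord (g * h.choose.1 / P.t ^ P.ord (g * h.choose.1)) = 0 := by
        rw [div_eq_mul_inv, ← zpow_neg, P.ord_mul_t a, add_neg_cancel]
      rcases Cb.mx_iff.1 ((Cb.rd_eq_zero (Cb.mem_ord o.ge)).1 e) with c | c
      · exact div_ne_zero a (zpow_ne_zero _ P.t_ne) c
      · exact c.ne' o
    exact ⟨_, div_ne_zero b j1, by rw [← dv_mul g0 j0, rs.pri n K hK P _ a, dv_div b j1]⟩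
  · exact ⟨1, one_ne_zero, by simp⟩

namespace Rw

variable (r : Rw)
include r

theorem isb (hK : FF K (n + 1)) {β : BD K} (h : β ∈ Car K) : IsB n β := (r.md.isb n K hK).1 β h

/-- log canonical sections with a pole along one prime -/
theorem pole (hK : FF K (n + 1)) {A Z : BD K} (hA : A ∈ CarZ K) (a1 : Nef A) (a2 : Big A)
    (P : Pl K) (hZ : IsB n Z) (le : cn K (n + 1) + A ≤ Z) (e : Z P = (cn K (n + 1) + A) P) :
    h0 Z + h0 (cn P.κ n + res P A) ≤ h0 (Z + P.δ) := by
  obtain ⟨a, ha⟩ := (r.md.isb n K hK).2.2 P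
  obtain ⟨b, hb⟩ := CarZ.int hA P
  have := r.md.fin n K hK _ (In.IsB.add hZ (In.isB_δ P))
  have t0 : P.t ^ (a + 1) ≠ 0 := zpow_ne_zero _ P.t_ne
  obtain ⟨w, w0, hw⟩ := adj_dv r.rs hK P t0
  have rt : res P (dv (P.t ^ (a + 1))) = 0 := by
    rw [r.rs.pri n K hK P _ t0, P.ord_t_zpow, div_self t0, ← map_one (algebraMap ℂ K),
      Cb.rd_const, dv_const]
  have hz : IsZ (cn P.κ n) := fun Q => by
    cases n with
    | zero => exact (no_pl (Gm.ff_κ P hK) Q).elim
    | succ n => exact (r.md.isb n _ (Gm.ff_κ P hK)).2.2 Q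
  rw [← h0_add_dv (cn P.κ n + res P A) (inv_ne_zero w0)]
  refine h0_succ (k := a + b) (by rw [e, Pi.add_apply, ha, hb, Int.cast_add]) _ fun u hu => ?_
  obtain ⟨f, f1, f2⟩ := r.ext n K hK P (dv (P.t ^ (a + 1))) (A + dv (P.t ^ (a + 1))) (a + b + 1) u
    (dv_mem_Car _) (by simp [dsc, ha, dv_apply, P.ord_t_zpow]) (add_mem hA (dv_mem_CarZ _))
    (by rw [Pi.add_apply, hb, dv_apply, P.ord_t_zpow]; push_cast; ring) (by simpa using a1)
    (by simpa using a2) (by
      refine (mem_H0.1 hu).mono fun Q => ?_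
      obtain ⟨z, hz⟩ := hz Q
      rw [r.rs.add n K hK P _ (CarZ.car hA) _ (dv_mem_Car _), rt, hw, dv_inv]
      simp only [dsc, Pi.add_apply, Pi.sub_apply, Pi.neg_apply, Pi.zero_apply, hz, dv_apply]
      linarith [Int.le_ceil ((z : ℝ) - Q.ord w)])
  refine ⟨f, f1.imp_right fun ⟨x, y⟩ R => ?_, f2⟩
  by_cases q : R = P
  · subst q
    simp only [Pi.add_apply, Pi.zero_apply, dv_apply, R.ord_t_zpow, e, ha, R.δ_self] at x ⊢
    push_cast at x
    linarith
  · obtain ⟨z, hz⟩ := (r.md.isb n K hK).2.2 R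
    have y := y R q
    have l := le R
    simp only [dsc, Pi.add_apply, Pi.sub_apply, Pi.zero_apply, dv_apply, Pl.δ_ne q, hz] at y l ⊢
    rw [← Int.cast_sub, Int.ceil_intCast] at y
    push_cast at y
    linarith

end Rw

/-- adjoint systems have many sections -/
def HK (n : ℕ) : Prop := ∀ (K : Type) [Field K] [Algebra ℂ K], FF K n → ∀ s : Finset K,
  Big (mx s) → vol n (mx s) ≤ h0 (cn K n + ((n + 1 : ℕ) : ℝ) • mx s)

theorem sum_δ (T : Finset (Pl K)) (Q : Pl K) :
    (∑ P ∈ T, P.δ) Q = open Classical in if Q ∈ T then 1 else 0 := by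
  classical
  rw [Finset.sum_apply]
  exact Finset.sum_ite_eq T Q fun _ => (1 : ℝ)

theorem isB_sum {ι : Type*} (T : Finset ι) {Z : ι → BD K} (h : ∀ i ∈ T, IsB n (Z i)) :
    IsB n (∑ i ∈ T, Z i) :=
  Finset.sum_induction _ (IsB n) (fun _ _ => In.IsB.add) (fun _ _ => by simp) h

namespace Rw

variable (r : Rw)
include r

theorem hmx0 (ih : HK n) (hK : FF K (n + 1)) {s : Finset K} (hb : Big (mx s))
    (T : Finset (Pl K)) : ∑ P ∈ T, vol n (res P (mx s)) ≤
      h0 (cn K (n + 1) + ((n + 1 : ℕ) : ℝ) • mx s + ∑ P ∈ T, P.δ) := by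
  classical
  have z := CarZ.nsmul (mx_mem_CarZ s) (n + 1)
  induction T using Finset.induction_on with
  | empty => simp
  | insert P T p h =>
    have a := r.pole hK z ((nef_mx s).smul (Nat.cast_nonneg _))
      (hb.smul (Nat.cast_pos.2 n.succ_pos)) P
      (In.IsB.add (In.IsB.add (r.md.isb n K hK).2.1 (r.isb hK (CarZ.car z)))
        (isB_sum T fun Q _ => In.isB_δ Q))
      (le_add_of_nonneg_right (Finset.sum_nonneg fun Q _ => Q.δ_nonneg))
      (by rw [Pi.add_apply, sum_δ, if_neg p, add_zero])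
    have b : vol n (res P (mx s)) ≤ h0 (cn P.κ n + res P (((n + 1 : ℕ) : ℝ) • mx s)) := by
      by_cases o : On n (mx s) P
      · have o' := (r.rs.on n K hK _ P (smp_mx s)).1 o
        rw [r.rs.smul n K hK P _ _ (mx_mem_Car s), r.rs.sys n K hK] at *
        exact ih _ (Gm.ff_κ P hK) _ o'
      · exact (not_lt.1 o).trans (Nat.cast_nonneg _)
    rw [Finset.sum_insert p, Finset.sum_insert p, add_comm P.δ, ← add_assoc]
    have a' := (Nat.cast_le (α := ℝ)).2 a
    push_cast at a' b h ⊢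
    linarith

theorem hk (n : ℕ) : HK n := by
  induction n with
  | zero =>
    intro K _ _ hK s _
    have e : ∀ β : BD K, H0 β = ⊤ := fun β => eq_top_iff.2 fun f _ =>
      mem_H0.2 (.inr fun P => (no_pl hK P).elim)
    rw [h0, e, finrank_top, (U.fin_zero hK).2]
    simp [vol, I]
  | succ n ih =>
    intro K _ _ hK s hb
    obtain ⟨u, hu, e⟩ := exists_nz s
    rw [← e] at hb ⊢
    obtain ⟨g, g1, g0, g2⟩ := r.red n K hK u hu hb
    have f := r.isb hK (add_mem (dv_mem_Car g) (mx_mem_Car u)) u hb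
    have s1 : ∀ P ∈ f.toFinset, (dv g + mx u) P = 1 := fun P hP =>
      let ⟨a, b⟩ := f.mem_toFinset.1 hP
      (g2 P a).resolve_left b
    rw [U.vol_eq r.md r.it hK (smp_mx u) g _ s1 fun P a b =>
      not_not.1 fun c => b (f.mem_toFinset.2 ⟨a, c⟩)]
    refine (r.hmx0 ih hK hb _).trans (Nat.cast_le.2 ?_)
    rw [← h0_add_dv (cn K (n + 1) + ((n + 1 + 1 : ℕ) : ℝ) • mx u) g0]
    have := r.md.fin n K hK _ (In.IsB.add (In.IsB.add (r.md.isb n K hK).2.1
      (r.isb hK (CarZ.car (CarZ.nsmul (mx_mem_CarZ u) (n + 1 + 1))))) (r.isb hK (dv_mem_Car g)))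
    refine h0_mono fun Q => ?_
    have a : (0 : ℝ) ≤ _ := (sec_of_span g1).resolve_left g0 Q
    have b : (∑ P ∈ f.toFinset, P.δ) Q ≤ (dv g + mx u) Q := by
      rw [sum_δ]
      split_ifs with q
      exacts [(s1 Q q).ge, a]
    simp only [Pi.add_apply, Pi.smul_apply, smul_eq_mul] at b ⊢
    push_cast
    linarith

theorem exists_adj (hK : FF K n) {s : Finset K} (hb : Big (mx s)) :
    ∃ g : K, g ≠ 0 ∧ 0 ≤ dv g + (cn K n + ((n + 1 : ℕ) : ℝ) • mx s) := by
  have a := (r.hy.vol_pos hK (nef_mx s) hb).trans_le (r.hk n K hK s hb)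
  by_contra! c
  rw [h0, show H0 _ = ⊥ from eq_bot_iff.2 fun f hf => by_contra fun f0 =>
    c f f0 ((mem_H0.1 hf).resolve_left f0), finrank_bot] at a
  simp at a

/-- the number of sections is bounded by the volume -/
theorem h0_le (hK : FF K n) {s : Finset K} (hb : Big (mx s)) {β B : BD K} (hβ : β ∈ Car K)
    (hB : Nef B) (p : Psef (B - (β + mx s))) : (h0 β : ℝ) ≤ (n + 1) * vol n B := by
  classical
  have v := r.hy.vol_nonneg hK hB
  by_cases z : H0 β = ⊥
  · rw [h0, z, finrank_bot, Nat.cast_zero]; positivity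
  obtain ⟨f, hf, f0⟩ := Submodule.exists_mem_ne_zero_of_ne_bot z
  obtain ⟨u, hu, e⟩ := exists_nz s
  rw [← e] at hb p
  have fi := U.fin_of r.md n K hK _ (add_mem hβ (mx_mem_Car u))
  obtain ⟨w, hw⟩ := (Submodule.fg_iff_finiteDimensional _).2 fi
  have m : ∀ g ∈ u, g * f ∈ Submodule.span ℂ (w : Set K) := fun g hg => hw ▸ mem_H0.2 (by
    rw [mul_comm]; exact (mem_H0.1 hf).mul (sec_of_mem hg))
  obtain ⟨g, hg, g0⟩ := id hu
  have nw : Nz w := nz_iff_span.2 fun c => mul_ne_zero g0 f0 (by simpa [c] using m g hg)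
  have l1 : mx w ≤ β + mx u := mx_le nw fun x hx => mem_H0.1 (hw ▸ Submodule.subset_span hx)
  have l2 : mx (u.image (· * f)) ≤ mx w := mx_le_of_span
    ⟨_, Finset.mem_image_of_mem _ hg, mul_ne_zero g0 f0⟩ (Finset.forall_mem_image.2 m)
  rw [mx_image_mul hu f0] at l2
  have bw : Big (mx w) := (hb.congr (by simpa using neg_mem (dv_mem_Prn f))).mono l2
  have a := r.hb n K hK w 1 bw
  have := U.fin_of r.md n K hK _ (mx_mem_Car w)
  have b : h0 β ≤ h0 (mx w) := by
    rw [← h0_add_dv β (inv_ne_zero g0)]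
    refine Submodule.finrank_mono fun x hx => span_le_H0 w (hw ▸ mem_H0.2 ((mem_H0.1 hx).mono ?_))
    rw [dv_inv]
    exact add_le_add_right (neg_le_iff_add_nonneg'.2 (dv_add_mx_nonneg hg g0)) _
  have c := r.hy.vol_mono hK (nef_mx w) hB (p.mono (sub_le_sub_left l1 _))
  rw [Nat.cast_one, one_smul, add_comm 1 n, Nat.choose_succ_self_right] at a
  push_cast at a
  nlinarith [(Nat.cast_le (α := ℝ)).2 b]

/-- **HMX** -/
theorem hmx (hK : FF K (n + 1)) {s : Finset K} (hb : Big (mx s)) {Λ M G : BD K} (hΛ : Smp Λ)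
    (bΛ : Big Λ) (hM : Smp M) (le : mx s ≤ M) (dM : Dsc Λ M) (dG : Dsc Λ G) {c δ : ℝ} (d0 : 0 < δ)
    (d1 : δ ≤ 1) (c0 : 0 ≤ c) (p : Psef (c • M - G)) (T : Finset (Pl K))
    (h0' : ∀ P, On n Λ P → cn K (n + 1) P ≤ G P)
    (h1 : ∀ P ∈ T, On n Λ P → cn K (n + 1) P + δ ≤ G P) :
    ∑ P ∈ T, vol n (res P (mx s)) ≤ (n + 2) * ((c + n + 3) / δ) ^ (n + 1) * vol (n + 1) M := by
  obtain ⟨g, g0, hg⟩ := r.exists_adj hK hb
  have i1 : 0 ≤ δ⁻¹ - 1 := sub_nonneg.2 ((one_le_inv₀ d0).2 d1)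
  have dβ : Dsc Λ (δ⁻¹ • G + (δ⁻¹ - 1) • (dv g + (n + 2 : ℝ) • M) + (n + 1 : ℝ) • M) :=
    ((dG.smul _).add (((Dsc.dv hΛ g).add (dM.smul _)).smul _)).add (dM.smul _)
  have a := r.h0_le hK hb dβ.car (B := ((c + n + 3) / δ) • M) (hM.nef.smul (by positivity)) (by
    have := ((p.smul (inv_pos.2 d0).le).add (hM.psef.smul
      (show 0 ≤ δ⁻¹ by positivity))).add (Eff.of_nonneg (sub_nonneg.2 le)).psef
    refine this.congr ?_
    rw [show ((c + n + 3) / δ) • M - (δ⁻¹ • G + (δ⁻¹ - 1) • (dv g + (n + 2 : ℝ) • M) +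
      (n + 1 : ℝ) • M + mx s) - (δ⁻¹ • (c • M - G) + δ⁻¹ • M + (M - mx s)) = (1 - δ⁻¹) • dv g by
        rw [div_eq_mul_inv]; module]
    exact Submodule.smul_mem _ _ (dv_mem_Prn g))
  rw [(r.hy.row _ K hK).vol_smul _ hM.car] at a
  refine (r.hmx0 (r.hk n) hK hb T).trans (le_trans (Nat.cast_le.2 ?_) (a.trans_eq ?_))
  · have := U.fin_of r.md _ K hK _ dβ.car
    refine Submodule.finrank_mono fun f hf => mem_H0.2 (or_iff_not_imp_left.2 fun f0 => ?_)
    refine (r.ng.nn n K hK Λ _ hΛ bΛ ((Dsc.dv hΛ f).add dβ) fun P o => ?_).1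
    have x := (mem_H0.1 hf).resolve_left f0 P
    have y := hg P
    have l := le P
    have z : (∑ Q ∈ T, Q.δ) P ≤ δ⁻¹ * (G P - cn K (n + 1) P) := by
      rw [sum_δ]
      split_ifs with q
      · rw [le_inv_mul_iff₀ d0]; linarith [h1 P q o]
      · exact mul_nonneg (inv_pos.2 d0).le (sub_nonneg.2 (h0' P o))
    simp only [Pi.add_apply, Pi.smul_apply, smul_eq_mul, Pi.zero_apply] at x y ⊢
    push_cast at x y
    have w : 0 ≤ dv g P + (n + 2) * M P + cn K (n + 1) P := by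
      nlinarith [mul_le_mul_of_nonneg_left l (show (0 : ℝ) ≤ n + 2 by positivity)]
    nlinarith [mul_nonneg i1 w, mul_le_mul_of_nonneg_left l (show (0 : ℝ) ≤ n + 1 by positivity)]
  · push_cast; ring

theorem deg (k : ℕ) : DEG k := fun q q0 => by
  refine ⟨(k + 2) * ((3 + k + 3) / (2 * q : ℝ)⁻¹) ^ (k + 1),
    fun L _ _ ε a Λ Γ N Z m s f T w a0 am m1 hb le f0 hf hT => ?_⟩
  have q1 : (1 : ℝ) ≤ q := by exact_mod_cast q0
  have m2 : (1 : ℝ) ≤ m := by exact_mod_cast m1
  have d1 : (2 * q : ℝ)⁻¹ ≤ 1 / 2 := by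
    rw [one_div]; exact inv_anti₀ two_pos (by linarith)
  have dZ : Dsc Λ Z := (w.dn.smul a).congr w.rep.2
  have th : ∀ P, On k Λ P → ∀ i j : ℤ, cn L (k + 1) P + Int.fract (i * N P + j * (q * Γ P)) ≤
      Γ P + Z P := fun P o i j => by
    have := w.ix P o i j
    simp only [ld, dsc, Pi.sub_apply, Pi.add_apply] at this
    linarith
  have hf2 : ∀ P, On k Λ P → ∀ i j : ℤ, Int.fract (i * N P + j * (q * Γ P)) ≠ 0 →
      cn L (k + 1) P + 1 / 2 ≤ Γ P + Z P := fun P o i j h => by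
    have x := th P o i j
    have y := th P o (-i) (-j)
    rw [show ((-i : ℤ) : ℝ) * N P + (-j : ℤ) * (q * Γ P) = -(i * N P + j * (q * Γ P)) by
      push_cast; ring, Int.fract_neg h] at y
    linarith
  refine r.hmx w.ff hb w.smp w.big (w.sn.smul m.cast_nonneg) le (w.dn.smul _)
    ((w.dg.add dZ).add ((Dsc.dv w.smp f).add (w.dn.smul m))) (by positivity) (by linarith)
    (by norm_num) ?_ T (fun P o => ?_) fun P p o => ?_
  · refine (w.p1.add (w.sn.psef.smul (show 0 ≤ 2 * m - 1 - a by linarith))).congr ?_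
    rw [show (3 : ℝ) • (m : ℝ) • N - (Γ + Z + (dv f + (m : ℝ) • N)) -
      (N - Γ + (2 * m - 1 - a) • N) = -(Z - a • N) - dv f by module]
    exact sub_mem (neg_mem w.rep.2) (dv_mem_Prn f)
  · have x := th P o 0 0
    have y : (0 : ℝ) ≤ _ := hf P
    simp only [Pi.add_apply] at y ⊢
    linarith [Int.fract_nonneg (((0 : ℤ) : ℝ) * N P + (0 : ℤ) * (q * Γ P))]
  have y : (0 : ℝ) ≤ _ := hf P
  have z : (0 : ℝ) ≤ _ := w.rep.1 P
  rcases (hT P p).2 with h | h | h
  · exact (h o).elim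
  · by_cases c : Int.fract ((0 : ℤ) * N P + (1 : ℤ) * (q * Γ P)) = 0
    · obtain ⟨d, hd⟩ := (r.md.isb k L w.ff).2.2 P
      obtain ⟨e, he⟩ : ∃ e : ℤ, q * Γ P = e :=
        (Int.fract_eq_zero_iff.1 c).imp fun _ x => by simpa using x.symm
      simp only [dsc, Pi.sub_apply, hd] at h
      have x : q * d < e := by
        have : (q : ℝ) * d < e := by rw [← he]; nlinarith
        exact_mod_cast this
      have x' : (q : ℝ) * d + 1 ≤ q * Γ P := by rw [he]; exact_mod_cast x
      have x2 : (2 * q : ℝ)⁻¹ ≤ Γ P - d := by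
        rw [inv_le_iff_one_le_mul₀ (by positivity)]; nlinarith
      simp only [Pi.add_apply, hd] at y ⊢
      linarith
    · have := hf2 P o 0 1 c
      simp only [Pi.add_apply] at y ⊢
      linarith
  · by_cases c : Int.fract ((m : ℤ) * N P + (0 : ℤ) * (q * Γ P)) = 0
    · obtain ⟨e, he⟩ : ∃ e : ℤ, m * N P = e :=
        (Int.fract_eq_zero_iff.1 c).imp fun _ x => by simpa using x.symm
      have x := th P o 0 0
      simp only [Pi.add_apply, Pi.smul_apply, smul_eq_mul, he, dv_apply, ← Int.cast_add] at y h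
      have x1 : 1 ≤ P.ord f + e := by
        have a1 : 0 ≤ P.ord f + e := by exact_mod_cast y
        have a2 : P.ord f + e ≠ 0 := by exact_mod_cast h
        omega
      have x2 : (1 : ℝ) ≤ P.ord f + e := by exact_mod_cast x1
      simp only [Pi.add_apply, Pi.smul_apply, smul_eq_mul, he, dv_apply]
      linarith [Int.fract_nonneg (((0 : ℤ) : ℝ) * N P + (0 : ℤ) * (q * Γ P))]
    · have := hf2 P o m 0 c
      simp only [Pi.add_apply] at y ⊢
      linarith

end Rw

/-! ### the equality case of the index theorem -/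

/-- the form `x · y · c` -/
abbrev F (x y : BD K) (c : Fin n → BD K) : ℝ := I (n + 2) K (Fin.cons x (Fin.cons y c))

theorem resc (P : Pl K) (y : BD K) (c : Fin n → BD K) :
    (fun i => res P ((Fin.cons y c : Fin (n + 1) → BD K) i)) =
      Fin.cons (res P y) fun i => res P (c i) := funext fun i => by
  induction i using Fin.cases <;> rfl

theorem cf_F (P : Pl K) (x y : BD K) (c : Fin n → BD K) :
    In.cf P (Fin.cons x (Fin.cons y c)) = F (res P x) (res P y) fun i => res P (c i) := by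
  rw [In.cf, resc, resc]

namespace Rw

variable (r : Rw)
include r

section form

variable {x x' y z w A N : BD K} {c : Fin n → BD K} {t : ℝ}

theorem F_perm (hK : FF K (n + 2)) (hc : ∀ i, c i ∈ Car K) (σ : Equiv.Perm (Fin n)) :
    F x y (c ∘ σ) = F x y c := finsum_congr fun P => by
  change x P * In.cf P (Fin.cons y (c ∘ σ)) = x P * In.cf P (Fin.cons y c)
  rw [In.cf, In.cf, resc, resc]
  exact congrArg _ (r.it.perm' n _ (Gm.ff_κ P hK) _ (fun i => res P (c i)) σ
    fun _ => In.res_car _ _)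

theorem F_rot (hK : FF K (n + 3)) : F x y (Fin.cons z c) = F x z (Fin.cons y c) :=
  finsum_congr fun P => by
    change x P * In.cf P (Fin.cons y (Fin.cons z c)) = x P * In.cf P (Fin.cons z (Fin.cons y c))
    rw [cf_F, cf_F]
    exact congrArg _ (r.hy.swap (Gm.ff_κ P hK) (In.res_car _ _) (In.res_car _ _)
      fun _ => In.res_car _ _)

variable (hK : FF K (n + 2)) (hc : ∀ i, c i ∈ Car K)
include hK hc

theorem F_comm (hx : x ∈ Car K) (hy : y ∈ Car K) : F x y c = F y x c := r.hy.swap hK hx hy hc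

theorem F_lin (hx : x ∈ Car K) (hx' : x' ∈ Car K) (hy : y ∈ Car K) (a b : ℝ) :
    F (a • x + b • x') y c = a * F x y c + b * F x' y c := by
  rw [F, r.hy.cons_add hK (r.isb hK (Submodule.smul_mem _ _ hx))
    (r.isb hK (Submodule.smul_mem _ _ hx')) (In.cons_mem hy hc), In.cons_smul, In.cons_smul]

theorem F_bil (hx : x ∈ Car K) (hy : y ∈ Car K) (a b a' b' : ℝ) :
    F (a • x + b • y) (a' • x + b' • y) c =
      a * a' * F x x c + (a * b' + b * a') * F x y c + b * b' * F y y c := by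
  have m := add_mem (Submodule.smul_mem _ a' hx) (Submodule.smul_mem _ b' hy)
  rw [r.F_lin hK hc hx hy m, r.F_comm hK hc hx m, r.F_comm hK hc hy m, r.F_lin hK hc hx hy hx,
    r.F_lin hK hc hx hy hy, r.F_comm hK hc hy hx]
  ring

omit hc

theorem F_kt (hc : ∀ i, Nef (c i)) (hA : Nef A) (hx : x ∈ Car K) (h : Nef (t • A + x)) :
    F A A c * F x x c ≤ F A x c ^ 2 := by
  have k := fun i => (hc i).car
  have a := r.vl.kt n K hK A _ c hA h hc
  have b := r.F_bil hK k hA.car hx 1 0 t 1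
  have d := r.F_bil hK k hA.car hx t 1 t 1
  simp only [one_smul, zero_smul, add_zero] at b d
  change F A A c * F _ _ c ≤ F A _ c ^ 2 at a
  rw [b, d] at a
  nlinarith

theorem F_neg (hc : ∀ i, Nef (c i)) (hA : Nef A) (h1 : Nef (t • A + w)) (h2 : Nef (t • A - w))
    (e : F w A c = 0) : F w w c ≤ 0 := by
  have k := fun i => (hc i).car
  have hw : w ∈ Car K := by simpa using sub_mem h1.car (Submodule.smul_mem _ t hA.car)
  have a := r.F_kt hK hc hA hw h1
  have b : 0 ≤ F (t • A + w) (t • A - w) c :=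
    (r.hy.row _ K hK).nef _ (In.cons_mem h1 (In.cons_mem h2 hc))
  have d := r.F_bil hK k hA.car hw t 1 t (-1)
  have f : 0 ≤ F A A c := (r.hy.row _ K hK).nef _ (In.cons_mem hA (In.cons_mem hA hc))
  rw [one_smul, neg_one_smul, ← sub_eq_add_neg] at d
  rw [r.F_comm hK k hA.car hw, e] at a d
  rcases f.eq_or_lt with g | g
  · rw [d, ← g] at b; linarith
  · nlinarith

theorem F_rad (hc : ∀ i, Nef (c i) ∧ Big (c i)) (hA : Nef A) (bA : Big A) (h1 : Nef (t • A + w))
    (h2 : Nef (t • A - w)) (e : F w A c = 0) (e' : F w w c = 0) (hy : y ∈ Car K) :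
    F w y c = 0 := by
  have k := fun i => (hc i).1.car
  have p : 0 < F A A c := r.hy.pos hK (In.cons_mem (p := fun x => Nef x ∧ Big x) ⟨hA, bA⟩
    (In.cons_mem (p := fun x => Nef x ∧ Big x) ⟨hA, bA⟩ hc))
  have key : ∀ {w y : BD K}, Nef (t • A + w) → F w A c = 0 → F w w c = 0 → Nef y →
      F w y c ≤ 0 := fun {w y} h1 e e' hy => by
    have hw : w ∈ Car K := by simpa using sub_mem h1.car (Submodule.smul_mem _ t hA.car)
    refine le_of_forall_pos_le_add fun η h => ?_
    obtain ⟨s, s0, hs⟩ : ∃ s : ℝ, 0 < s ∧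
        s * (F y A c ^ 2 - F A A c * F y y c) ≤ 2 * F A A c * η := by
      refine ⟨2 * F A A c * η / (|F y A c ^ 2 - F A A c * F y y c| + 1), by positivity, ?_⟩
      rw [div_mul_eq_mul_div, div_le_iff₀ (by positivity)]
      exact mul_le_mul_of_nonneg_left ((le_abs_self _).trans (by linarith)) (by positivity)
    have m := add_mem (Submodule.smul_mem _ (1 : ℝ) hw) (Submodule.smul_mem _ s hy.car)
    have a := r.F_kt hK (fun i => (hc i).1) hA m (t := t) (by
      rw [one_smul, ← add_assoc]; exact h1.add (hy.smul s0.le))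
    rw [r.F_bil hK k hw hy.car, r.F_comm hK k hA.car m, r.F_lin hK k hw hy.car hA.car, e, e'] at a
    have : s * (2 * F A A c * (F w y c - η)) ≤ s * 0 := by nlinarith
    have := le_of_mul_le_mul_left this s0
    nlinarith
  have hw : w ∈ Car K := by simpa using sub_mem h1.car (Submodule.smul_mem _ t hA.car)
  have z : ∀ {y : BD K}, Nef y → F w y c = 0 := fun {y} hy => by
    have n : ∀ y, F (-w) y c = -F w y c := fun y => by
      rw [F, ← neg_one_smul ℝ w, In.cons_smul, neg_one_mul]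
    have := key (w := -w) (sub_eq_add_neg _ w ▸ h2) (by rw [n, e, neg_zero])
      (by rw [n, r.F_comm hK k hw (neg_mem hw), n, e', neg_neg]) hy
    exact le_antisymm (key h1 e e' hy) (by rwa [n, neg_nonpos] at this)
  obtain ⟨a, b, ha, hb, rfl⟩ := mem_Car_iff_sub.1 hy
  have := r.F_lin hK k ha.car hb.car hw 1 (-1)
  rw [one_smul, neg_one_smul, ← sub_eq_add_neg, r.F_comm hK k ha.car hw, r.F_comm hK k hb.car hw,
    z ha.nef, z hb.nef] at this
  rw [r.F_comm hK k hw hy, this]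
  ring

omit hK

theorem F_step (hK : FF K (n + 3)) (hc : ∀ i, Nef (c i) ∧ Big (c i)) (hA : Nef A) (bA : Big A)
    (h1 : Nef (t • A + w)) (h2 : Nef (t • A - w)) (hN : Nef N)
    (e : F w A (Fin.cons A c) = 0) (e' : F w w (Fin.cons A c) = 0) :
    F w A (Fin.cons N c) = 0 ∧ F w w (Fin.cons N c) = 0 := by
  have hw : w ∈ Car K := by simpa using sub_mem h1.car (Submodule.smul_mem _ t hA.car)
  have k := fun i => (hc i).1.car
  have z : ∀ y ∈ Car K, F w y (Fin.cons A c) = 0 := fun y hy =>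
    r.F_rad hK (In.cons_mem (p := fun x => Nef x ∧ Big x) ⟨hA, bA⟩ hc) hA bA h1 h2 e e' hy
  have a : F w A (Fin.cons N c) = 0 := by rw [r.F_rot hK, z N hN.car]
  refine ⟨a, le_antisymm (r.F_neg hK (In.cons_mem hN fun i => (hc i).1) hA h1 h2 a) ?_⟩
  obtain ⟨ε, e0, E, E0, hE⟩ := bA.exists_eff hN.car
  have kw := In.cons_mem hw k
  have b : F E w (Fin.cons w c) ≤ 0 := by
    refine finsum_induction (· ≤ (0 : ℝ)) le_rfl (fun _ _ => add_nonpos) fun P => ?_
    refine mul_nonpos_of_nonneg_of_nonpos (E0 P) ?_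
    change In.cf P (Fin.cons w (Fin.cons w c)) ≤ 0
    have s := fun {x : BD K} (h : Nef x) => r.hy.res_nef hK P h
    have h3 := s h1
    have h4 := s h2
    rw [r.rs.add _ K hK P _ (Submodule.smul_mem _ t hA.car) _ hw, r.rs.smul _ K hK P _ _ hA.car]
      at h3
    rw [r.hy.res_sub hK P (Submodule.smul_mem _ t hA.car) hw, r.rs.smul _ K hK P _ _ hA.car] at h4
    rw [cf_F]
    refine r.F_neg (Gm.ff_κ P hK) (fun i => s (hc i).1) (s hA) h3 h4 ?_
    obtain ⟨Λ, η, l1, l2, l3⟩ := In.hul_of r.md _ K hK P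
      (range (Fin.cons w (Fin.cons A c) : Fin (n + 2) → BD K)) (finite_range _)
      (range_subset_iff.2 (In.cons_mem hw (In.cons_mem hA.car k)))
    rw [← cf_F, r.hy.cf_hull hK l1 (fun i => l2 _ ⟨i, rfl⟩) l3]
    exact (r.F_comm hK (In.cons_mem hA.car k) l3.1.car hw).trans (z η l3.1.car)
  have d := r.F_lin hK kw hA.car hN.car hw 1 (-ε)
  rw [one_smul, neg_smul, ← sub_eq_add_neg, r.F_comm hK kw hA.car hw, r.F_comm hK kw hN.car hw,
    r.F_rot hK (y := A), r.F_rot hK (y := N), e'] at d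
  rw [F, r.hy.cons_congr hK (r.isb hK (sub_mem hA.car (Submodule.smul_mem _ _ hN.car))) hE
    (In.cons_mem hw kw)] at b
  change F _ _ _ ≤ 0 at b
  rw [d] at b
  nlinarith

end form

/-- the case of equality in the index theorem -/
theorem num_of (hK : FF K (n + 2)) {A w : BD K} {t : ℝ} (hA : Nef A) (bA : Big A)
    (h1 : Nef (t • A + w)) (h2 : Nef (t • A - w)) (e : F w A (fun _ : Fin n => A) = 0)
    (e' : 0 ≤ F w w fun _ : Fin n => A) : Num w := by
  have hw : w ∈ Car K := by simpa using sub_mem h1.car (Submodule.smul_mem _ t hA.car)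
  have key : ∀ y : Fin n → BD K, (∀ i, Nef (y i) ∧ Big (y i)) → ∀ J : Finset (Fin n),
      F w A (J.piecewise y fun _ => A) = 0 ∧ F w w (J.piecewise y fun _ => A) = 0 :=
    fun y hy J => by
    induction J using Finset.induction_on with
    | empty => simpa using ⟨e, le_antisymm (r.F_neg hK (fun _ => hA) hA h1 h2 e) e'⟩
    | insert j J hj ih =>
      obtain _ | n := n
      · exact j.elim0
      have g : ∀ (J : Finset (Fin (n + 1))) i, Nef (J.piecewise y (fun _ => A) i) ∧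
          Big (J.piecewise y (fun _ => A) i) := fun J i => by
        by_cases q : i ∈ J <;> simp [q, hA, bA, hy]
      have u : ∀ c : Fin (n + 1) → BD K, c ∘ j.cycleRange.symm =
          Fin.cons (c j) fun i => c (j.succAbove i) := fun c => funext fun i => by
        induction i using Fin.cases <;> simp
      have v := fun (J : Finset (Fin (n + 1))) x =>
        r.F_perm (x := w) (y := x) hK (fun i => (g J i).1.car) j.cycleRange.symm
      rw [← v, ← v, u, Finset.piecewise_eq_of_notMem _ _ _ hj] at ih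
      rw [← v, ← v, u, Finset.piecewise_eq_of_mem _ _ _ (Finset.mem_insert_self _ _)]
      simp only [Finset.piecewise_insert_of_ne _ _ _ (j.succAbove_ne _)]
      exact r.F_step hK (fun i => g J _) hA bA h1 h2 (hy j).1 ih.1 ih.2
  refine (r.it.num _ K hK w hw).2 fun γ hγ => (r.hy.tail_ml hK (r.isb hK hw)).zero_of_span
    (S := {y | Nef y ∧ Big y}) (fun _ h => h.1.car) (fun y hy => ?_) γ fun i => ?_
  · have := key (fun i => y i.succ) (fun i => hy _) Finset.univ
    rw [Finset.piecewise_univ] at this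
    rw [← Fin.cons_self_tail y]
    exact r.F_rad hK (fun i => hy _) hA bA h1 h2 this.1 this.2 (hy 0).1.car
  · obtain ⟨a, b, ha, hb, x⟩ := mem_Car_iff_sub.1 (hγ i)
    rw [x, ← add_sub_add_left_eq_sub a b A]
    exact sub_mem (Submodule.subset_span ⟨hA.add ha.nef, bA.add_smp ha⟩)
      (Submodule.subset_span ⟨hA.add hb.nef, bA.add_smp hb⟩)

theorem num_of_dsc (hK : FF K (n + 2)) {A w : BD K} (bA : Big A) (d : Dsc A w)
    (e : I (n + 2) K (Fin.cons w fun _ => A) = 0)
    (e' : 0 ≤ I (n + 2) K (Fin.cons w (Fin.cons w fun _ => A))) : Num w := by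
  obtain ⟨t, t0, a, b⟩ := id d
  have a := a.smul (inv_pos.2 t0).le
  have b := b.smul (inv_pos.2 t0).le
  rw [smul_add, inv_smul_smul₀ t0.ne'] at a
  rw [smul_sub, inv_smul_smul₀ t0.ne'] at b
  refine r.num_of hK d.smp.nef bA a.nef b.nef (e ▸ congrArg (fun c => I _ K (Fin.cons w c)) ?_) e'
  exact Fin.cons_self_tail fun _ : Fin (n + 1) => A

theorem hn (k : ℕ) : HN k := fun L _ _ A N b hL _ bA hN d e e' =>
  r.hy.cons_num hL (r.num_of_dsc hL bA d e e') fun _ => hN.car

end Rw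

end Vale.Agent.P283B.Eb
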