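import Vale.Agent.P287D.Wp.Sa

/-!
# P283B, block EB: the discriminant over the centre of a log canonical place, twisted form
-/

open Set
open Vale.Agent.P297Z.Pl

noncomputable section

namespace Vale.Agent.P283B.Eb

open P287D P287D.Wp Loq Ae

variable {K : Type} [Field K] [Algebra ℂ K] {n : ℕ} {Λ Θ β : BD K} {s : Finset K} {P : Pl K}

/-- the generalised pair `Θ` on `V Λ`, a place `P` of discrepancy `-1`, and a divisor `β` of
`V Λ` above the round up of the discrepancies -/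
structure Sv (n : ℕ) (Λ Θ β : BD K) (P : Pl K) : Prop where
  ff : FF K (n + 1)
  smp : Smp Λ
  big : Big Λ
  nef : ∃ c : ℝ, Nef (c • Λ - Θ)
  des : Dsc Λ β
  zp : β P = 0
  le : ∀ R, On n Λ R → R ≠ P → (⌈dsc (n + 1) Θ R⌉ : ℝ) ≤ β R
  lc : dsc (n + 1) Θ P = -1

theorem Sv.car (h : Sv n Λ Θ β P) : Θ ∈ Car K := let ⟨_, c⟩ := h.nef; car_of_nef h.smp c

theorem sv_of_su (h : Su n Λ Θ P) : Sv n Λ Θ 0 P :=
  ⟨h.ff, h.smp, h.big, h.nef, .zero h.smp, rfl, fun R r _ => ceil_np (h.bdy R r), h.lc⟩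

theorem Sv.large (h : Sv n Λ Θ β P) (a : AmpOn Λ (mx s)) : ∃ m₀ : ℕ, ∀ m : ℕ, m₀ ≤ m →
    Nef ((m : ℝ) • mx s - Θ) ∧ Big ((m : ℝ) • mx s - Θ) := by
  obtain ⟨c, hc⟩ := h.nef
  obtain ⟨ε, e, h2⟩ := a.2
  obtain ⟨m₀, hm⟩ := exists_nat_gt (c / ε)
  refine ⟨m₀, fun m k => ?_⟩
  have b : 0 < m * ε - c := by
    have := (div_lt_iff₀ e).1 (hm.trans_le (Nat.cast_le.2 k)); linarith
  have d : (m : ℝ) • mx s - Θ = (m * ε - c) • Λ + ((m : ℝ) • (mx s - ε • Λ) + (c • Λ - Θ)) := by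
    module
  have f := (h2.smul (Nat.cast_nonneg m)).nef.add hc
  rw [d]
  exact ⟨(h.smp.smul b.le).nef.add f, (h.big.smul b).add_nef f⟩

theorem ceil_dv (Γ : BD K) (u : K) (R : Pl K) :
    (⌈dsc n (Γ - dv u) R⌉ : ℝ) = ⌈dsc n Γ R⌉ + R.ord u := by
  rw [← Int.cast_add, ← Int.ceil_add_intCast]
  simp only [dsc, Pi.sub_apply, dv_apply, sub_add]

/-- adjoint sections lift after multiplication with a common section -/
theorem Sv.core (h : Sv n Λ Θ β P) (hs : Nz s) (a : AmpOn Λ (mx s)) {Z : Set (Pl P.κ)}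
    (hZ : Z.Finite) {u v : P.κ} (u0 : u ≠ 0) (v0 : v ≠ 0)
    (k : ∀ R, (Aj n (adj n P Θ) R u ∧ Aj n (adj n P Θ) R v) ∨
      ∃ m w, Us (P.rs s) Z m w ∧ 0 < (dv w + (m : ℝ) • mx (P.rs s)) R) :
    ∃ m w, Us (P.rs s) Z m w ∧ ∀ x, x = u ∨ x = v → ∃ f : K, f ≠ 0 ∧
      0 ≤ dv f + (β + (m : ℝ) • mx s) ∧ P.ord f = -(m * P.mz s) ∧
      P.rd (f * P.t ^ (m * P.mz s)) = x * w := by
  classical
  have hK := h.ff
  have hκ := Gm.ffs.rsd n K hK P
  have c := (a1 n K hK P Θ h.car).1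
  obtain ⟨m₀, hm⟩ := h.large a
  obtain ⟨T, hT⟩ := chk hκ (sub_mem c (dv_mem_Car u)) (mx_mem_Car (P.rs s))
  obtain ⟨T', hT'⟩ := chk hκ (sub_mem c (dv_mem_Car v)) (mx_mem_Car (P.rs s))
  have e : ∀ {x : P.κ} {R}, x ≠ 0 → Aj n (adj n P Θ) R x →
      (0 : ℝ) ≤ ⌈dsc n (adj n P Θ - dv x) R⌉ := fun x0 a => by
    have := a.resolve_left x0
    rw [ceil_dv, ← Int.cast_add, Int.cast_nonneg_iff, ← neg_le_iff_add_nonneg, Int.le_ceil_iff]
    push_cast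
    linarith
  obtain ⟨m, w, hm', y, b⟩ := Wp.large (nz_rs hs) hZ (T ∪ T')
    (fun R => min (⌈dsc n (adj n P Θ - dv u) R⌉ : ℝ) ⌈dsc n (adj n P Θ - dv v) R⌉)
    (fun R _ => (k R).imp_left fun a => le_min (e u0 a.1) (e v0 a.2)) m₀
  have dd := (Dsc.dv (smp_mx (P.rs s)) w).add ((Dsc.refl (smp_mx _)).smul (m : ℝ))
  have d := hT _ dd y.nn fun R r =>
    (b R (Finset.mem_union_left _ r)).trans (add_le_add (min_le_left _ _) le_rfl)
  have d' := hT' _ dd y.nn fun R r =>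
    (b R (Finset.mem_union_right _ r)).trans (add_le_add (min_le_right _ _) le_rfl)
  have hL : (m : ℝ) • mx s ∈ CarZ K := CarZ.nsmul (mx_mem_CarZ s) m
  have rL : res P ((m : ℝ) • mx s) = (m : ℝ) • mx (P.rs s) := by
    rw [P287D.res_smul hK P _ (mx_mem_Car s), res_mx hK]
  refine ⟨m, w, y, fun x hx => ?_⟩
  have x0 : x ≠ 0 := hx.elim (· ▸ u0) (· ▸ v0)
  have dx : ∀ R, 0 ≤ ⌈dsc n (adj n P Θ - dv x) R⌉ + (dv w + (m : ℝ) • mx (P.rs s)) R :=
    hx.elim (· ▸ d) (· ▸ d')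
  obtain ⟨f, f0, g, o, r, -⟩ := lift adh hK h.smp h.big h.car h.lc h.des h.zp.ge h.le hL
    (a.1.smul _) (k := m * P.mz s) (by simp [mx_apply]) (hm m hm').1 (hm m hm').2
    (mul_ne_zero x0 y.ne) (.inr fun R => by
      have := dx R
      rw [ceil_dv] at this
      rw [rL, dv_mul x0 y.ne]
      simp only [Pi.add_apply, Pi.zero_apply, dv_apply] at this ⊢
      linarith)
  exact ⟨f, f0, g, o, r⟩

theorem Sv.sec (h : Sv n Λ Θ β P) {m : ℕ} {f : K} {x : P.κ} (f0 : f ≠ 0)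
    (g : 0 ≤ dv f + (β + (m : ℝ) • mx s)) (o : P.ord f = -(m * P.mz s))
    (r : P.rd (f * P.t ^ (m * P.mz s)) = x) :
    0 ≤ dv x + (res P β + (m : ℝ) • mx (P.rs s)) := by
  have hK := h.ff
  have c := Submodule.smul_mem _ (m : ℝ) (mx_mem_Car s)
  have := res'.nn n K hK P _ (add_mem (dv_mem_Car f) (add_mem h.des.car c)) g (by
    simp [dv_apply, o, h.zp, mx_apply])
  rwa [P287D.res_add hK P (dv_mem_Car f) (add_mem h.des.car c), Ae.res_dv res' hK f0 o, r,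
    P287D.res_add hK P h.des.car c, P287D.res_smul hK P _ (mx_mem_Car s), res_mx hK] at this

/-- **TVG**: the threshold over a prime `v` of the centre is at most any integer above the
multiplicity of `β` -/
theorem Sv.tv (h : Sv n Λ Θ β P) {L : IntermediateField ℂ P.κ} (hL : fld (res P Λ) = L)
    (hor : ∀ w, Hor L w → -1 < dsc n (adj n P Θ) w) {k : ℕ} {H b : BD L} {v : Pl L}
    (fL : FF L (k + 1)) (sH : Smp H) (bH : Big H) (pr : Dsc (res P Λ) (pb (inc L) H))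
    (hv : On k H v) (hb : res P β = pb (inc L) b) {i : ℤ} (hi : b v < i) :
    ∃ w, Lies (inc L) w v ∧ dsc n (adj n P Θ) w + 1 ≤ i * w.ord (inc L v.t) := by
  classical
  by_contra! hc
  have hκ := Gm.ffs.rsd n K h.ff P
  have ok := hκ.ok_sub L
  obtain ⟨s', h1, a'⟩ := h.smp.exists_ampOn
  have hs' : Nz s' := ⟨1, h1, one_ne_zero⟩
  have a : AmpOn (res P Λ) (mx (P.rs s')) := res_mx h.ff P s' ▸ res_ampOn h.ff P a'
  have hs := nz_rs (P := P) hs'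
  have core := fun {u : P.κ} (u0 : u ≠ 0) (R₀ : Pl P.κ) =>
    h.core hs' a' (finite_singleton R₀) u0 u0
  have sec := fun {m : ℕ} {f : K} {x : P.κ} => h.sec (s := s') (m := m) (f := f) (x := x)
  generalize P.rs s' = s at a hs core sec
  obtain ⟨g, hg, g0⟩ := id hs
  have m : ∀ f : s, f * g⁻¹ ∈ L := fun f => hL ▸ a.fld_eq ▸
    (div_eq_mul_inv (f : P.κ) g ▸ rts_le_fld s (div_mem_rts f.2 hg))
  obtain ⟨s₀, n₀, e⟩ : ∃ s₀ : Finset L, Nz s₀ ∧ pb (inc L) (mx s₀) = mx s + dv g := by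
    refine ⟨Finset.univ.image fun f : s => ⟨_, m f⟩, ⟨⟨_, m ⟨g, hg⟩⟩,
      Finset.mem_image_of_mem _ (Finset.mem_univ _), fun z =>
        mul_ne_zero g0 (inv_ne_zero g0) (congrArg Subtype.val z)⟩, ?_⟩
    have e : im (inc L) (Finset.univ.image fun f : s => ⟨_, m f⟩) = s.image (· * g⁻¹) := by
      ext x
      simp only [Pb.mem_im, Finset.mem_image, Finset.mem_univ, true_and]
      exact ⟨fun ⟨_, ⟨a, e⟩, k⟩ => ⟨a, a.2, by rw [← k, ← e]; rfl⟩,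
        fun ⟨a, e, k⟩ => ⟨_, ⟨⟨a, e⟩, rfl⟩, k⟩⟩
    rw [ok.pb_mx, e, mx_image_mul hs (inv_ne_zero g0), dv_inv, sub_neg_eq_add]
  obtain ⟨ε, hε, sm⟩ := (a.dsc'.trans pr).exists_sub
  have lo : Lo s₀ v := lo_of balg Gm.ffs res' fL n₀ sH bH hε
    ((pb_smp_iff hκ (hL ▸ cld_fld _)).1 (sm.congr (by
      rw [pb_sub, pb_smul, e, show mx s + dv g - ε • pb (inc L) H - (mx s - ε • pb (inc L) H) =
        dv g by abel]
      exact dv_mem_Prn g))) hv
  obtain ⟨R₀, r₀⟩ := Pb.up (φ := inc L) (fun _ => rfl) hκ v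
  have t0 : inc L v.t ≠ 0 := (map_ne_zero _).2 v.t_ne
  have t1 : inc L v.t ^ (-i) ≠ 0 := zpow_ne_zero _ t0
  obtain ⟨j, w, u, b'⟩ := core t1 R₀ fun R => by
    rw [and_self]
    rcases ok R with c | ⟨q, c⟩
    · refine .inl (.inr ?_)
      rw [ord_zpow, c.ord]
      simpa using hor R fun x hx => c ⟨x, hx⟩
    by_cases z : q = v
    · subst z
      refine .inl (.inr ?_)
      rw [ord_zpow]
      push_cast
      linarith [hc R c]
    obtain ⟨x, hx, hx'⟩ : ∃ x ∈ v.ring, x ∉ q.ring := not_subset.1 fun e =>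
      z (Pl.ext' (congrArg _ (eq_of_le' (v := v.toPlace) (w := q.toPlace) e)).symm)
    obtain ⟨j, w, -, w0, b, d⟩ := lo.pole n₀ (neg_mem (pld_carZ x)) 0
    have b' : pld x ≤ dv w + (j : ℝ) • mx s₀ := fun Q => by
      have := b.resolve_left w0 Q
      simp only [Pi.add_apply, Pi.neg_apply, Pi.zero_apply] at this ⊢
      linarith
    have w1 : inc L w ≠ 0 := (map_ne_zero _).2 w0
    have y : dv (inc L w * g ^ j) + (j : ℝ) • mx s = pb (inc L) (dv w + (j : ℝ) • mx s₀) := by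
      rw [pb_add, pb_smul, e, ok.pb_dv, dv_mul w1 (pow_ne_zero _ g0), dv_pow, smul_add]
      abel
    refine .inr ⟨j, inc L w * g ^ j, ⟨mul_ne_zero w1 (pow_ne_zero _ g0),
      y ▸ pb_nonneg _ ((pld_nonneg x).trans b'), ?_⟩, ?_⟩
    · rintro _ rfl
      rw [y, r₀.pb]
      simp only [Pi.add_apply, Pi.neg_apply, pld_eq_zero.2 hx, neg_zero, zero_add] at d ⊢
      rw [d, mul_zero]
    · rw [y, c.pb]
      exact mul_pos (Int.cast_pos.2 c.e_pos) ((pld_pos.2 hx').trans_le (b' q))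
  obtain ⟨f, f0, g1, o, r⟩ := b' _ (.inl rfl)
  have b1 := sec f0 g1 o r R₀
  have b2 := u.zz R₀ rfl
  have b3 : (0 : ℝ) < R₀.ord (inc L v.t) := Int.cast_pos.2 r₀.e_pos
  rw [dv_mul t1 u.ne, dv_zpow, hb] at b1
  simp only [Pi.add_apply, Pi.smul_apply, Pi.zero_apply, dv_apply, r₀.pb, smul_eq_mul] at b1 b2
  push_cast at b1
  nlinarith

end Vale.Agent.P283B.Eb
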