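import Vale.Agent.P283B.EB.Lst
import Vale.Agent.P287D.In.Int
import Vale.Agent.P287D.Va.Fld

/-!
# P283B, block EB: the limit argument, the lemmas in one field
-/

set_option linter.unusedVariables false
set_option linter.unusedSectionVars false

open Set

noncomputable section

namespace Vale.Agent.P283B.Eb

open P287D In

/-- a gap below one for the fractional parts of the multiples bounds the denominator -/
theorem int_of_fract {x δ : ℝ} (hδ : 0 < δ) (hx : ∃ r : ℚ, x = r)
    (h : ∀ i : ℤ, Int.fract (i * x) ≤ 1 - δ) : ∃ z : ℤ, ((⌊δ⁻¹⌋₊).factorial : ℝ) * x = z := by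
  obtain ⟨r, rfl⟩ := hx
  have d0 : (0 : ℝ) < r.den := Nat.cast_pos.2 r.den_pos
  have d1 : (1 : ℝ) ≤ r.den := Nat.one_le_cast.2 r.den_pos
  have e : (r : ℝ) = r.num / r.den := by rw [← Rat.cast_intCast, ← Rat.cast_natCast, ← Rat.cast_div,
    Rat.num_div_den]
  obtain ⟨a, b, g⟩ : IsCoprime r.num (r.den : ℤ) := by
    rw [Int.isCoprime_iff_gcd_eq_one]
    exact r.reduced
  have g' : (a : ℝ) * r.num + b * r.den = 1 := by exact_mod_cast g
  have f : Int.fract (((-a : ℤ) : ℝ) * r) = 1 - (r.den : ℝ)⁻¹ :=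
    Int.fract_eq_iff.2 ⟨sub_nonneg.2 (inv_le_one_of_one_le₀ d1), sub_lt_self _ (inv_pos.2 d0),
      b - 1, by
        rw [e]
        push_cast
        field_simp
        linarith⟩
  have k := h (-a)
  rw [f] at k
  have k1 : r.den ≤ ⌊δ⁻¹⌋₊ := Nat.le_floor ((le_inv_comm₀ d0 hδ).2 (by linarith))
  obtain ⟨c, hc⟩ := Nat.dvd_factorial r.den_pos k1
  refine ⟨c * r.num, ?_⟩
  rw [hc, e]
  push_cast
  field_simp

/-- the alternative for a linear system with integral coefficients -/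
theorem dich {J ι : Type} [Fintype J] [Fintype ι] (g : J → ι → ℤ) (E : ι → Prop) (c : ι → ℤ) :
    (∃ y : J → ℤ, (∀ a, E a → ∑ j, y j * g j a = 0) ∧ ∑ a, c a * ∑ j, y j * g j a ≠ 0) ∨
      ∃ x : ι → ℝ, (∀ a, ¬ E a → x a = c a) ∧ ∀ j, ∑ a, x a * g j a = 0 := by
  classical
  let col : ι → J → ℚ := fun a j => g j a
  by_cases hv : (∑ a, (c a : ℚ) • col a) ∈
      Submodule.span ℚ (range fun a => if E a then col a else 0)
  · obtain ⟨t, ht⟩ := (Submodule.mem_span_range_iff_exists_fun ℚ).1 hv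
    refine .inr ⟨fun a => c a - if E a then (t a : ℝ) else 0, fun a k => by simp [k], fun j => ?_⟩
    have e := congrFun ht j
    simp only [Finset.sum_apply, Pi.smul_apply, smul_eq_mul, ite_apply, Pi.zero_apply, col] at e
    have e' : ∑ a, (t a : ℝ) * (if E a then (g j a : ℝ) else 0) = ∑ a, (c a : ℝ) * g j a := by
      have := congrArg (fun x : ℚ => (x : ℝ)) e
      simpa [apply_ite] using this
    simp only [sub_mul, Finset.sum_sub_distrib, ← e']
    simp
  · obtain ⟨f, f0, f1⟩ := Submodule.exists_le_ker_of_notMem hv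
    obtain ⟨⟨b, b0⟩, hb⟩ := IsLocalization.exist_integer_multiples_of_finite (nonZeroDivisors ℤ)
      fun j => f (Pi.single j 1)
    choose y hy using hb
    have e : ∀ a, ((∑ j, y j * g j a : ℤ) : ℚ) = b * f (col a) := fun a => by
      rw [f.pi_apply_eq_sum_univ (col a), Finset.mul_sum]
      push_cast
      refine Finset.sum_congr rfl fun j _ => ?_
      have := hy j
      simp only [eq_intCast, zsmul_eq_mul] at this
      rw [this, show (fun i => if j = i then (1 : ℚ) else 0) = Pi.single j 1 from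
        funext fun i => by simp [Pi.single_apply, eq_comm]]
      simp only [col, smul_eq_mul]
      ring
    refine .inl ⟨y, fun a k => ?_, fun k => f0 ?_⟩
    · have := f1 (Submodule.subset_span ⟨a, rfl⟩)
      simp only [k, if_true, LinearMap.mem_ker] at this
      have k2 := e a
      rw [this, mul_zero] at k2
      exact_mod_cast k2
    · have k' : ∑ a, (c a : ℚ) * (b * f (col a)) = 0 := by
        simp only [← e]
        exact_mod_cast k
      have b1 : (b : ℚ) ≠ 0 := Int.cast_ne_zero.2 (nonZeroDivisors.ne_zero b0)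
      refine (mul_eq_zero.1 (Eq.trans ?_ k')).resolve_left b1
      simp only [map_sum, map_smul, smul_eq_mul, Finset.mul_sum]
      exact Finset.sum_congr rfl fun a _ => by ring

section bas

variable {n : ℕ} {K : Type} [Field K] [Algebra ℂ K] {A N b Z Λ Λ' : BD K} {P : Pl K}

theorem const_cons (A : BD K) : (fun _ : Fin (n + 1) => A) = Fin.cons A fun _ => A :=
  funext fun i => by refine Fin.cases rfl (fun _ => rfl) i

theorem on_up (h : Hy) (hK : FF K (n + 1)) (d : Dsc Λ' Λ) (o : On n Λ P) : On n Λ' P :=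
  by_contra fun k => o.ne' (h.exc hK k d.smp fun _ => d)

/-- one term of the degree of an effective divisor -/
theorem term_le (h : Hy) (hK : FF K (n + 1)) (i : IsB n Z) (z : 0 ≤ Z) {c : Fin n → BD K}
    (hc : ∀ j, Nef (c j)) (P : Pl K) : Z P * cf P c ≤ I (n + 1) K (Fin.cons Z c) :=
  single_le_finsum P (f := fun P => Z P * cf P c) (h.fin hK i fun j => (hc j).car)
    fun Q => mul_nonneg (z Q) (h.cf_nef hK Q hc)

/-- linearity in the second entry -/
theorem snd_lin (h : Hy) (hK : FF K (n + 2)) (i : IsB (n + 1) Z) {c : Fin n → BD K}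
    (hc : ∀ j, c j ∈ Car K) {J : Type} (T : Finset J) (y : J → ℝ) {β : J → BD K}
    (hβ : ∀ j, β j ∈ Car K) : I (n + 2) K (Fin.cons Z (Fin.cons (∑ j ∈ T, y j • β j) c)) =
      ∑ j ∈ T, y j * I (n + 2) K (Fin.cons Z (Fin.cons (β j) c)) := by
  classical
  have m := h.tail_ml hK i
  have c0 : ∀ j, (Fin.cons 0 c : Fin (n + 1) → BD K) j ∈ Car K := cons_mem (zero_mem _) hc
  induction T using Finset.induction_on with
  | empty => simpa using m.zero _ 0 c0
  | insert a T ha ih =>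
    have k := m.add _ 0 _ _ c0 ((Car K).smul_mem (y a) (hβ a))
      (sum_mem (t := T) fun j _ => (Car K).smul_mem (y j) (hβ j))
    have k' := m.smul _ 0 (y a) _ c0 (hβ a)
    simp only [Fin.update_cons_zero] at k k'
    rw [Finset.sum_insert ha, Finset.sum_insert ha, k, k', ih]

/-- linearity in the first entry -/
theorem fst_lin (h : Hy) (hK : FF K (n + 1)) {c : Fin n → BD K}
    (hc : ∀ j, c j ∈ Car K) {J : Type} (T : Finset J) (y : J → ℝ) {β : J → BD K}
    (hβ : ∀ j, β j ∈ Car K) : I (n + 1) K (Fin.cons (∑ j ∈ T, y j • β j) c) =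
      ∑ j ∈ T, y j * I (n + 1) K (Fin.cons (β j) c) := by
  classical
  induction T using Finset.induction_on with
  | empty => simp [I_cons]
  | insert a T ha ih =>
    rw [Finset.sum_insert ha, Finset.sum_insert ha, h.cons_add hK
      (h.isb n K hK _ ((Car K).smul_mem (y a) (hβ a)))
      (h.isb n K hK _ (sum_mem fun j _ => (Car K).smul_mem (y j) (hβ j))) hc, cons_smul, ih]

end bas

section key

variable {n : ℕ} {K : Type} [Field K] [Algebra ℂ K] {A κ H Λ Γ N Z : BD K} {ε a C : ℝ} {q : ℕ}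

/-- a log smooth model with a bound for the multiplicities -/
structure Md (n : ℕ) (A κ H : BD K) (C : ℝ) : Prop where
  smp : Smp A
  dk : Dsc A κ
  dh : Dsc A H
  on : ∀ Q, On n A Q → ld (n + 1) κ Q = 1
  off : ∀ Q, ¬ On n A Q → 2 ≤ ld (n + 1) κ Q
  snc : ∀ Q, H Q ≤ ld (n + 1) κ Q
  int : ∀ Q, H Q = 0 ∨ 1 ≤ H Q
  nn : 0 ≤ C
  mult : ∀ Z : BD K, IsB n Z → (∀ Q, On n A Q → 0 ≤ Z Q) → ∀ β ∈ Car K, ∀ d : ℝ,
    Nef (β + d • A) → (∀ Q, On n A Q → β Q ≤ Z Q) → ∀ Q,
    β Q ≤ C * I (n + 1) K (Fin.cons Z fun _ => A) * ld (n + 1) κ Q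

/-- **KEY**: the primes of a weak pair of small level seen from a log smooth model -/
theorem key (h : Hy) (w : WK n ε q a Λ Γ N Z) (M : Md n A κ H C) (e0 : 0 < ε) (e1 : ε ≤ 1)
    (a0 : 0 ≤ a) (cov : ∀ Q, On n A Q → H Q = 1 ∨ H Q = 0 ∧ 0 ≤ dsc (n + 1) Γ Q)
    (sm : C * ((a + 3) * I (n + 1) K (Fin.cons N fun _ => A)) ≤ ε ^ 2 / 4) {u : Pl K}
    (o : On n Λ u) : ε / 2 ≤ ld (n + 1) (Γ + Z) u ∧
      (On n A u ∨ ld (n + 1) (κ + (1 - ε / 2) • H) u ≤ 1) := by
  have hK := w.ff
  obtain ⟨G, g⟩ := (w.bn.add_psef w.p1).eff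
  have nc := w.sn.car
  have zc : Z ∈ Car K := w.rep.car ((Car K).smul_mem _ nc)
  have gc : G ∈ Car K := g.car (add_mem nc (sub_mem nc w.dg.car))
  have pr : Γ + (Z + G) - (a + 2) • N ∈ Prn K := by
    convert add_mem w.rep.2 g.2 using 1
    module
  obtain ⟨d, -, hd⟩ := (M.dk.add (M.dh.smul (1 - ε))).neg.exists_add
  have nf : Nef (Γ + (Z + G) - (κ + (1 - ε) • H) + d • A) := by
    convert ((w.sn.smul (by positivity : 0 ≤ a + 2)).congr pr).nef.add (hd d le_rfl).nef using 1
    module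
  have bz := h.isb n K hK _ (add_mem zc gc)
  have m := M.mult (Z + G) bz (fun Q _ => add_nonneg (w.rep.1 Q) (g.1 Q)) _
    (sub_mem (add_mem w.dg.car (add_mem zc gc)) (M.dk.add (M.dh.smul (1 - ε))).car) d nf
    (fun Q k => by
      have k1 := M.on Q k
      have k2 := w.elc Q trivial
      simp only [ld, dsc, Pi.sub_apply, Pi.add_apply, Pi.smul_apply, smul_eq_mul] at k1 k2 cov ⊢
      rcases cov Q k with k3 | ⟨k3, k4⟩ <;> rw [k3] <;> linarith) u
  have dg : I (n + 1) K (Fin.cons (Z + G) fun _ => A) ≤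
      (a + 3) * I (n + 1) K (Fin.cons N fun _ => A) := by
    rw [← cons_smul]
    refine h.cons_mono hK bz (h.isb n K hK _ ((Car K).smul_mem _ nc)) (w.p2.congr ?_)
      fun _ => M.smp.nef
    convert neg_mem pr using 1
    module
  have x1 : 1 ≤ ld (n + 1) κ u := by
    by_cases k : On n A u
    exacts [(M.on u k).ge, one_le_two.trans (M.off u k)]
  have m' := m.trans (mul_le_mul_of_nonneg_right ((mul_le_mul_of_nonneg_left dg M.nn).trans sm)
    (zero_le_one.trans x1))
  have t1 := w.ix u o 0 0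
  have y1 := M.snc u
  have y2 := M.int u
  have x2 := M.off u
  have g0 : 0 ≤ G u := g.1 u
  have e : ld (n + 1) (κ + (1 - ε / 2) • H) u = ld (n + 1) κ u - (1 - ε / 2) * H u := by
    simp only [ld, dsc, Pi.sub_apply, Pi.add_apply, Pi.smul_apply, smul_eq_mul]
    ring
  have f : ld (n + 1) κ u - (1 - ε) * H u - ε ^ 2 / 4 * ld (n + 1) κ u ≤ ld (n + 1) (Γ + Z) u := by
    simp only [ld, dsc, Pi.sub_apply, Pi.add_apply, Pi.smul_apply, smul_eq_mul] at m' ⊢
    linarith
  simp only [Int.cast_zero, zero_mul, add_zero, Int.fract_zero, sub_zero] at t1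
  rw [e]
  generalize ld (n + 1) κ u = x at *
  generalize ld (n + 1) (Γ + Z) u = t at *
  generalize H u = y at *
  have f1 : (1 - ε) * y ≤ (1 - ε) * x := mul_le_mul_of_nonneg_left y1 (sub_nonneg.2 e1)
  have f2 : ε ^ 2 * x ≤ ε * x := mul_le_mul_of_nonneg_right (by nlinarith) (by linarith)
  have f3 : 3 / 4 * (ε * x) ≤ t := by linarith
  have f4 : ε ≤ ε * x := le_mul_of_one_le_right e0.le x1
  refine ⟨by linarith, or_iff_not_imp_left.2 fun k => ?_⟩
  have f5 : ε * (ε * x) ≤ ε * (4 / 3) := mul_le_mul_of_nonneg_left (by linarith) e0.le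
  rcases y2 with rfl | y2
  · have := x2 k
    nlinarith
  · have := mul_le_mul_of_nonneg_left y2 e0.le
    nlinarith

/-- the index of the polarisation at a prime is bounded -/
theorem WK.int (w : WK n ε q a Λ Γ N Z) {δ : ℝ} (e0 : 0 < δ) {u : Pl K} (o : On n Λ u)
    (k : δ ≤ ld (n + 1) (Γ + Z) u) : ∃ z : ℤ, ((⌊δ⁻¹⌋₊).factorial : ℝ) * N u = z :=
  int_of_fract e0 (w.qn.rat u) fun i => by
    have := w.ix u o i 0
    simp only [Int.cast_zero, zero_mul, add_zero] at this
    linarith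

theorem WK.mono (w : WK n ε q a Λ Γ N Z) {ε' : ℝ} (e : ε' ≤ ε) : WK n ε' q a Λ Γ N Z :=
  { w with elc := fun P k => e.trans (w.elc P k) }

end key

/-- **LIM** for curves -/
theorem lim_zero (h : Hy) : LIM 0 := fun ε q v e0 q0 => by
  have v1 : 0 < |v| + 1 := by positivity
  refine ⟨ε / 2 / (|v| + 1), ⌈((⌊(ε / 2)⁻¹⌋₊).factorial : ℝ) * v⌉₊, by positivity,
    fun K _ _ a m Λ Γ N Z w a0 a1 b hv => ?_⟩
  have hK := w.ff
  have c0 : ∀ {p : BD K → Prop} {A : BD K} (_ : Fin 0), p A := fun i => i.elim0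
  have on : ∀ u, On 0 Λ u := fun u => one_pos
  have nc := w.sn.car
  have e : vol 1 ((m : ℝ) • N) = m * I 1 K (Fin.cons N fun _ => N) := by
    rw [← cons_smul, vol_succ]
    congr 2
    exact Subsingleton.elim _ _
  have p : 0 < I 1 K (Fin.cons N fun _ => N) := h.vol_pos hK w.sn.nef w.bn
  have z : ∀ u, Z u ≤ ε / 2 := fun u => by
    have t := term_le h hK (h.isb 0 K hK _ (w.rep.car ((Car K).smul_mem _ nc))) w.rep.1
      (c := fun _ => N) c0 u
    rw [h.cons_congr hK (h.isb 0 K hK _ ((Car K).smul_mem _ nc)) w.rep.2 c0, cons_smul,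
      show cf u (fun _ : Fin 0 => N) = 1 from rfl, mul_one] at t
    calc _ ≤ ε / 2 / (|v| + 1) * m * I 1 K (Fin.cons N fun _ => N) :=
          t.trans (mul_le_mul_of_nonneg_right a1 p.le)
      _ ≤ ε / 2 / (|v| + 1) * (|v| + 1) := by
          rw [mul_assoc, ← e]
          exact mul_le_mul_of_nonneg_left (hv.trans ((le_abs_self v).trans (lt_add_one _).le))
            (by positivity)
      _ = _ := div_mul_cancel₀ _ v1.ne'
  set r : ℝ := ((⌊(ε / 2)⁻¹⌋₊).factorial : ℝ) with hr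
  have r0 : 0 < r := Nat.cast_pos.2 (Nat.factorial_pos _)
  obtain ⟨j, hj⟩ := Hy.cons_int' (Z := r • N) (b := fun _ : Fin 0 => N) (fun u =>
    w.int (half_pos e0) (on u) (by
      have k := w.elc u trivial
      have := z u
      simp only [ld, dsc, Pi.sub_apply, Pi.add_apply] at k ⊢
      linarith)) fun u => ⟨1, Int.cast_one.symm⟩
  rw [cons_smul] at hj
  have j1 : (1 : ℝ) ≤ j := by
    have := mul_pos r0 p
    rw [hj] at this
    exact_mod_cast (show (0 : ℤ) < j by exact_mod_cast this)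
  refine Nat.cast_le.1 (le_trans ?_ (Nat.le_ceil _) : (m : ℝ) ≤ _)
  calc (m : ℝ) ≤ m * j := le_mul_of_one_le_right (Nat.cast_nonneg m) j1
    _ = r * vol 1 ((m : ℝ) • N) := by rw [e, ← hj]; ring
    _ ≤ _ := mul_le_mul_of_nonneg_left hv r0.le

/-- the data of the last step: the hulls `η a` of the primes `p a` of `V A` have the intersection
numbers `g`, and `r` times a member of `m N` has the coefficients `c` -/
structure La {K : Type} [Field K] [Algebra ℂ K] (k : ℕ) {ι : Type} [Fintype ι]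
    (g : Option ι → ι → ℤ) (E : ι → Prop) (c : ι → ℤ) (r : ℝ) (A Λ N : BD K) (p : ι → Pl K)
    (η : ι → BD K) (f : K) (m : ℕ) : Prop where
  ff : FF K (k + 2)
  smp : Smp A
  big : Big A
  az : A ∈ CarZ K
  hz : ∀ a, η a ∈ CarZ K
  hull : ∀ a, Hull (k + 1) A (p a).δ (η a)
  num : ∀ j a, I (k + 2) K (Fin.cons (η a) (Fin.cons (j.elim A η) fun _ => A)) = g j a
  sn : Smp N
  bn : Big N
  dn : Dsc Λ N
  on : ∀ u, On (k + 1) Λ u → On (k + 1) A u ∧ ∃ z : ℤ, r * N u = z
  exc : ∀ a, E a → ¬ On (k + 1) Λ (p a)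
  cov : ∀ u, On (k + 1) A u → ¬ On (k + 1) Λ u → ∃ a, E a ∧ u = p a
  val : ∀ u, On (k + 1) Λ u → r * (dv f + (m : ℝ) • N) u = ∑ a, c a * η a u

/-- **LAST** -/
theorem last (h : Hy) {k : ℕ} (hn : HN k) {ι : Type} [Fintype ι] (g : Option ι → ι → ℤ)
    (E : ι → Prop) (c : ι → ℤ) {r : ℝ} (r0 : 0 < r) : ∃ m₀ : ℕ, ∀ (K : Type) [Field K] [Algebra ℂ K]
      (A Λ N : BD K) (p : ι → Pl K) (η : ι → BD K) (f : K) (m : ℕ),
      La k g E c r A Λ N p η f m → m ≤ m₀ := by
  classical
  have gen : ∀ (K : Type) [Field K] [Algebra ℂ K] (A Λ N : BD K) (p : ι → Pl K) (η : ι → BD K)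
      (f : K) (m : ℕ), La k g E c r A Λ N p η f m → ∀ (b : Fin (k + 1) → BD K),
      (∀ i, b i ∈ Car K) → I (k + 2) K (Fin.cons (r • (dv f + (m : ℝ) • N)) b) =
        m * (r * I (k + 2) K (Fin.cons N b)) := fun K _ _ A Λ N p η f m t b hb => by
    rw [cons_smul, h.cons_congr t.ff (h.isb _ K t.ff _ ((Car K).smul_mem (m : ℝ) t.sn.car))
      (by simpa using dv_mem_Prn f) hb, cons_smul]
    ring
  rcases dich g E c with ⟨y, y0, y1⟩ | ⟨x, x0, x1⟩
  · refine ⟨(∑ a, c a * ∑ j, y j * g j a).natAbs, fun K _ _ A Λ N p η f m t => ?_⟩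
    have hK := t.ff
    have bz : ∀ j : Option ι, j.elim A η ∈ CarZ K := fun j => by
      cases j
      exacts [t.az, t.hz _]
    have bd : ∀ j : Option ι, Dsc A (j.elim A η) := fun j => by
      cases j
      exacts [.refl t.smp, (t.hull _).1]
    let b : Fin (k + 1) → BD K := Fin.cons (∑ j, (y j : ℝ) • j.elim A η) fun _ => A
    have b1 : ∀ i, b i ∈ CarZ K :=
      cons_mem (sum_mem fun j _ => CarZ.zsmul (bz j) _) fun _ => t.az
    have b2 : ∀ i, Dsc A (b i) :=
      cons_mem (.sum t.smp _ fun j _ => (bd j).smul _) fun _ => .refl t.smp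
    have e1 : ∀ a, I (k + 2) K (Fin.cons (η a) b) = ((∑ j, y j * g j a : ℤ) : ℝ) := fun a => by
      rw [snd_lin h hK (h.isb _ K hK _ (t.hull a).1.car) (fun _ => t.smp.car) _ _
        fun j => (bd j).car]
      simp [t.num]
    have e2 : ∀ u, ¬ On (k + 1) Λ u → cf u b = 0 := fun u o => by
      by_cases o' : On (k + 1) A u
      · obtain ⟨a, ha, rfl⟩ := t.cov u o' o
        rw [h.cf_hull hK t.smp b2 (t.hull a), e1, y0 a ha, Int.cast_zero]
      · exact h.exc hK o' t.smp b2
    have e3 : ∀ W W' : BD K, (∀ u, On (k + 1) Λ u → W u = W' u) →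
        I (k + 2) K (Fin.cons W b) = I (k + 2) K (Fin.cons W' b) := fun W W' e =>
      finsum_congr fun u => by
        change W u * cf u b = W' u * cf u b
        by_cases o : On (k + 1) Λ u
        · rw [e u o]
        · rw [e2 u o, mul_zero, mul_zero]
    obtain ⟨z, hz⟩ := Hy.cons_int' (Z := fun u => if On (k + 1) Λ u then r * N u else 0) (b := b)
      (fun u => by
        by_cases o : On (k + 1) Λ u
        · simpa [o] using (t.on u o).2
        · exact ⟨0, by simp [o]⟩) fun u => h.cf_int hK u b1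
    have e4 := gen K A Λ N p η f m t b fun i => (b2 i).car
    rw [← cons_smul r, e3 (r • N) (fun u => if On (k + 1) Λ u then r * N u else 0)
      fun u o => (if_pos o).symm, hz,
      e3 _ (∑ a, (c a : ℝ) • η a) fun u o => by simpa using t.val u o,
      fst_lin h hK (fun i => (b2 i).car) _ _ fun a => (t.hull a).1.car] at e4
    have e5 : ∑ a, c a * ∑ j, y j * g j a = m * z := by
      simp only [e1] at e4
      exact_mod_cast e4
    exact Nat.le_of_dvd (Int.natAbs_pos.2 y1) (Int.natCast_dvd.1 ⟨z, e5⟩)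
  · refine ⟨0, fun K _ _ A Λ N p η f m t => ?_⟩
    have hK := t.ff
    have hc := fun a => (t.hull a).1.car
    have d : Dsc A (∑ a, x a • η a) := .sum t.smp _ fun a _ => (t.hull a).1.smul _
    have e1 : ∀ j : Option ι, I (k + 2) K
        (Fin.cons (∑ a, x a • η a) (Fin.cons (j.elim A η) fun _ => A)) = 0 := fun j => by
      rw [fst_lin h hK (cons_mem (by cases j; exacts [t.smp.car, hc _]) fun _ => t.smp.car) _ _ hc]
      simpa [t.num] using x1 j
    have e2 := hn K A N _ hK t.smp t.big t.sn d (const_cons A ▸ e1 none) (by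
      rw [snd_lin h hK (h.isb _ K hK _ d.car) (fun _ => t.smp.car) _ _ hc]
      exact Finset.sum_nonneg fun a _ => (mul_eq_zero_of_right _ (e1 (some a))).ge)
    rw [h.cons_trace hK t.dn.smp (fun _ => t.dn) (Z' := r • (dv f + (m : ℝ) • N)) (fun u o => by
      rw [Pi.smul_apply, smul_eq_mul, t.val u o, Finset.sum_apply]
      refine Finset.sum_congr rfl fun a _ => ?_
      by_cases k : E a
      · rw [Pi.smul_apply, (t.hull a).2 u (t.on u o).1, Pl.δ_ne fun e : u = p a => t.exc a k (e ▸ o)]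
        simp
      · rw [Pi.smul_apply, x0 a k, smul_eq_mul]), gen K A Λ N p η f m t _ fun _ => t.sn.car] at e2
    exact_mod_cast ((mul_eq_zero.1 e2).resolve_right
      (mul_pos r0 (h.vol_pos hK t.sn.nef t.bn)).ne').le

end Vale.Agent.P283B.Eb
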